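import Vale.Agent.P052.H768.Main

/-!
Borsuk's partition problem for sets symmetric in a flat: the distance inequalities.
`U` is the direction of the flat, `x = w + v` with `w = U.starProjection x`, `v = zc U x`.
-/

namespace Vale.Agent.P052.H487

open Metric Set
open scoped RealInnerProductSpace
open Vale.Agent.P052.H768 (zc zc_mem sp_mem sp_add_zc inner_zc inner_sp zc_sub norm_sq_split
  continuous_zc tr tr_compact tr_dist smallerCover_of)

variable {V : Type*} [NormedAddCommGroup V] [InnerProductSpace ℝ V] [FiniteDimensional ℝ V]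

theorem sp_refl (U : Submodule ℝ V) (x : V) :
    U.starProjection (U.starProjection x - zc U x) = U.starProjection x := by
  rw [map_sub, (Submodule.starProjection_eq_self_iff).2 (sp_mem U x),
    (Submodule.starProjection_apply_eq_zero_iff U).2 (zc_mem U x), sub_zero]

theorem zc_refl (U : Submodule ℝ V) (x : V) :
    zc U (U.starProjection x - zc U x) = - zc U x := by
  rw [zc, sp_refl]
  abel

theorem dist_sq (U : Submodule ℝ V) (x y : V) :
    dist x y ^ 2 = ‖U.starProjection x - U.starProjection y‖ ^ 2 + ‖zc U x - zc U y‖ ^ 2 := by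
  rw [dist_eq_norm, norm_sq_split U (x - y), zc_sub, map_sub]

section
variable (U : Submodule ℝ V) {K : Set V} {D : ℝ} (hD : ∀ x ∈ K, ∀ y ∈ K, dist x y ≤ D)
  (hinv : ∀ x ∈ K, U.starProjection x - zc U x ∈ K)
include hD hinv

theorem star {x y : V} (hx : x ∈ K) (hy : y ∈ K) :
    ‖U.starProjection x - U.starProjection y‖ ^ 2 + ‖zc U x‖ ^ 2 + ‖zc U y‖ ^ 2
      + 2 * |⟪zc U x, zc U y⟫| ≤ D ^ 2 := by
  have h1 : dist x y ^ 2 ≤ D ^ 2 := by
    have := hD x hx y hy
    gcongr
  have h2 : dist x (U.starProjection y - zc U y) ^ 2 ≤ D ^ 2 := by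
    have := hD x hx _ (hinv y hy)
    gcongr
  rw [dist_sq U, norm_sub_sq_real (zc U x)] at h1
  rw [dist_sq U, sp_refl, zc_refl, sub_neg_eq_add, norm_add_sq_real (zc U x)] at h2
  rcases abs_cases ⟪zc U x, zc U y⟫ with ⟨h, -⟩ | ⟨h, -⟩ <;> rw [h] <;> linarith

theorem dist_sq_le {x y : V} (hx : x ∈ K) (hy : y ∈ K) :
    dist x y ^ 2 ≤ D ^ 2 - 4 * ⟪zc U x, zc U y⟫ := by
  have h1 := star U hD hinv hx hy
  have h2 := le_abs_self ⟪zc U x, zc U y⟫
  rw [dist_sq U, norm_sub_sq_real (zc U x)]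
  linarith

/-- Two orthogonal far pairs. -/
theorem four_term {x x' y y' : V} (hx : x ∈ K) (hx' : x' ∈ K) (hy : y ∈ K) (hy' : y' ∈ K)
    (h1 : dist x x' = D) (h2 : dist y y' = D) (h3 : ⟪zc U x, zc U x'⟫ = 0)
    (h4 : ⟪zc U y, zc U y'⟫ = 0) :
    4 * (|⟪zc U x, zc U y'⟫| + |⟪zc U x', zc U y⟫|) ≤
      ‖(U.starProjection x - U.starProjection x') - (U.starProjection y - U.starProjection y')‖ ^ 2
      := by
  have e1 := star U hD hinv hx hy'
  have e2 := star U hD hinv hx' hy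
  have e3 : dist x x' ^ 2 = D ^ 2 := by rw [h1]
  have e4 : dist y y' ^ 2 = D ^ 2 := by rw [h2]
  rw [dist_sq U, norm_sub_sq_real (zc U x), h3] at e3
  rw [dist_sq U, norm_sub_sq_real (zc U y), h4] at e4
  set a := U.starProjection x
  set b := U.starProjection x'
  set c := U.starProjection y
  set d := U.starProjection y'
  have e5 : 0 ≤ ‖(a - c) + (b - d)‖ ^ 2 := sq_nonneg _
  have e6 : ‖(a - b) - (c - d)‖ ^ 2 = ‖(a - c) - (b - d)‖ ^ 2 := by
    congr 2
    abel
  rw [e6]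
  have e7 : ‖a - d‖ ^ 2 + ‖b - c‖ ^ 2 - ‖a - b‖ ^ 2 - ‖c - d‖ ^ 2 = 2 * ⟪a - c, b - d⟫ := by
    simp only [norm_sub_sq_real, inner_sub_left, inner_sub_right]
    rw [real_inner_comm b c]
    ring
  rw [norm_add_sq_real] at e5
  rw [norm_sub_sq_real (a - c)]
  linarith

end

end Vale.Agent.P052.H487
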