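import Vale.Agent.P052.H487.Sard
import Vale.Agent.P052.H487.Geo
import Mathlib.Analysis.Real.Pi.Bounds
import Mathlib.Analysis.SpecialFunctions.Trigonometric.Bounds

/-!
The angles of the orthogonal far pairs form a null set.
-/

namespace Vale.Agent.P052.H487

open Metric Set MeasureTheory
open scoped RealInnerProductSpace ENNReal
open Vale.Agent.P052.H768 (zc zc_mem sp_mem sp_add_zc inner_zc inner_sp zc_sub norm_sq_split
  continuous_zc tr tr_compact tr_dist smallerCover_of)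

variable {V : Type*} [NormedAddCommGroup V] [InnerProductSpace ℝ V] [FiniteDimensional ℝ V]

/-- The unit vector at angle `α`. -/
noncomputable def ea (e₁ e₂ : V) (α : ℝ) : V := Real.cos α • e₁ + Real.sin α • e₂

/-- The unit vector at angle `α + π / 2`. -/
noncomputable def na (e₁ e₂ : V) (α : ℝ) : V := (-Real.sin α) • e₁ + Real.cos α • e₂

omit [FiniteDimensional ℝ V] in
theorem inner_ea_na {e₁ e₂ : V} (h₁ : ‖e₁‖ = 1) (h₂ : ‖e₂‖ = 1) (h₁₂ : ⟪e₁, e₂⟫ = 0) (α β : ℝ) :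
    ⟪ea e₁ e₂ α, na e₁ e₂ β⟫ = Real.sin (α - β) := by
  have h21 : ⟪e₂, e₁⟫ = 0 := by rw [real_inner_comm]; exact h₁₂
  simp only [ea, na, inner_add_left, inner_add_right, real_inner_smul_left, real_inner_smul_right,
    real_inner_self_eq_norm_sq, h₁, h₂, h₁₂, h21, Real.sin_sub]
  ring

/-- The crosses at angle `α`. -/
def Cross (U : Submodule ℝ V) (K : Set V) (D : ℝ) (e₁ e₂ : V) (n : ℕ) (α : ℝ) (x x' : V) : Prop :=
  x ∈ K ∧ x' ∈ K ∧ dist x x' = D ∧ ∃ s t : ℝ, zc U x = s • ea e₁ e₂ α ∧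
    zc U x' = t • na e₁ e₂ α ∧ 1 / ((n : ℝ) + 1) ≤ |s| ∧ 1 / ((n : ℝ) + 1) ≤ |t|

section
variable (U : Submodule ℝ V) {K : Set V} {D : ℝ} (hD : ∀ x ∈ K, ∀ y ∈ K, dist x y ≤ D)
  (hinv : ∀ x ∈ K, U.starProjection x - zc U x ∈ K)
  {e₁ e₂ : V} (h₁ : ‖e₁‖ = 1) (h₂ : ‖e₂‖ = 1) (h₁₂ : ⟪e₁, e₂⟫ = 0)
  {f₁ f₂ : V} (hf : ∀ a ∈ U, ‖a‖ ^ 2 = ⟪f₁, a⟫ ^ 2 + ⟪f₂, a⟫ ^ 2)
include hD hinv h₁ h₂ h₁₂

theorem cross_ineq {n : ℕ} {α β : ℝ} (hα : α ∈ Icc (0 : ℝ) 1) (hβ : β ∈ Icc (0 : ℝ) 1)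
    {x x' y y' : V} (hx : Cross U K D e₁ e₂ n α x x') (hy : Cross U K D e₁ e₂ n β y y') :
    |α - β| ≤ ((n : ℝ) + 1) ^ 2 / 4 *
      ‖(U.starProjection x - U.starProjection x') -
        (U.starProjection y - U.starProjection y')‖ ^ 2 := by
  obtain ⟨hxK, hxK', hxD, s, t, hs, ht, hs1, ht1⟩ := hx
  obtain ⟨hyK, hyK', hyD, s', t', hs', ht', hs1', ht1'⟩ := hy
  have i1 : ∀ γ : ℝ, ⟪ea e₁ e₂ γ, na e₁ e₂ γ⟫ = 0 := fun γ => by
    rw [inner_ea_na h₁ h₂ h₁₂, sub_self, Real.sin_zero]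
  have h3 : ⟪zc U x, zc U x'⟫ = 0 := by
    rw [hs, ht, real_inner_smul_left, real_inner_smul_right, i1]; ring
  have h4 : ⟪zc U y, zc U y'⟫ = 0 := by
    rw [hs', ht', real_inner_smul_left, real_inner_smul_right, i1]; ring
  have h5 := four_term U hD hinv hxK hxK' hyK hyK' hxD hyD h3 h4
  have h6 : |⟪zc U x, zc U y'⟫| = |s| * |t'| * |Real.sin (α - β)| := by
    rw [hs, ht', real_inner_smul_left, real_inner_smul_right, inner_ea_na h₁ h₂ h₁₂, abs_mul,
      abs_mul]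
    ring
  have h7 : |⟪zc U x', zc U y⟫| = |s'| * |t| * |Real.sin (α - β)| := by
    rw [hs', ht, real_inner_smul_left, real_inner_smul_right, real_inner_comm,
      inner_ea_na h₁ h₂ h₁₂, abs_mul, abs_mul, ← neg_sub, Real.sin_neg, abs_neg]
    ring
  rw [h6, h7] at h5
  have hn : (0 : ℝ) < (n : ℝ) + 1 := by positivity
  have hn' : 0 < 1 / ((n : ℝ) + 1) := by positivity
  have h8 : 1 / ((n : ℝ) + 1) * (1 / ((n : ℝ) + 1)) ≤ |s| * |t'| :=
    mul_le_mul hs1 ht1' hn'.le (abs_nonneg _)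
  have h9 : 1 / ((n : ℝ) + 1) * (1 / ((n : ℝ) + 1)) ≤ |s'| * |t| :=
    mul_le_mul hs1' ht1 hn'.le (abs_nonneg _)
  have h10 : 1 / 2 * |α - β| ≤ |Real.sin (α - β)| := by
    have h11 : |α - β| ≤ 1 := by
      rw [abs_le]
      constructor <;> linarith [hα.1, hα.2, hβ.1, hβ.2]
    have h12 : |α - β| ≤ Real.pi / 2 := by linarith [Real.pi_gt_three]
    have h13 := Real.mul_le_sin (abs_nonneg (α - β)) h12
    have h14 : |Real.sin (α - β)| = Real.sin |α - β| := by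
      rw [Real.abs_sin_eq_sin_abs_of_abs_le_pi (by linarith [Real.pi_gt_three])]
    rw [h14]
    have h15 : (1 : ℝ) / 2 ≤ 2 / Real.pi := by
      rw [div_le_div_iff₀ (by norm_num) Real.pi_pos]
      linarith [Real.pi_le_four]
    have h16 := mul_le_mul_of_nonneg_right h15 (abs_nonneg (α - β))
    linarith
  set Δ := |Real.sin (α - β)| with hΔ
  have hΔ0 : 0 ≤ Δ := abs_nonneg _
  set T := ‖(U.starProjection x - U.starProjection x') -
        (U.starProjection y - U.starProjection y')‖ ^ 2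
  have h17 : 4 * (2 * (1 / ((n : ℝ) + 1) * (1 / ((n : ℝ) + 1)) * Δ)) ≤ T := by
    have := mul_le_mul_of_nonneg_right h8 hΔ0
    have := mul_le_mul_of_nonneg_right h9 hΔ0
    linarith
  have h18 : 4 * (2 * (1 / ((n : ℝ) + 1) * (1 / ((n : ℝ) + 1)) * Δ))
      = 8 * Δ / ((n : ℝ) + 1) ^ 2 := by
    field_simp
    ring
  rw [h18, div_le_iff₀ (by positivity)] at h17
  have h19 : ((n : ℝ) + 1) ^ 2 / 4 * T = T * ((n : ℝ) + 1) ^ 2 / 4 := by ring
  rw [h19]
  linarith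

include hf

theorem null_angles (n : ℕ) :
    volume {α | α ∈ Icc (0 : ℝ) 1 ∧ ∃ x x', Cross U K D e₁ e₂ n α x x'} = 0 := by
  set A : Set ℝ := {α | α ∈ Icc (0 : ℝ) 1 ∧ ∃ x x', Cross U K D e₁ e₂ n α x x'} with hA
  have h : ∀ α ∈ A, ∃ x x', Cross U K D e₁ e₂ n α x x' := fun α hα => hα.2
  choose! x x' hxx using h
  set q : ℝ → ℝ × ℝ := fun α =>
    (⟪f₁, U.starProjection (x α) - U.starProjection (x' α)⟫,
     ⟪f₂, U.starProjection (x α) - U.starProjection (x' α)⟫) with hq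
  set C : ℝ := ((n : ℝ) + 1) ^ 2 / 4 * 2 with hC
  have hC0 : 0 ≤ C := by positivity
  have key : ∀ α ∈ A, ∀ β ∈ A, |α - β| ≤ C * dist (q α) (q β) ^ 2 := by
    intro α hα β hβ
    refine (cross_ineq U hD hinv h₁ h₂ h₁₂ hα.1 hβ.1 (hxx α hα) (hxx β hβ)).trans ?_
    rw [hC, mul_assoc]
    refine mul_le_mul_of_nonneg_left ?_ (by positivity)
    rw [hf _ (U.sub_mem (U.sub_mem (sp_mem U _) (sp_mem U _))
      (U.sub_mem (sp_mem U _) (sp_mem U _))), Prod.dist_eq, Real.dist_eq, Real.dist_eq]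
    simp only [hq]
    rw [← inner_sub_right, ← inner_sub_right]
    set a := ⟪f₁, U.starProjection (x α) - U.starProjection (x' α) -
      (U.starProjection (x β) - U.starProjection (x' β))⟫
    set b := ⟪f₂, U.starProjection (x α) - U.starProjection (x' α) -
      (U.starProjection (x β) - U.starProjection (x' β))⟫
    have ha : a ^ 2 ≤ (max |a| |b|) ^ 2 := by
      rw [← sq_abs a]
      have := le_max_left |a| |b|
      gcongr
    have hb : b ^ 2 ≤ (max |a| |b|) ^ 2 := by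
      rw [← sq_abs b]
      have := le_max_right |a| |b|
      gcongr
    linarith
  have hinj : InjOn q A := by
    intro α hα β hβ hab
    have := key α hα β hβ
    rw [hab, dist_self] at this
    have h0 : |α - β| ≤ 0 := by simpa using this
    exact sub_eq_zero.1 (abs_nonpos_iff.1 h0)
  have hbd : Bornology.IsBounded (q '' A) := by
    refine (isBounded_closedBall (x := (0 : ℝ × ℝ)) (r := D)).subset ?_
    rintro _ ⟨α, hα, rfl⟩
    obtain ⟨h1, h2, h3, -⟩ := hxx α hα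
    have hDn : 0 ≤ D := by rw [← h3]; exact dist_nonneg
    have h4 : ‖U.starProjection (x α) - U.starProjection (x' α)‖ ^ 2 ≤ D ^ 2 := by
      have h5 := dist_sq U (x α) (x' α)
      rw [h3] at h5
      have := sq_nonneg ‖zc U (x α) - zc U (x' α)‖
      linarith
    rw [hf _ (U.sub_mem (sp_mem U _) (sp_mem U _))] at h4
    rw [mem_closedBall_zero_iff, Prod.norm_def, Real.norm_eq_abs, Real.norm_eq_abs]
    refine max_le ?_ ?_
    · refine abs_le_of_sq_le_sq ?_ hDn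
      have := sq_nonneg ⟪f₂, U.starProjection (x α) - U.starProjection (x' α)⟫
      linarith
    · refine abs_le_of_sq_le_sq ?_ hDn
      have := sq_nonneg ⟪f₁, U.starProjection (x α) - U.starProjection (x' α)⟫
      linarith
  set f : ℝ × ℝ → ℝ := Function.invFunOn q A with hfdef
  have hfq : ∀ α ∈ A, f (q α) = α := fun α hα => hinj.leftInvOn_invFunOn hα
  have himg : f '' (q '' A) = A := by
    ext α
    constructor
    · rintro ⟨_, ⟨β, hβ, rfl⟩, rfl⟩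
      rw [hfq β hβ]
      exact hβ
    · intro hα
      exact ⟨q α, ⟨α, hα, rfl⟩, hfq α hα⟩
  have := null_image hbd (f := f) hC0 (by
    rintro _ ⟨α, hα, rfl⟩ _ ⟨β, hβ, rfl⟩
    rw [hfq α hα, hfq β hβ]
    exact key α hα β hβ)
  rwa [himg] at this

/-- There is an angle without orthogonal far pairs. -/
theorem exists_good_angle :
    ∃ α : ℝ, ∀ x ∈ K, ∀ x' ∈ K, dist x x' = D → ∀ s t : ℝ, zc U x = s • ea e₁ e₂ α →
      zc U x' = t • na e₁ e₂ α → s = 0 ∨ t = 0 := by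
  have h0 : volume (⋃ n : ℕ, {α | α ∈ Icc (0 : ℝ) 1 ∧ ∃ x x', Cross U K D e₁ e₂ n α x x'}) = 0 :=
    measure_iUnion_null fun n => null_angles U hD hinv h₁ h₂ h₁₂ hf n
  have h1 : ∃ α ∈ Icc (0 : ℝ) 1,
      α ∉ ⋃ n : ℕ, {α | α ∈ Icc (0 : ℝ) 1 ∧ ∃ x x', Cross U K D e₁ e₂ n α x x'} := by
    by_contra hcon
    push Not at hcon
    have h2 : volume (Icc (0 : ℝ) 1) ≤ 0 := by
      rw [← h0]
      exact measure_mono hcon
    rw [Real.volume_Icc] at h2
    norm_num at h2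
  obtain ⟨α, hα, hαn⟩ := h1
  refine ⟨α, fun x hx x' hx' hd s t hs ht => ?_⟩
  by_contra hcon
  push Not at hcon
  obtain ⟨hs0, ht0⟩ := hcon
  obtain ⟨n, hn⟩ := exists_nat_one_div_lt (lt_min (abs_pos.2 hs0) (abs_pos.2 ht0))
  refine hαn (mem_iUnion.2 ⟨n, hα, x, x', hx, hx', hd, s, t, hs, ht, ?_, ?_⟩)
  · exact (hn.trans_le (min_le_left _ _)).le
  · exact (hn.trans_le (min_le_right _ _)).le

end

end Vale.Agent.P052.H487
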