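import Vale.Agent.P052.H487.Defs
import Mathlib.Analysis.InnerProductSpace.Projection.Reflection

/-!
Borsuk's partition problem: definitions for the statement on orthogonal symmetries.
-/

namespace Vale.Agent.P052.H487

open scoped RealInnerProductSpace

/-- The excess of a rotation angle: `2` for half-turns, `1` for `2π/3`, and `0` otherwise. -/
noncomputable def excess (θ : ℝ) : ℕ :=
  if θ = Real.pi then 2 else if θ = 2 * Real.pi / 3 then 1 else 0

/-- Euclidean space. -/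
abbrev E (d : ℕ) : Type := EuclideanSpace ℝ (Fin d)

/-- The linear subspaces of Euclidean space. -/
abbrev Sub (d : ℕ) : Type := Submodule ℝ (E d)

/-- The linear isometries of Euclidean space. -/
abbrev Iso (d : ℕ) : Type := E d ≃ₗᵢ[ℝ] E d

/-- The dimension of a subspace. -/
noncomputable def dim {d : ℕ} (W : Sub d) : ℕ := Module.finrank ℝ W

/-- `G` fixes the orthogonal complement of `W` pointwise, and all orbits of `G` on the unit sphere
of `W` are dense enough. -/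
def DenseOrbits {d : ℕ} (W : Sub d) (G : Set (Iso d)) : Prop :=
  (∀ g ∈ G, ∀ v ∈ Wᗮ, g v = v) ∧
  ∃ c : ℝ, 1 / 2 ≤ c ∧ (dim W : ℝ) < c * (dim W + 2) ∧
    ∀ u ∈ W, ∀ v ∈ W, ∃ g ∈ G, ⟪u, g v⟫ ≤ -(c * (‖u‖ * ‖v‖))

/-- The vectors `e` are orthonormal, the subspaces `W j` are orthogonal to each other and to all
vectors `e v`. -/
def OrthSystem {d k r : ℕ} (e : Fin k × Fin 2 → E d) (W : Fin r → Sub d) : Prop :=
  Orthonormal ℝ e ∧ (∀ i j, i ≠ j → W i ⟂ W j) ∧ ∀ v j, e v ∈ (W j)ᗮ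

/-- `X` is invariant under the maps `x ↦ p + g (x - p)`, `g ∈ G`. -/
def GroupInvariant {d : ℕ} (X : Set (E d)) (p : E d) (G : Set (Iso d)) : Prop :=
  ∀ g ∈ G, ∀ x ∈ X, p + g (x - p) ∈ X

/-- `X` is invariant under the rotations by `θ i` in the planes spanned by `e (i, 0)`, `e (i, 1)`
about `p`, and under the maps `x ↦ p + g (x - p)`, `g ∈ G j`. -/
def IsInvariant {d k r : ℕ} (X : Set (E d)) (p : E d) (e : Fin k × Fin 2 → E d) (θ : Fin k → ℝ)
    (G : Fin r → Set (Iso d)) : Prop :=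
  (∀ i, ∀ x ∈ X, rotation (e (i, 0)) (e (i, 1)) ⟪e (i, 0), p⟫ ⟪e (i, 1), p⟫ (θ i) x ∈ X) ∧
  ∀ j, GroupInvariant X p (G j)

/-- Every vector of `W` is nearly reversed by some element of `G`. -/
def NearlyReversed {d : ℕ} (W : Sub d) (G : Set (Iso d)) : Prop :=
  ∀ u ∈ W, ∃ g ∈ G, ⟪u, g u⟫ ≤ -(101 / 125 * ‖u‖ ^ 2)

/-- The flat through `p` orthogonal to all `e v` and all `W j`. -/
def commonFlat {d k r : ℕ} (p : E d) (e : Fin k × Fin 2 → E d) (W : Fin r → Sub d) : Set (E d) :=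
  {x | (∀ v, ⟪e v, x - p⟫ = 0) ∧ ∀ j, x - p ∈ (W j)ᗮ}

/-- The line spanned by `n`. -/
def line {d : ℕ} (n : E d) : Sub d := Submodule.span ℝ {n}

/-- The identity and the reflection in the hyperplane orthogonal to `n`. -/
noncomputable def mirror {d : ℕ} (n : E d) : Set (Iso d) :=
  {LinearIsometryEquiv.refl ℝ _, (Submodule.span ℝ {n})ᗮ.reflection}

end Vale.Agent.P052.H487
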