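import Vale.Agent.P052.H487.Cone
import Vale.Agent.P052.H487.Defs2

/-!
Borsuk's partition problem: sets in small balls, and sets with nearly reversing symmetries.
-/

namespace Vale.Agent.P052.H487

open Metric Set
open scoped RealInnerProductSpace
open Vale.Agent.P052.H768 (tr tr_compact tr_dist)

variable {d : ℕ} {X : Set (EuclideanSpace ℝ (Fin d))}

/-- Points of small norm: the simplex cones. -/
theorem cov_ball {K : Set (EuclideanSpace ℝ (Fin d))} (hK : IsCompact K) {D s : ℝ}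
    (hs : ∀ x ∈ K, ‖x‖ ^ 2 ≤ s) (h : 4 * (d + 1) * s < (d + 2) * D ^ 2) : Cov K D (d + 1) := by
  obtain ⟨y, hy0, hyi⟩ := exists_simplex_coord (V := EuclideanSpace ℝ (Fin d)) (m := d)
    finrank_euclideanSpace_fin
  have hyc : ∀ i, Continuous (y i) := fun i => LinearMap.continuous_of_finiteDimensional (y i)
  have hclosed : ∀ j, IsClosed {x | ∀ i, y j x ≤ y i x} := by
    intro j
    have : {x | ∀ i, y j x ≤ y i x} = ⋂ i, {x | y j x ≤ y i x} := by
      ext x; simp
    rw [this]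
    exact isClosed_iInter fun i => isClosed_le (hyc j) (hyc i)
  refine ⟨fun j => K ∩ {x | ∀ i, y j x ≤ y i x}, fun j => hK.inter_right (hclosed j),
    fun j => inter_subset_left, ?_, ?_⟩
  · intro x hx
    obtain ⟨j, hj⟩ := Finite.exists_min (fun i => y i x)
    exact mem_iUnion.2 ⟨j, hx, hj⟩
  · intro j x hx z hz hxz
    have h1 := cone_base (fun i => y i x) (fun i => y i z) (hy0 x) (hy0 z) j hx.2 hz.2
    have e1 : ∑ i, y i x ^ 2 = ‖x‖ ^ 2 := by
      rw [← real_inner_self_eq_norm_sq, ← hyi]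
      exact Finset.sum_congr rfl fun i _ => pow_two _
    have e2 : ∑ i, y i z ^ 2 = ‖z‖ ^ 2 := by
      rw [← real_inner_self_eq_norm_sq, ← hyi]
      exact Finset.sum_congr rfl fun i _ => pow_two _
    rw [hyi, e1, e2] at h1
    have h2 : D ^ 2 = ‖x‖ ^ 2 - 2 * ⟪x, z⟫ + ‖z‖ ^ 2 := by
      rw [← hxz, dist_eq_norm, norm_sub_sq_real]
    have h3 := hs x hx.1
    have h4 := hs z hz.1
    have hd0 : (0 : ℝ) ≤ d := Nat.cast_nonneg d
    have h5 : ((d : ℝ) + 2) * D ^ 2 ≤ 2 * (d + 1) * (‖x‖ ^ 2 + ‖z‖ ^ 2) := by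
      rw [h2]
      nlinarith
    have h6 : 2 * ((d : ℝ) + 1) * (‖x‖ ^ 2 + ‖z‖ ^ 2) ≤ 2 * (d + 1) * (s + s) :=
      mul_le_mul_of_nonneg_left (by linarith) (by positivity)
    linarith

/-- **Sets in small balls.** -/
theorem main_ball (hX : Bornology.IsBounded X) (hD : 0 < Metric.diam X)
    (p : EuclideanSpace ℝ (Fin d)) {r : ℝ} (hr : ∀ x ∈ X, dist x p ≤ r)
    (h : 4 * (d + 1) * r ^ 2 < (d + 2) * Metric.diam X ^ 2) : IsSmallerCover X (d + 1) := by
  refine cov_final hX hD p (cov_ball (tr_compact hX p) (s := r ^ 2) ?_ h)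
  rintro _ ⟨x, hx, rfl⟩
  have hcl : closure X ⊆ {x | dist x p ≤ r} :=
    closure_minimal hr (isClosed_le (by fun_prop) continuous_const)
  have h1 : dist x p ≤ r := hcl hx
  rw [dist_eq_norm] at h1
  dsimp only
  gcongr

/-- **Nearly reversing symmetries.** -/
theorem main_reversed (hX : Bornology.IsBounded X) (hD : 0 < Metric.diam X)
    (p : EuclideanSpace ℝ (Fin d))
    (G : Set (EuclideanSpace ℝ (Fin d) ≃ₗᵢ[ℝ] EuclideanSpace ℝ (Fin d))) {c : ℝ}
    (hc : (d : ℝ) < c * (d + 2)) (hG : ∀ u, ∃ g ∈ G, ⟪u, g u⟫ ≤ -(c * ‖u‖ ^ 2))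
    (hgrp : ∀ g ∈ G, ∀ x ∈ X, p + g (x - p) ∈ X) : IsSmallerCover X (d + 1) := by
  have hd0 : (0 : ℝ) ≤ d := Nat.cast_nonneg d
  have hc0 : 0 < 1 + c := by
    have h1 : 0 < c * (d + 2) := lt_of_le_of_lt hd0 hc
    have h2 : 0 < c := by
      by_contra hcon
      push Not at hcon
      have := mul_nonpos_of_nonpos_of_nonneg hcon (by positivity : (0 : ℝ) ≤ (d : ℝ) + 2)
      linarith
    linarith
  refine cov_final hX hD p (cov_ball (tr_compact hX p)
    (s := Metric.diam X ^ 2 / (2 * (1 + c))) ?_ ?_)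
  · rintro _ ⟨x, hx, rfl⟩
    obtain ⟨g, hgG, hg⟩ := hG (x - p)
    have h1 : p + g (x - p) ∈ closure X := map_mem_closure (f := fun x => p + g (x - p))
      (by have := g.continuous; fun_prop) hx (fun y hy => hgrp g hgG y hy)
    have h2 : dist x (p + g (x - p)) ≤ Metric.diam X := by
      rw [← Metric.diam_closure X]
      exact Metric.dist_le_diam_of_mem hX.closure hx h1
    have h3 : x - (p + g (x - p)) = (x - p) - g (x - p) := by abel
    have h4 : dist x (p + g (x - p)) ^ 2 ≤ Metric.diam X ^ 2 := by gcongr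
    rw [dist_eq_norm, h3, norm_sub_sq_real, g.norm_map] at h4
    dsimp only
    rw [le_div_iff₀ (by positivity)]
    nlinarith
  · rw [← mul_div_assoc, div_lt_iff₀ (by positivity)]
    have h5 : 0 < Metric.diam X ^ 2 := by positivity
    have h6 : 4 * ((d : ℝ) + 1) < (d + 2) * (2 * (1 + c)) := by nlinarith
    calc 4 * ((d : ℝ) + 1) * Metric.diam X ^ 2
        < (d + 2) * (2 * (1 + c)) * Metric.diam X ^ 2 := mul_lt_mul_of_pos_right h6 h5
      _ = (d + 2) * Metric.diam X ^ 2 * (2 * (1 + c)) := by ring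

end Vale.Agent.P052.H487
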