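import Mathlib.Tactic.Linarith
import Mathlib.Data.Real.Basic

/-! Polynomial inequalities for pairs in a sector: circumradius box 1. -/

set_option autoImplicit false
set_option linter.unusedVariables false

namespace Vale.Agent.P052.H487.Box1

theorem box1r0_0 (a b s a' b' s' : ℝ)
    (xR : 0 ≤ 17/50 - s)
    (xC1 : 0 ≤ 1089/1000 - 2 * a - 3 * b)
    (yR : 0 ≤ 17/50 - s')
    (yC1 : 0 ≤ 1089/1000 - 2 * a' - 3 * b')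
    (yC2 : 0 ≤ 1089/1000 - 2 * a' + 3 * b')
    (yC3 : 0 ≤ 151/500 + a')
    (b0 : 0 ≤ b)
    (xl : 0 ≤ 223/1000 - a)
    (xP1 : 0 ≤ 381391/500000 + 223/500 * a - 433/500 * b - s)
    (yl : 0 ≤ 223/1000 - a')
    (yP1 : 0 ≤ 381391/500000 + 223/500 * a' - 433/500 * b' - s')
    (yP2 : 0 ≤ 381391/500000 + 223/500 * a' + 433/500 * b' - s')
    (s_an2_p : 0 ≤ a + 1/5)
    (q2 : 0 ≤ s' - a' ^ 2 - b' ^ 2) :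
    s + 2 / 5 * s' + 3 / 5 * (a' ^ 2 + b' ^ 2) - 2 * (a * a') - 2 * (b * b') ≤ 1 - 1 / 1000 := by
  linarith only [mul_nonneg yC3 s_an2_p, mul_nonneg xC1 yR, mul_nonneg yC2 yP1,
    mul_nonneg xC1 yC1, mul_nonneg yC2 xl, mul_nonneg xR yl, mul_nonneg xR yC2,
    mul_nonneg xR yC1, mul_nonneg b0 yP2, q2, mul_nonneg yR yC2, mul_nonneg yR s_an2_p,
    mul_nonneg yC1 yP2, mul_nonneg yC1 xP1, mul_nonneg yR yC3, mul_nonneg yC2 yC3,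
    mul_nonneg yC2 b0, mul_nonneg yC3 xP1, mul_nonneg xC1 yl]

theorem box1r0_1 (a b s a' b' s' : ℝ)
    (xR : 0 ≤ 17/50 - s)
    (xC1 : 0 ≤ 1089/1000 - 2 * a - 3 * b)
    (xC3 : 0 ≤ 151/500 + a)
    (yR : 0 ≤ 17/50 - s')
    (yC1 : 0 ≤ 1089/1000 - 2 * a' - 3 * b')
    (yC2 : 0 ≤ 1089/1000 - 2 * a' + 3 * b')
    (yC3 : 0 ≤ 151/500 + a')
    (b0 : 0 ≤ b)
    (xP1 : 0 ≤ 381391/500000 + 223/500 * a - 433/500 * b - s)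
    (yl : 0 ≤ 223/1000 - a')
    (yP1 : 0 ≤ 381391/500000 + 223/500 * a' - 433/500 * b' - s')
    (yP2 : 0 ≤ 381391/500000 + 223/500 * a' + 433/500 * b' - s')
    (s_an2_m : 0 ≤ -(a + 1/5))
    (q2 : 0 ≤ s' - a' ^ 2 - b' ^ 2) :
    s + 2 / 5 * s' + 3 / 5 * (a' ^ 2 + b' ^ 2) - 2 * (a * a') - 2 * (b * b') ≤ 1 - 1 / 1000 := by
  linarith only [mul_nonneg xC1 s_an2_m, sq_nonneg (b + b'), mul_nonneg xC3 xP1, q2,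
    mul_nonneg xC1 yR, mul_nonneg xR xC1, mul_nonneg yC3 xP1, mul_nonneg xC3 yC2,
    mul_nonneg yC2 yP1, mul_nonneg xC3 yP2, mul_nonneg xC1 yl, mul_nonneg b0 xP1,
    mul_nonneg xR yC2, mul_nonneg yR yC3, mul_nonneg yC1 yC2, mul_nonneg xR yC3,
    mul_nonneg yl s_an2_m, mul_nonneg yC1 yP2, mul_nonneg xC3 s_an2_m, mul_nonneg yl yP2,
    mul_nonneg yC2 yC3, mul_nonneg yC2 b0, mul_nonneg b0 yP2, mul_nonneg yC1 xP1]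

theorem box1r1_0 (a b s a' b' s' : ℝ)
    (xR : 0 ≤ 17/50 - s)
    (xC1 : 0 ≤ 1089/1000 - 2 * a - 3 * b)
    (xC2 : 0 ≤ 1089/1000 - 2 * a + 3 * b)
    (xC3 : 0 ≤ 151/500 + a)
    (yR : 0 ≤ 17/50 - s')
    (yC1 : 0 ≤ 1089/1000 - 2 * a' - 3 * b')
    (yC2 : 0 ≤ 1089/1000 - 2 * a' + 3 * b')
    (yC3 : 0 ≤ 151/500 + a')
    (b0 : 0 ≤ b)
    (xg : 0 ≤ a - 223/1000)
    (yP1 : 0 ≤ 381391/500000 + 223/500 * a' - 433/500 * b' - s')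
    (yP2 : 0 ≤ 381391/500000 + 223/500 * a' + 433/500 * b' - s')
    (q2 : 0 ≤ s' - a' ^ 2 - b' ^ 2) :
    s + 2 / 5 * s' + 3 / 5 * (a' ^ 2 + b' ^ 2) - 2 * (a * a') - 2 * (b * b') ≤ 1 - 1 / 1000 := by
  linarith only [mul_nonneg yC3 xg, mul_nonneg xC1 yC1, mul_nonneg xC3 yC3, mul_nonneg xC1 yR,
    mul_nonneg xC1 xC1, mul_nonneg xC1 xC2, mul_nonneg xC2 yC2, mul_nonneg yR xg,
    mul_nonneg xC1 xg, xR, mul_nonneg yC1 yC3, mul_nonneg yC2 yP1, mul_nonneg yC1 yP2,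
    mul_nonneg xC2 yP2, q2, mul_nonneg yC2 yC3, mul_nonneg yR yC3, mul_nonneg yC2 b0]

theorem box1r2_0 (a b s a' b' s' : ℝ)
    (xR : 0 ≤ 17/50 - s)
    (xC1 : 0 ≤ 1089/1000 - 2 * a - 3 * b)
    (xC2 : 0 ≤ 1089/1000 - 2 * a + 3 * b)
    (xC3 : 0 ≤ 151/500 + a)
    (yR : 0 ≤ 17/50 - s')
    (yC1 : 0 ≤ 1089/1000 - 2 * a' - 3 * b')
    (yC2 : 0 ≤ 1089/1000 - 2 * a' + 3 * b')
    (yC3 : 0 ≤ 151/500 + a')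
    (xl : 0 ≤ 223/1000 - a)
    (yg : 0 ≤ a' - 223/1000) :
    s + 2 / 5 * s' + 3 / 5 * (a' ^ 2 + b' ^ 2) - 2 * (a * a') - 2 * (b * b') ≤ 1 - 1 / 1000 := by
  linarith only [mul_nonneg xC3 yC3, mul_nonneg xC1 yC1, xC3, mul_nonneg xC2 yC2, xR,
    mul_nonneg yC2 xl, mul_nonneg yC2 yg, mul_nonneg yC1 xl, mul_nonneg yR yC1,
    mul_nonneg yC1 yC2, mul_nonneg yR yC3, mul_nonneg yC1 yg, mul_nonneg yR yC2]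

theorem box1r3_0 (a b s a' b' s' : ℝ)
    (xR : 0 ≤ 17/50 - s)
    (xC1 : 0 ≤ 1089/1000 - 2 * a - 3 * b)
    (xC2 : 0 ≤ 1089/1000 - 2 * a + 3 * b)
    (yR : 0 ≤ 17/50 - s')
    (yC1 : 0 ≤ 1089/1000 - 2 * a' - 3 * b')
    (yC2 : 0 ≤ 1089/1000 - 2 * a' + 3 * b')
    (yC3 : 0 ≤ 151/500 + a')
    (b0 : 0 ≤ b)
    (xg : 0 ≤ a - 223/1000)
    (yg : 0 ≤ a' - 223/1000) :
    s + 2 / 5 * s' + 3 / 5 * (a' ^ 2 + b' ^ 2) - 2 * (a * a') - 2 * (b * b') ≤ 1 - 1 / 1000 := by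
  linarith only [mul_nonneg xC1 xC2, mul_nonneg yC2 b0, mul_nonneg xC1 yC1, xg,
    mul_nonneg xC1 xC1, mul_nonneg xC2 yg, mul_nonneg xC2 yC2, mul_nonneg xC1 xg, xR,
    mul_nonneg xg yg, mul_nonneg yR yC1, mul_nonneg yC2 yg, mul_nonneg yC1 yC2,
    mul_nonneg yR yC3, mul_nonneg yC1 yg, mul_nonneg yR yC2]

theorem box1r0 (a b s a' b' s' : ℝ)
    (xR : 0 ≤ 17/50 - s)
    (xC1 : 0 ≤ 1089/1000 - 2 * a - 3 * b)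
    (xC2 : 0 ≤ 1089/1000 - 2 * a + 3 * b)
    (xC3 : 0 ≤ 151/500 + a)
    (yR : 0 ≤ 17/50 - s')
    (yC1 : 0 ≤ 1089/1000 - 2 * a' - 3 * b')
    (yC2 : 0 ≤ 1089/1000 - 2 * a' + 3 * b')
    (yC3 : 0 ≤ 151/500 + a')
    (b0 : 0 ≤ b)
    (xl : 0 ≤ 223/1000 - a)
    (xP1 : 0 ≤ 381391/500000 + 223/500 * a - 433/500 * b - s)
    (xP2 : 0 ≤ 381391/500000 + 223/500 * a + 433/500 * b - s)
    (yl : 0 ≤ 223/1000 - a')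
    (yP1 : 0 ≤ 381391/500000 + 223/500 * a' - 433/500 * b' - s')
    (yP2 : 0 ≤ 381391/500000 + 223/500 * a' + 433/500 * b' - s')
    (q1 : 0 ≤ s - a ^ 2 - b ^ 2) (q2 : 0 ≤ s' - a' ^ 2 - b' ^ 2) :
    s + 2 / 5 * s' + 3 / 5 * (a' ^ 2 + b' ^ 2) - 2 * (a * a') - 2 * (b * b') ≤ 1 - 1 / 1000 := by
  rcases le_total 0 (a + 1/5) with s_an2_p | s_an2_m
  · exact box1r0_0 a b s a' b' s' xR xC1 yR yC1 yC2 yC3 b0 xl xP1 yl yP1 yP2 s_an2_p q2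
  · replace s_an2_m := neg_nonneg.2 s_an2_m
    exact box1r0_1 a b s a' b' s' xR xC1 xC3 yR yC1 yC2 yC3 b0 xP1 yl yP1 yP2 s_an2_m q2

theorem box1r1 (a b s a' b' s' : ℝ)
    (xR : 0 ≤ 17/50 - s)
    (xC1 : 0 ≤ 1089/1000 - 2 * a - 3 * b)
    (xC2 : 0 ≤ 1089/1000 - 2 * a + 3 * b)
    (xC3 : 0 ≤ 151/500 + a)
    (yR : 0 ≤ 17/50 - s')
    (yC1 : 0 ≤ 1089/1000 - 2 * a' - 3 * b')
    (yC2 : 0 ≤ 1089/1000 - 2 * a' + 3 * b')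
    (yC3 : 0 ≤ 151/500 + a')
    (b0 : 0 ≤ b)
    (xg : 0 ≤ a - 223/1000)
    (yl : 0 ≤ 223/1000 - a')
    (yP1 : 0 ≤ 381391/500000 + 223/500 * a' - 433/500 * b' - s')
    (yP2 : 0 ≤ 381391/500000 + 223/500 * a' + 433/500 * b' - s')
    (q1 : 0 ≤ s - a ^ 2 - b ^ 2) (q2 : 0 ≤ s' - a' ^ 2 - b' ^ 2) :
    s + 2 / 5 * s' + 3 / 5 * (a' ^ 2 + b' ^ 2) - 2 * (a * a') - 2 * (b * b') ≤ 1 - 1 / 1000 := by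
  exact box1r1_0 a b s a' b' s' xR xC1 xC2 xC3 yR yC1 yC2 yC3 b0 xg yP1 yP2 q2

theorem box1r2 (a b s a' b' s' : ℝ)
    (xR : 0 ≤ 17/50 - s)
    (xC1 : 0 ≤ 1089/1000 - 2 * a - 3 * b)
    (xC2 : 0 ≤ 1089/1000 - 2 * a + 3 * b)
    (xC3 : 0 ≤ 151/500 + a)
    (yR : 0 ≤ 17/50 - s')
    (yC1 : 0 ≤ 1089/1000 - 2 * a' - 3 * b')
    (yC2 : 0 ≤ 1089/1000 - 2 * a' + 3 * b')
    (yC3 : 0 ≤ 151/500 + a')
    (b0 : 0 ≤ b)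
    (xl : 0 ≤ 223/1000 - a)
    (xP1 : 0 ≤ 381391/500000 + 223/500 * a - 433/500 * b - s)
    (xP2 : 0 ≤ 381391/500000 + 223/500 * a + 433/500 * b - s)
    (yg : 0 ≤ a' - 223/1000)
    (q1 : 0 ≤ s - a ^ 2 - b ^ 2) (q2 : 0 ≤ s' - a' ^ 2 - b' ^ 2) :
    s + 2 / 5 * s' + 3 / 5 * (a' ^ 2 + b' ^ 2) - 2 * (a * a') - 2 * (b * b') ≤ 1 - 1 / 1000 := by
  exact box1r2_0 a b s a' b' s' xR xC1 xC2 xC3 yR yC1 yC2 yC3 xl yg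

theorem box1r3 (a b s a' b' s' : ℝ)
    (xR : 0 ≤ 17/50 - s)
    (xC1 : 0 ≤ 1089/1000 - 2 * a - 3 * b)
    (xC2 : 0 ≤ 1089/1000 - 2 * a + 3 * b)
    (xC3 : 0 ≤ 151/500 + a)
    (yR : 0 ≤ 17/50 - s')
    (yC1 : 0 ≤ 1089/1000 - 2 * a' - 3 * b')
    (yC2 : 0 ≤ 1089/1000 - 2 * a' + 3 * b')
    (yC3 : 0 ≤ 151/500 + a')
    (b0 : 0 ≤ b)
    (xg : 0 ≤ a - 223/1000)
    (yg : 0 ≤ a' - 223/1000)
    (q1 : 0 ≤ s - a ^ 2 - b ^ 2) (q2 : 0 ≤ s' - a' ^ 2 - b' ^ 2) :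
    s + 2 / 5 * s' + 3 / 5 * (a' ^ 2 + b' ^ 2) - 2 * (a * a') - 2 * (b * b') ≤ 1 - 1 / 1000 := by
  exact box1r3_0 a b s a' b' s' xR xC1 xC2 yR yC1 yC2 yC3 b0 xg yg

end Vale.Agent.P052.H487.Box1
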