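import Mathlib.Tactic.Linarith
import Mathlib.Data.Real.Basic

/-! Polynomial inequalities for pairs in a sector: circumradius box 2. -/

set_option autoImplicit false
set_option linter.unusedVariables false

namespace Vale.Agent.P052.H487.Box2

theorem box2r0_0 (a b s a' b' s' : ℝ)
    (xR : 0 ≤ 179/500 - s)
    (xC1 : 0 ≤ 117/250 - 1 * a - 1 * b)
    (xC3 : 0 ≤ 331/1000 + a)
    (yR : 0 ≤ 179/500 - s')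
    (yC1 : 0 ≤ 117/250 - 1 * a' - 1 * b')
    (yC2 : 0 ≤ 117/250 - 1 * a' + 1 * b')
    (yC3 : 0 ≤ 331/1000 + a')
    (b0 : 0 ≤ b)
    (xP1 : 0 ≤ 873/1250 + 3/5 * a - 23/25 * b - s)
    (yl : 0 ≤ 3/10 - a')
    (yP1 : 0 ≤ 873/1250 + 3/5 * a' - 23/25 * b' - s')
    (yP2 : 0 ≤ 873/1250 + 3/5 * a' + 23/25 * b' - s')
    (s_Bn4_p : 0 ≤ b' + 2/5)
    (q2 : 0 ≤ s' - a' ^ 2 - b' ^ 2) :
    s + 2 / 5 * s' + 3 / 5 * (a' ^ 2 + b' ^ 2) - 2 * (a * a') - 2 * (b * b') ≤ 1 - 1 / 1000 := by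
  linarith only [mul_nonneg yC3 xP1, mul_nonneg yP1 s_Bn4_p, mul_nonneg yR yC1,
    mul_nonneg yC2 yP1, mul_nonneg xR yC1, mul_nonneg xR yl, mul_nonneg xC1 yC1,
    mul_nonneg xR yC2, q2, mul_nonneg yC3 yl, mul_nonneg yR yC3, mul_nonneg yC2 yC3,
    mul_nonneg yC1 xP1, mul_nonneg b0 s_Bn4_p, mul_nonneg yC1 yP2, mul_nonneg xC3 yC3,
    mul_nonneg xC1 yl]

theorem box2r0_1 (a b s a' b' s' : ℝ)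
    (xR : 0 ≤ 179/500 - s)
    (xC1 : 0 ≤ 117/250 - 1 * a - 1 * b)
    (xC2 : 0 ≤ 117/250 - 1 * a + 1 * b)
    (yR : 0 ≤ 179/500 - s')
    (yC1 : 0 ≤ 117/250 - 1 * a' - 1 * b')
    (yC2 : 0 ≤ 117/250 - 1 * a' + 1 * b')
    (yC3 : 0 ≤ 331/1000 + a')
    (xP1 : 0 ≤ 873/1250 + 3/5 * a - 23/25 * b - s)
    (yP2 : 0 ≤ 873/1250 + 3/5 * a' + 23/25 * b' - s')
    (s_Bn4_m : 0 ≤ -(b' + 2/5))
    (s_apA_p : 0 ≤ a + a')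
    (q2 : 0 ≤ s' - a' ^ 2 - b' ^ 2) :
    s + 2 / 5 * s' + 3 / 5 * (a' ^ 2 + b' ^ 2) - 2 * (a * a') - 2 * (b * b') ≤ 1 - 1 / 1000 := by
  linarith only [mul_nonneg xC2 yP2, mul_nonneg yP2 s_apA_p, mul_nonneg yC3 xP1,
    mul_nonneg xC1 yR, mul_nonneg xP1 s_Bn4_m, q2, mul_nonneg xC2 yC2, mul_nonneg yC2 s_Bn4_m,
    mul_nonneg yR s_apA_p, mul_nonneg xR yC1, mul_nonneg xC1 yC1, mul_nonneg xR yC2,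
    mul_nonneg yC2 yP2, mul_nonneg yC1 xP1, mul_nonneg yC1 yP2, mul_nonneg xC1 yC2, xR,
    mul_nonneg yC2 s_apA_p, mul_nonneg xC1 s_Bn4_m]

theorem box2r0_2 (a b s a' b' s' : ℝ)
    (xR : 0 ≤ 179/500 - s)
    (xC1 : 0 ≤ 117/250 - 1 * a - 1 * b)
    (xC2 : 0 ≤ 117/250 - 1 * a + 1 * b)
    (xC3 : 0 ≤ 331/1000 + a)
    (yR : 0 ≤ 179/500 - s')
    (yC1 : 0 ≤ 117/250 - 1 * a' - 1 * b')
    (yC2 : 0 ≤ 117/250 - 1 * a' + 1 * b')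
    (yC3 : 0 ≤ 331/1000 + a')
    (b0 : 0 ≤ b)
    (xP1 : 0 ≤ 873/1250 + 3/5 * a - 23/25 * b - s)
    (xP2 : 0 ≤ 873/1250 + 3/5 * a + 23/25 * b - s)
    (yP2 : 0 ≤ 873/1250 + 3/5 * a' + 23/25 * b' - s')
    (s_Bn4_m : 0 ≤ -(b' + 2/5))
    (s_apA_m : 0 ≤ -(a + a'))
    (q2 : 0 ≤ s' - a' ^ 2 - b' ^ 2) :
    s + 2 / 5 * s' + 3 / 5 * (a' ^ 2 + b' ^ 2) - 2 * (a * a') - 2 * (b * b') ≤ 1 - 1 / 1000 := by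
  linarith only [mul_nonneg xR xC1, mul_nonneg xC2 xP1, mul_nonneg xC1 s_Bn4_m,
    mul_nonneg yC3 xP1, mul_nonneg b0 yP2, mul_nonneg yC2 s_apA_m, mul_nonneg yC1 s_apA_m,
    mul_nonneg yC2 s_Bn4_m, mul_nonneg xC1 yR, mul_nonneg xC2 yC2, mul_nonneg yC3 s_apA_m,
    mul_nonneg xP2 s_apA_m, mul_nonneg xP1 s_Bn4_m, mul_nonneg xC3 yP2, mul_nonneg xR yC2, q2,
    mul_nonneg xR xC2, mul_nonneg xC2 s_apA_m, mul_nonneg xC1 yC2, mul_nonneg xC1 xP1, xP1,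
    mul_nonneg xR xC3]

theorem box2r1_0 (a b s a' b' s' : ℝ)
    (xR : 0 ≤ 179/500 - s)
    (xC1 : 0 ≤ 117/250 - 1 * a - 1 * b)
    (xC2 : 0 ≤ 117/250 - 1 * a + 1 * b)
    (xC3 : 0 ≤ 331/1000 + a)
    (yR : 0 ≤ 179/500 - s')
    (yC1 : 0 ≤ 117/250 - 1 * a' - 1 * b')
    (yC2 : 0 ≤ 117/250 - 1 * a' + 1 * b')
    (yC3 : 0 ≤ 331/1000 + a')
    (xg : 0 ≤ a - 3/10)
    (yP1 : 0 ≤ 873/1250 + 3/5 * a' - 23/25 * b' - s')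
    (yP2 : 0 ≤ 873/1250 + 3/5 * a' + 23/25 * b' - s')
    (q2 : 0 ≤ s' - a' ^ 2 - b' ^ 2) :
    s + 2 / 5 * s' + 3 / 5 * (a' ^ 2 + b' ^ 2) - 2 * (a * a') - 2 * (b * b') ≤ 1 - 1 / 1000 := by
  linarith only [mul_nonneg yC1 yC3, mul_nonneg xC2 yC2, mul_nonneg xC1 yC1, mul_nonneg yR yC3,
    mul_nonneg yC2 yC3, mul_nonneg yC3 xg, xR, mul_nonneg xC3 yC3, mul_nonneg yC2 yP1,
    mul_nonneg yC1 yP2, mul_nonneg yR xg, q2, mul_nonneg xC2 yP2, mul_nonneg xC1 yP1]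

theorem box2r2_0 (a b s a' b' s' : ℝ)
    (xR : 0 ≤ 179/500 - s)
    (xC1 : 0 ≤ 117/250 - 1 * a - 1 * b)
    (xC2 : 0 ≤ 117/250 - 1 * a + 1 * b)
    (xC3 : 0 ≤ 331/1000 + a)
    (yR : 0 ≤ 179/500 - s')
    (yC1 : 0 ≤ 117/250 - 1 * a' - 1 * b')
    (yC2 : 0 ≤ 117/250 - 1 * a' + 1 * b')
    (yC3 : 0 ≤ 331/1000 + a')
    (xP1 : 0 ≤ 873/1250 + 3/5 * a - 23/25 * b - s)
    (xP2 : 0 ≤ 873/1250 + 3/5 * a + 23/25 * b - s)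
    (yg : 0 ≤ a' - 3/10) :
    s + 2 / 5 * s' + 3 / 5 * (a' ^ 2 + b' ^ 2) - 2 * (a * a') - 2 * (b * b') ≤ 1 - 1 / 1000 := by
  linarith only [mul_nonneg yC2 yg, mul_nonneg xR yC3, mul_nonneg xC3 yC3, mul_nonneg xC1 yC1,
    mul_nonneg yC1 xP1, mul_nonneg yC2 xP2, mul_nonneg xR yC2, mul_nonneg xC2 yC2,
    mul_nonneg xR yC1, mul_nonneg yR yC1, mul_nonneg xC3 yg, mul_nonneg yC1 yC2,
    mul_nonneg yR yC3, mul_nonneg yC1 yg, mul_nonneg yR yC2]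

theorem box2r3_0 (a b s a' b' s' : ℝ)
    (xR : 0 ≤ 179/500 - s)
    (xC1 : 0 ≤ 117/250 - 1 * a - 1 * b)
    (xC2 : 0 ≤ 117/250 - 1 * a + 1 * b)
    (xC3 : 0 ≤ 331/1000 + a)
    (yR : 0 ≤ 179/500 - s')
    (yC1 : 0 ≤ 117/250 - 1 * a' - 1 * b')
    (yC2 : 0 ≤ 117/250 - 1 * a' + 1 * b')
    (b0 : 0 ≤ b)
    (xg : 0 ≤ a - 3/10)
    (yg : 0 ≤ a' - 3/10) :
    s + 2 / 5 * s' + 3 / 5 * (a' ^ 2 + b' ^ 2) - 2 * (a * a') - 2 * (b * b') ≤ 1 - 1 / 1000 := by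
  linarith only [mul_nonneg yC2 b0, mul_nonneg xC1 yC1, mul_nonneg xC1 yR, xg, yg,
    mul_nonneg b0 yg, mul_nonneg xC3 yR, xR, mul_nonneg yC2 yg, mul_nonneg xg yg,
    mul_nonneg yC1 yg, mul_nonneg yC1 yC2, mul_nonneg xC2 yC2, mul_nonneg xC2 yR]

theorem box2r0 (a b s a' b' s' : ℝ)
    (xR : 0 ≤ 179/500 - s)
    (xC1 : 0 ≤ 117/250 - 1 * a - 1 * b)
    (xC2 : 0 ≤ 117/250 - 1 * a + 1 * b)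
    (xC3 : 0 ≤ 331/1000 + a)
    (yR : 0 ≤ 179/500 - s')
    (yC1 : 0 ≤ 117/250 - 1 * a' - 1 * b')
    (yC2 : 0 ≤ 117/250 - 1 * a' + 1 * b')
    (yC3 : 0 ≤ 331/1000 + a')
    (b0 : 0 ≤ b)
    (xl : 0 ≤ 3/10 - a)
    (xP1 : 0 ≤ 873/1250 + 3/5 * a - 23/25 * b - s)
    (xP2 : 0 ≤ 873/1250 + 3/5 * a + 23/25 * b - s)
    (yl : 0 ≤ 3/10 - a')
    (yP1 : 0 ≤ 873/1250 + 3/5 * a' - 23/25 * b' - s')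
    (yP2 : 0 ≤ 873/1250 + 3/5 * a' + 23/25 * b' - s')
    (q1 : 0 ≤ s - a ^ 2 - b ^ 2) (q2 : 0 ≤ s' - a' ^ 2 - b' ^ 2) :
    s + 2 / 5 * s' + 3 / 5 * (a' ^ 2 + b' ^ 2) - 2 * (a * a') - 2 * (b * b') ≤ 1 - 1 / 1000 := by
  rcases le_total 0 (b' + 2/5) with s_Bn4_p | s_Bn4_m
  · exact box2r0_0 a b s a' b' s' xR xC1 xC3 yR yC1 yC2 yC3 b0 xP1 yl yP1 yP2 s_Bn4_p q2
  · replace s_Bn4_m := neg_nonneg.2 s_Bn4_m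
    rcases le_total 0 (a + a') with s_apA_p | s_apA_m
    · exact box2r0_1 a b s a' b' s' xR xC1 xC2 yR yC1 yC2 yC3 xP1 yP2 s_Bn4_m s_apA_p q2
    · replace s_apA_m := neg_nonneg.2 s_apA_m
      exact box2r0_2 a b s a' b' s' xR xC1 xC2 xC3 yR yC1 yC2 yC3 b0 xP1 xP2 yP2 s_Bn4_m s_apA_m
          q2

theorem box2r1 (a b s a' b' s' : ℝ)
    (xR : 0 ≤ 179/500 - s)
    (xC1 : 0 ≤ 117/250 - 1 * a - 1 * b)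
    (xC2 : 0 ≤ 117/250 - 1 * a + 1 * b)
    (xC3 : 0 ≤ 331/1000 + a)
    (yR : 0 ≤ 179/500 - s')
    (yC1 : 0 ≤ 117/250 - 1 * a' - 1 * b')
    (yC2 : 0 ≤ 117/250 - 1 * a' + 1 * b')
    (yC3 : 0 ≤ 331/1000 + a')
    (b0 : 0 ≤ b)
    (xg : 0 ≤ a - 3/10)
    (yl : 0 ≤ 3/10 - a')
    (yP1 : 0 ≤ 873/1250 + 3/5 * a' - 23/25 * b' - s')
    (yP2 : 0 ≤ 873/1250 + 3/5 * a' + 23/25 * b' - s')
    (q1 : 0 ≤ s - a ^ 2 - b ^ 2) (q2 : 0 ≤ s' - a' ^ 2 - b' ^ 2) :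
    s + 2 / 5 * s' + 3 / 5 * (a' ^ 2 + b' ^ 2) - 2 * (a * a') - 2 * (b * b') ≤ 1 - 1 / 1000 := by
  exact box2r1_0 a b s a' b' s' xR xC1 xC2 xC3 yR yC1 yC2 yC3 xg yP1 yP2 q2

theorem box2r2 (a b s a' b' s' : ℝ)
    (xR : 0 ≤ 179/500 - s)
    (xC1 : 0 ≤ 117/250 - 1 * a - 1 * b)
    (xC2 : 0 ≤ 117/250 - 1 * a + 1 * b)
    (xC3 : 0 ≤ 331/1000 + a)
    (yR : 0 ≤ 179/500 - s')
    (yC1 : 0 ≤ 117/250 - 1 * a' - 1 * b')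
    (yC2 : 0 ≤ 117/250 - 1 * a' + 1 * b')
    (yC3 : 0 ≤ 331/1000 + a')
    (b0 : 0 ≤ b)
    (xl : 0 ≤ 3/10 - a)
    (xP1 : 0 ≤ 873/1250 + 3/5 * a - 23/25 * b - s)
    (xP2 : 0 ≤ 873/1250 + 3/5 * a + 23/25 * b - s)
    (yg : 0 ≤ a' - 3/10)
    (q1 : 0 ≤ s - a ^ 2 - b ^ 2) (q2 : 0 ≤ s' - a' ^ 2 - b' ^ 2) :
    s + 2 / 5 * s' + 3 / 5 * (a' ^ 2 + b' ^ 2) - 2 * (a * a') - 2 * (b * b') ≤ 1 - 1 / 1000 := by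
  exact box2r2_0 a b s a' b' s' xR xC1 xC2 xC3 yR yC1 yC2 yC3 xP1 xP2 yg

theorem box2r3 (a b s a' b' s' : ℝ)
    (xR : 0 ≤ 179/500 - s)
    (xC1 : 0 ≤ 117/250 - 1 * a - 1 * b)
    (xC2 : 0 ≤ 117/250 - 1 * a + 1 * b)
    (xC3 : 0 ≤ 331/1000 + a)
    (yR : 0 ≤ 179/500 - s')
    (yC1 : 0 ≤ 117/250 - 1 * a' - 1 * b')
    (yC2 : 0 ≤ 117/250 - 1 * a' + 1 * b')
    (yC3 : 0 ≤ 331/1000 + a')
    (b0 : 0 ≤ b)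
    (xg : 0 ≤ a - 3/10)
    (yg : 0 ≤ a' - 3/10)
    (q1 : 0 ≤ s - a ^ 2 - b ^ 2) (q2 : 0 ≤ s' - a' ^ 2 - b' ^ 2) :
    s + 2 / 5 * s' + 3 / 5 * (a' ^ 2 + b' ^ 2) - 2 * (a * a') - 2 * (b * b') ≤ 1 - 1 / 1000 := by
  exact box2r3_0 a b s a' b' s' xR xC1 xC2 xC3 yR yC1 yC2 b0 xg yg

end Vale.Agent.P052.H487.Box2
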