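import Mathlib.Tactic.Linarith
import Mathlib.Data.Real.Basic

/-! Polynomial inequalities for pairs in a sector: circumradius box 3. -/

set_option autoImplicit false
set_option linter.unusedVariables false

namespace Vale.Agent.P052.H487.Box3

theorem box3r0_0 (a b s a' b' s' : ℝ)
    (xR : 0 ≤ 3/8 - s)
    (xC1 : 0 ≤ 819/250 - 7 * a - 6 * b)
    (xC2 : 0 ≤ 819/250 - 7 * a + 6 * b)
    (xC3 : 0 ≤ 89/250 + a)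
    (yR : 0 ≤ 3/8 - s')
    (yC1 : 0 ≤ 819/250 - 7 * a' - 6 * b')
    (yC2 : 0 ≤ 819/250 - 7 * a' + 6 * b')
    (yC3 : 0 ≤ 89/250 + a')
    (b0 : 0 ≤ b)
    (xl : 0 ≤ 41/125 - a)
    (xP1 : 0 ≤ 668687/1000000 + 82/125 * a - 473/500 * b - s)
    (yl : 0 ≤ 41/125 - a')
    (yP1 : 0 ≤ 668687/1000000 + 82/125 * a' - 473/500 * b' - s')
    (yP2 : 0 ≤ 668687/1000000 + 82/125 * a' + 473/500 * b' - s')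
    (s_Bn3_p : 0 ≤ b' + 3/10)
    (q2 : 0 ≤ s' - a' ^ 2 - b' ^ 2) :
    s + 2 / 5 * s' + 3 / 5 * (a' ^ 2 + b' ^ 2) - 2 * (a * a') - 2 * (b * b') ≤ 1 - 1 / 1000 := by
  linarith only [mul_nonneg xR xC1, mul_nonneg yR yC3, mul_nonneg xR xC2, mul_nonneg xC1 yC1,
    mul_nonneg xR yC1, mul_nonneg yC2 xl, mul_nonneg yC3 yl, mul_nonneg yC3 xP1,
    mul_nonneg xR yC2, mul_nonneg xl yl, mul_nonneg xC3 yP1, mul_nonneg xC1 yR,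
    mul_nonneg b0 yP2, q2, mul_nonneg yR yC1, mul_nonneg yC1 yP2, mul_nonneg xC3 yC3,
    mul_nonneg xC1 yl, mul_nonneg yP1 s_Bn3_p, mul_nonneg b0 s_Bn3_p, mul_nonneg xR xC3]

theorem box3r0_1 (a b s a' b' s' : ℝ)
    (xR : 0 ≤ 3/8 - s)
    (xC1 : 0 ≤ 819/250 - 7 * a - 6 * b)
    (xC2 : 0 ≤ 819/250 - 7 * a + 6 * b)
    (xC3 : 0 ≤ 89/250 + a)
    (yR : 0 ≤ 3/8 - s')
    (yC1 : 0 ≤ 819/250 - 7 * a' - 6 * b')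
    (yC2 : 0 ≤ 819/250 - 7 * a' + 6 * b')
    (yC3 : 0 ≤ 89/250 + a')
    (xl : 0 ≤ 41/125 - a)
    (xP1 : 0 ≤ 668687/1000000 + 82/125 * a - 473/500 * b - s)
    (yP2 : 0 ≤ 668687/1000000 + 82/125 * a' + 473/500 * b' - s')
    (s_Bn3_m : 0 ≤ -(b' + 3/10))
    (s_An1_p : 0 ≤ a' + 1/10)
    (q2 : 0 ≤ s' - a' ^ 2 - b' ^ 2) :
    s + 2 / 5 * s' + 3 / 5 * (a' ^ 2 + b' ^ 2) - 2 * (a * a') - 2 * (b * b') ≤ 1 - 1 / 1000 := by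
  linarith only [mul_nonneg xP1 s_Bn3_m, mul_nonneg xP1 s_An1_p, mul_nonneg yC2 xl,
    mul_nonneg xR yC2, mul_nonneg xC1 yC2, xP1, mul_nonneg xC1 yR, mul_nonneg yR s_An1_p,
    mul_nonneg xR yC1, mul_nonneg xC1 s_Bn3_m, mul_nonneg xR yC3, mul_nonneg xC3 yP2,
    mul_nonneg yC2 s_Bn3_m, mul_nonneg yC1 yP2, mul_nonneg xC2 yP2, q2, mul_nonneg yC2 s_An1_p,
    mul_nonneg yC2 yP2, yP2]

theorem box3r0_2 (a b s a' b' s' : ℝ)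
    (xR : 0 ≤ 3/8 - s)
    (xC1 : 0 ≤ 819/250 - 7 * a - 6 * b)
    (xC2 : 0 ≤ 819/250 - 7 * a + 6 * b)
    (yC1 : 0 ≤ 819/250 - 7 * a' - 6 * b')
    (yC2 : 0 ≤ 819/250 - 7 * a' + 6 * b')
    (yC3 : 0 ≤ 89/250 + a')
    (xP1 : 0 ≤ 668687/1000000 + 82/125 * a - 473/500 * b - s)
    (yP2 : 0 ≤ 668687/1000000 + 82/125 * a' + 473/500 * b' - s')
    (s_Bn3_m : 0 ≤ -(b' + 3/10))
    (s_An1_m : 0 ≤ -(a' + 1/10))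
    (q2 : 0 ≤ s' - a' ^ 2 - b' ^ 2) :
    s + 2 / 5 * s' + 3 / 5 * (a' ^ 2 + b' ^ 2) - 2 * (a * a') - 2 * (b * b') ≤ 1 - 1 / 1000 := by
  linarith only [mul_nonneg xC2 s_An1_m, mul_nonneg xP1 s_Bn3_m, mul_nonneg xC1 yC1,
    mul_nonneg yC3 s_An1_m, s_An1_m, mul_nonneg yC3 xP1, mul_nonneg xC1 s_Bn3_m,
    mul_nonneg xR yC2, xR, mul_nonneg yC2 s_An1_m, q2, mul_nonneg xC1 s_An1_m, mul_nonneg xR yC3,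
    yP2, mul_nonneg yC2 s_Bn3_m]

theorem box3r1_0 (a b s a' b' s' : ℝ)
    (xR : 0 ≤ 3/8 - s)
    (xC1 : 0 ≤ 819/250 - 7 * a - 6 * b)
    (xC2 : 0 ≤ 819/250 - 7 * a + 6 * b)
    (yR : 0 ≤ 3/8 - s')
    (yC1 : 0 ≤ 819/250 - 7 * a' - 6 * b')
    (yC2 : 0 ≤ 819/250 - 7 * a' + 6 * b')
    (yC3 : 0 ≤ 89/250 + a')
    (b0 : 0 ≤ b)
    (xg : 0 ≤ a - 41/125)
    (yP1 : 0 ≤ 668687/1000000 + 82/125 * a' - 473/500 * b' - s')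
    (yP2 : 0 ≤ 668687/1000000 + 82/125 * a' + 473/500 * b' - s')
    (s_Bn4_p : 0 ≤ b' + 2/5)
    (q2 : 0 ≤ s' - a' ^ 2 - b' ^ 2) :
    s + 2 / 5 * s' + 3 / 5 * (a' ^ 2 + b' ^ 2) - 2 * (a * a') - 2 * (b * b') ≤ 1 - 1 / 1000 := by
  linarith only [mul_nonneg b0 yP2, q2, mul_nonneg xC1 yC1, mul_nonneg xC2 yC3,
    mul_nonneg yC1 yC3, mul_nonneg yC3 xg, mul_nonneg yR yC1, mul_nonneg b0 s_Bn4_p, xR,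
    mul_nonneg xC2 s_Bn4_p, mul_nonneg yC2 yC3, mul_nonneg yC1 yP2, mul_nonneg xC1 yP1,
    mul_nonneg xg yP1, mul_nonneg xC1 yC3, mul_nonneg yP1 s_Bn4_p, mul_nonneg yC3 yP2]

theorem box3r1_1 (a b s a' b' s' : ℝ)
    (xR : 0 ≤ 3/8 - s)
    (xC1 : 0 ≤ 819/250 - 7 * a - 6 * b)
    (xC2 : 0 ≤ 819/250 - 7 * a + 6 * b)
    (xC3 : 0 ≤ 89/250 + a)
    (yC3 : 0 ≤ 89/250 + a')
    (xg : 0 ≤ a - 41/125)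
    (yP1 : 0 ≤ 668687/1000000 + 82/125 * a' - 473/500 * b' - s')
    (yP2 : 0 ≤ 668687/1000000 + 82/125 * a' + 473/500 * b' - s')
    (s_Bn4_m : 0 ≤ -(b' + 2/5))
    (q2 : 0 ≤ s' - a' ^ 2 - b' ^ 2) :
    s + 2 / 5 * s' + 3 / 5 * (a' ^ 2 + b' ^ 2) - 2 * (a * a') - 2 * (b * b') ≤ 1 - 1 / 1000 := by
  linarith only [mul_nonneg xC1 s_Bn4_m, mul_nonneg xC1 xC1, mul_nonneg xC1 yP1,
    mul_nonneg yC3 xg, mul_nonneg xC3 yP2, mul_nonneg xg yP1, xR, mul_nonneg xC3 s_Bn4_m, q2,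
    mul_nonneg xC1 xg, mul_nonneg xC1 xC2, mul_nonneg xg s_Bn4_m, mul_nonneg xC2 yP2]

theorem box3r2_0 (a b s a' b' s' : ℝ)
    (xR : 0 ≤ 3/8 - s)
    (xC1 : 0 ≤ 819/250 - 7 * a - 6 * b)
    (xC2 : 0 ≤ 819/250 - 7 * a + 6 * b)
    (xC3 : 0 ≤ 89/250 + a)
    (yR : 0 ≤ 3/8 - s')
    (yC1 : 0 ≤ 819/250 - 7 * a' - 6 * b')
    (yC2 : 0 ≤ 819/250 - 7 * a' + 6 * b')
    (yC3 : 0 ≤ 89/250 + a')
    (b0 : 0 ≤ b)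
    (xP1 : 0 ≤ 668687/1000000 + 82/125 * a - 473/500 * b - s)
    (xP2 : 0 ≤ 668687/1000000 + 82/125 * a + 473/500 * b - s)
    (yg : 0 ≤ a' - 41/125) :
    s + 2 / 5 * s' + 3 / 5 * (a' ^ 2 + b' ^ 2) - 2 * (a * a') - 2 * (b * b') ≤ 1 - 1 / 1000 := by
  linarith only [xR, mul_nonneg xC3 yg, mul_nonneg xC2 yC2, mul_nonneg xC1 yC1,
    mul_nonneg xC3 yC3, mul_nonneg xR yg, mul_nonneg yC1 yC2, mul_nonneg yC1 xP1,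
    mul_nonneg xC3 xP2, mul_nonneg xC3 xP1, mul_nonneg b0 xP1, mul_nonneg yC2 xP2,
    mul_nonneg yR yC1, sq_nonneg (b + b'), mul_nonneg yC2 yg, mul_nonneg yR yC3,
    mul_nonneg yC1 yg, mul_nonneg yR yC2]

theorem box3r3_0 (a b s a' b' s' : ℝ)
    (xR : 0 ≤ 3/8 - s)
    (xC1 : 0 ≤ 819/250 - 7 * a - 6 * b)
    (xC2 : 0 ≤ 819/250 - 7 * a + 6 * b)
    (yR : 0 ≤ 3/8 - s')
    (yC1 : 0 ≤ 819/250 - 7 * a' - 6 * b')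
    (yC2 : 0 ≤ 819/250 - 7 * a' + 6 * b')
    (yC3 : 0 ≤ 89/250 + a')
    (b0 : 0 ≤ b)
    (xg : 0 ≤ a - 41/125)
    (yg : 0 ≤ a' - 41/125) :
    s + 2 / 5 * s' + 3 / 5 * (a' ^ 2 + b' ^ 2) - 2 * (a * a') - 2 * (b * b') ≤ 1 - 1 / 1000 := by
  linarith only [mul_nonneg xC1 xC1, mul_nonneg xC2 yC2, mul_nonneg xC1 yC1, xg,
    mul_nonneg xC1 xC2, yg, mul_nonneg yC2 b0, mul_nonneg xC2 yg, mul_nonneg xR yC1,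
    mul_nonneg xR yC3, mul_nonneg xR yC2, mul_nonneg yC2 yg, mul_nonneg yR yC1,
    mul_nonneg xC1 xg, mul_nonneg yC1 yC2, mul_nonneg yR yC3, mul_nonneg yC1 yg,
    mul_nonneg yR yC2]

theorem box3r0 (a b s a' b' s' : ℝ)
    (xR : 0 ≤ 3/8 - s)
    (xC1 : 0 ≤ 819/250 - 7 * a - 6 * b)
    (xC2 : 0 ≤ 819/250 - 7 * a + 6 * b)
    (xC3 : 0 ≤ 89/250 + a)
    (yR : 0 ≤ 3/8 - s')
    (yC1 : 0 ≤ 819/250 - 7 * a' - 6 * b')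
    (yC2 : 0 ≤ 819/250 - 7 * a' + 6 * b')
    (yC3 : 0 ≤ 89/250 + a')
    (b0 : 0 ≤ b)
    (xl : 0 ≤ 41/125 - a)
    (xP1 : 0 ≤ 668687/1000000 + 82/125 * a - 473/500 * b - s)
    (xP2 : 0 ≤ 668687/1000000 + 82/125 * a + 473/500 * b - s)
    (yl : 0 ≤ 41/125 - a')
    (yP1 : 0 ≤ 668687/1000000 + 82/125 * a' - 473/500 * b' - s')
    (yP2 : 0 ≤ 668687/1000000 + 82/125 * a' + 473/500 * b' - s')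
    (q1 : 0 ≤ s - a ^ 2 - b ^ 2) (q2 : 0 ≤ s' - a' ^ 2 - b' ^ 2) :
    s + 2 / 5 * s' + 3 / 5 * (a' ^ 2 + b' ^ 2) - 2 * (a * a') - 2 * (b * b') ≤ 1 - 1 / 1000 := by
  rcases le_total 0 (b' + 3/10) with s_Bn3_p | s_Bn3_m
  · exact box3r0_0 a b s a' b' s' xR xC1 xC2 xC3 yR yC1 yC2 yC3 b0 xl xP1 yl yP1 yP2 s_Bn3_p q2
  · replace s_Bn3_m := neg_nonneg.2 s_Bn3_m
    rcases le_total 0 (a' + 1/10) with s_An1_p | s_An1_m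
    · exact box3r0_1 a b s a' b' s' xR xC1 xC2 xC3 yR yC1 yC2 yC3 xl xP1 yP2 s_Bn3_m s_An1_p q2
    · replace s_An1_m := neg_nonneg.2 s_An1_m
      exact box3r0_2 a b s a' b' s' xR xC1 xC2 yC1 yC2 yC3 xP1 yP2 s_Bn3_m s_An1_m q2

theorem box3r1 (a b s a' b' s' : ℝ)
    (xR : 0 ≤ 3/8 - s)
    (xC1 : 0 ≤ 819/250 - 7 * a - 6 * b)
    (xC2 : 0 ≤ 819/250 - 7 * a + 6 * b)
    (xC3 : 0 ≤ 89/250 + a)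
    (yR : 0 ≤ 3/8 - s')
    (yC1 : 0 ≤ 819/250 - 7 * a' - 6 * b')
    (yC2 : 0 ≤ 819/250 - 7 * a' + 6 * b')
    (yC3 : 0 ≤ 89/250 + a')
    (b0 : 0 ≤ b)
    (xg : 0 ≤ a - 41/125)
    (yl : 0 ≤ 41/125 - a')
    (yP1 : 0 ≤ 668687/1000000 + 82/125 * a' - 473/500 * b' - s')
    (yP2 : 0 ≤ 668687/1000000 + 82/125 * a' + 473/500 * b' - s')
    (q1 : 0 ≤ s - a ^ 2 - b ^ 2) (q2 : 0 ≤ s' - a' ^ 2 - b' ^ 2) :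
    s + 2 / 5 * s' + 3 / 5 * (a' ^ 2 + b' ^ 2) - 2 * (a * a') - 2 * (b * b') ≤ 1 - 1 / 1000 := by
  rcases le_total 0 (b' + 2/5) with s_Bn4_p | s_Bn4_m
  · exact box3r1_0 a b s a' b' s' xR xC1 xC2 yR yC1 yC2 yC3 b0 xg yP1 yP2 s_Bn4_p q2
  · replace s_Bn4_m := neg_nonneg.2 s_Bn4_m
    exact box3r1_1 a b s a' b' s' xR xC1 xC2 xC3 yC3 xg yP1 yP2 s_Bn4_m q2

theorem box3r2 (a b s a' b' s' : ℝ)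
    (xR : 0 ≤ 3/8 - s)
    (xC1 : 0 ≤ 819/250 - 7 * a - 6 * b)
    (xC2 : 0 ≤ 819/250 - 7 * a + 6 * b)
    (xC3 : 0 ≤ 89/250 + a)
    (yR : 0 ≤ 3/8 - s')
    (yC1 : 0 ≤ 819/250 - 7 * a' - 6 * b')
    (yC2 : 0 ≤ 819/250 - 7 * a' + 6 * b')
    (yC3 : 0 ≤ 89/250 + a')
    (b0 : 0 ≤ b)
    (xl : 0 ≤ 41/125 - a)
    (xP1 : 0 ≤ 668687/1000000 + 82/125 * a - 473/500 * b - s)
    (xP2 : 0 ≤ 668687/1000000 + 82/125 * a + 473/500 * b - s)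
    (yg : 0 ≤ a' - 41/125)
    (q1 : 0 ≤ s - a ^ 2 - b ^ 2) (q2 : 0 ≤ s' - a' ^ 2 - b' ^ 2) :
    s + 2 / 5 * s' + 3 / 5 * (a' ^ 2 + b' ^ 2) - 2 * (a * a') - 2 * (b * b') ≤ 1 - 1 / 1000 := by
  exact box3r2_0 a b s a' b' s' xR xC1 xC2 xC3 yR yC1 yC2 yC3 b0 xP1 xP2 yg

theorem box3r3 (a b s a' b' s' : ℝ)
    (xR : 0 ≤ 3/8 - s)
    (xC1 : 0 ≤ 819/250 - 7 * a - 6 * b)
    (xC2 : 0 ≤ 819/250 - 7 * a + 6 * b)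
    (xC3 : 0 ≤ 89/250 + a)
    (yR : 0 ≤ 3/8 - s')
    (yC1 : 0 ≤ 819/250 - 7 * a' - 6 * b')
    (yC2 : 0 ≤ 819/250 - 7 * a' + 6 * b')
    (yC3 : 0 ≤ 89/250 + a')
    (b0 : 0 ≤ b)
    (xg : 0 ≤ a - 41/125)
    (yg : 0 ≤ a' - 41/125)
    (q1 : 0 ≤ s - a ^ 2 - b ^ 2) (q2 : 0 ≤ s' - a' ^ 2 - b' ^ 2) :
    s + 2 / 5 * s' + 3 / 5 * (a' ^ 2 + b' ^ 2) - 2 * (a * a') - 2 * (b * b') ≤ 1 - 1 / 1000 := by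
  exact box3r3_0 a b s a' b' s' xR xC1 xC2 yR yC1 yC2 yC3 b0 xg yg

end Vale.Agent.P052.H487.Box3
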