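import Mathlib.Tactic.Linarith
import Mathlib.Data.Real.Basic

/-! Polynomial inequalities for pairs in a sector: circumradius box 4. -/

set_option autoImplicit false
set_option linter.unusedVariables false

namespace Vale.Agent.P052.H487.Box4

theorem box4r0_0 (a b s a' b' s' : ℝ)
    (xR : 0 ≤ 39/100 - s)
    (xC1 : 0 ≤ 271/200 - 3 * a - 2 * b)
    (xC3 : 0 ≤ 47/125 + a)
    (yR : 0 ≤ 39/100 - s')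
    (yC1 : 0 ≤ 271/200 - 3 * a' - 2 * b')
    (yC2 : 0 ≤ 271/200 - 3 * a' + 2 * b')
    (yC3 : 0 ≤ 47/125 + a')
    (b0 : 0 ≤ b)
    (xl : 0 ≤ 353/1000 - a)
    (xP1 : 0 ≤ 128227/200000 + 353/500 * a - 121/125 * b - s)
    (xP2 : 0 ≤ 128227/200000 + 353/500 * a + 121/125 * b - s)
    (yl : 0 ≤ 353/1000 - a')
    (yP1 : 0 ≤ 128227/200000 + 353/500 * a' - 121/125 * b' - s')
    (yP2 : 0 ≤ 128227/200000 + 353/500 * a' + 121/125 * b' - s')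
    (s_Bn2_p : 0 ≤ b' + 1/5)
    (q2 : 0 ≤ s' - a' ^ 2 - b' ^ 2) :
    s + 2 / 5 * s' + 3 / 5 * (a' ^ 2 + b' ^ 2) - 2 * (a * a') - 2 * (b * b') ≤ 1 - 1 / 1000 := by
  linarith only [mul_nonneg xC1 yR, mul_nonneg xR xC3, mul_nonneg xR yC2, mul_nonneg xl yl,
    mul_nonneg yC3 xP1, mul_nonneg yR yC3, sq_nonneg (a + a'), mul_nonneg b0 s_Bn2_p,
    mul_nonneg xl xP2, mul_nonneg xC1 yC1, mul_nonneg xl xP1, mul_nonneg b0 yP2,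
    mul_nonneg yP1 s_Bn2_p, mul_nonneg xR yl, mul_nonneg xR yC1, mul_nonneg yC2 yC3,
    mul_nonneg yC1 yP2, mul_nonneg yC3 xP2, q2, mul_nonneg xC3 yP1, mul_nonneg xC1 yl,
    mul_nonneg yC2 yP1]

theorem box4r0_1 (a b s a' b' s' : ℝ)
    (xR : 0 ≤ 39/100 - s)
    (xC1 : 0 ≤ 271/200 - 3 * a - 2 * b)
    (xC2 : 0 ≤ 271/200 - 3 * a + 2 * b)
    (xC3 : 0 ≤ 47/125 + a)
    (yR : 0 ≤ 39/100 - s')
    (yC1 : 0 ≤ 271/200 - 3 * a' - 2 * b')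
    (yC2 : 0 ≤ 271/200 - 3 * a' + 2 * b')
    (b0 : 0 ≤ b)
    (xP1 : 0 ≤ 128227/200000 + 353/500 * a - 121/125 * b - s)
    (yP2 : 0 ≤ 128227/200000 + 353/500 * a' + 121/125 * b' - s')
    (s_Bn2_m : 0 ≤ -(b' + 1/5))
    (s_An1_p : 0 ≤ a' + 1/10)
    (s_a0_p : 0 ≤ a)
    (q2 : 0 ≤ s' - a' ^ 2 - b' ^ 2) :
    s + 2 / 5 * s' + 3 / 5 * (a' ^ 2 + b' ^ 2) - 2 * (a * a') - 2 * (b * b') ≤ 1 - 1 / 1000 := by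
  linarith only [mul_nonneg yR s_a0_p, mul_nonneg xC1 xP1, mul_nonneg xR s_An1_p,
    mul_nonneg xC1 s_Bn2_m, mul_nonneg xR xC1, mul_nonneg xP1 s_An1_p, mul_nonneg xP1 s_Bn2_m,
    mul_nonneg xR yC2, mul_nonneg yC2 s_Bn2_m, mul_nonneg b0 yP2, mul_nonneg b0 xP1,
    mul_nonneg xC1 yR, mul_nonneg xC3 yP2, mul_nonneg xC2 yC2, mul_nonneg xC1 s_a0_p,
    mul_nonneg xC1 yC2, mul_nonneg yC2 s_An1_p, mul_nonneg yC1 yP2, q2, mul_nonneg xC1 xC1,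
    mul_nonneg yR s_An1_p, mul_nonneg yR yC2, mul_nonneg xC3 xP1]

theorem box4r0_2 (a b s a' b' s' : ℝ)
    (xR : 0 ≤ 39/100 - s)
    (xC1 : 0 ≤ 271/200 - 3 * a - 2 * b)
    (xC2 : 0 ≤ 271/200 - 3 * a + 2 * b)
    (xC3 : 0 ≤ 47/125 + a)
    (yR : 0 ≤ 39/100 - s')
    (yC1 : 0 ≤ 271/200 - 3 * a' - 2 * b')
    (yC2 : 0 ≤ 271/200 - 3 * a' + 2 * b')
    (b0 : 0 ≤ b)
    (xP1 : 0 ≤ 128227/200000 + 353/500 * a - 121/125 * b - s)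
    (yP1 : 0 ≤ 128227/200000 + 353/500 * a' - 121/125 * b' - s')
    (yP2 : 0 ≤ 128227/200000 + 353/500 * a' + 121/125 * b' - s')
    (s_Bn2_m : 0 ≤ -(b' + 1/5))
    (s_An1_p : 0 ≤ a' + 1/10)
    (s_a0_m : 0 ≤ -(a))
    (q1 : 0 ≤ s - a ^ 2 - b ^ 2)
    (q2 : 0 ≤ s' - a' ^ 2 - b' ^ 2) :
    s + 2 / 5 * s' + 3 / 5 * (a' ^ 2 + b' ^ 2) - 2 * (a * a') - 2 * (b * b') ≤ 1 - 1 / 1000 := by
  linarith only [mul_nonneg xC2 yC2, mul_nonneg xR yC2, sq_nonneg (b + b'), mul_nonneg xR xC1,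
    mul_nonneg xC1 s_Bn2_m, mul_nonneg yC2 b0, mul_nonneg yR s_An1_p, mul_nonneg yC1 xP1,
    mul_nonneg yC2 s_a0_m, mul_nonneg xR s_An1_p, mul_nonneg b0 yP2, mul_nonneg yC1 yC2,
    mul_nonneg xC1 yR, q1, mul_nonneg xC1 s_a0_m, mul_nonneg xC3 s_a0_m, mul_nonneg yC2 yP1,
    mul_nonneg b0 xP1, mul_nonneg yC2 yP2, mul_nonneg xC3 yP2, q2, mul_nonneg yP2 s_Bn2_m,
    mul_nonneg xC3 xP1, xP1]

theorem box4r0_3 (a b s a' b' s' : ℝ)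
    (xR : 0 ≤ 39/100 - s)
    (xC1 : 0 ≤ 271/200 - 3 * a - 2 * b)
    (xC2 : 0 ≤ 271/200 - 3 * a + 2 * b)
    (yC2 : 0 ≤ 271/200 - 3 * a' + 2 * b')
    (yC3 : 0 ≤ 47/125 + a')
    (xl : 0 ≤ 353/1000 - a)
    (xP1 : 0 ≤ 128227/200000 + 353/500 * a - 121/125 * b - s)
    (yP2 : 0 ≤ 128227/200000 + 353/500 * a' + 121/125 * b' - s')
    (s_Bn2_m : 0 ≤ -(b' + 1/5))
    (s_An1_m : 0 ≤ -(a' + 1/10))
    (q1 : 0 ≤ s - a ^ 2 - b ^ 2)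
    (q2 : 0 ≤ s' - a' ^ 2 - b' ^ 2) :
    s + 2 / 5 * s' + 3 / 5 * (a' ^ 2 + b' ^ 2) - 2 * (a * a') - 2 * (b * b') ≤ 1 - 1 / 1000 := by
  linarith only [yP2, mul_nonneg xl s_An1_m, sq_nonneg (b + b'), mul_nonneg xP1 s_Bn2_m,
    mul_nonneg xC1 xC2, mul_nonneg xC1 s_Bn2_m, mul_nonneg yC3 s_An1_m, mul_nonneg yC2 s_An1_m,
    mul_nonneg xC1 s_An1_m, mul_nonneg xR yC2, mul_nonneg xR yC3, mul_nonneg yC3 s_Bn2_m,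
    mul_nonneg yC3 xP1, q1, q2, mul_nonneg yC2 s_Bn2_m, mul_nonneg xC1 yC2]

theorem box4r1_0 (a b s a' b' s' : ℝ)
    (xR : 0 ≤ 39/100 - s)
    (xC1 : 0 ≤ 271/200 - 3 * a - 2 * b)
    (xC2 : 0 ≤ 271/200 - 3 * a + 2 * b)
    (xC3 : 0 ≤ 47/125 + a)
    (yR : 0 ≤ 39/100 - s')
    (yC1 : 0 ≤ 271/200 - 3 * a' - 2 * b')
    (yC2 : 0 ≤ 271/200 - 3 * a' + 2 * b')
    (yC3 : 0 ≤ 47/125 + a')
    (b0 : 0 ≤ b)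
    (xg : 0 ≤ a - 353/1000)
    (yP1 : 0 ≤ 128227/200000 + 353/500 * a' - 121/125 * b' - s')
    (yP2 : 0 ≤ 128227/200000 + 353/500 * a' + 121/125 * b' - s')
    (s_B1_p : 0 ≤ b' - 1/10)
    (q2 : 0 ≤ s' - a' ^ 2 - b' ^ 2) :
    s + 2 / 5 * s' + 3 / 5 * (a' ^ 2 + b' ^ 2) - 2 * (a * a') - 2 * (b * b') ≤ 1 - 1 / 1000 := by
  linarith only [mul_nonneg xC3 yP1, mul_nonneg yC3 xg, yC3, mul_nonneg b0 yP2,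
    mul_nonneg xC2 s_B1_p, mul_nonneg yC1 yP1, mul_nonneg yC2 yC3, mul_nonneg xC1 yR, xR,
    mul_nonneg yC2 b0, mul_nonneg xC1 yP1, mul_nonneg yC2 yP1, q2, mul_nonneg yC3 yP2,
    mul_nonneg xC2 yC3, mul_nonneg yC1 s_B1_p, mul_nonneg xC1 yC1]

theorem box4r1_1 (a b s a' b' s' : ℝ)
    (xR : 0 ≤ 39/100 - s)
    (xC1 : 0 ≤ 271/200 - 3 * a - 2 * b)
    (xC2 : 0 ≤ 271/200 - 3 * a + 2 * b)
    (yR : 0 ≤ 39/100 - s')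
    (yC1 : 0 ≤ 271/200 - 3 * a' - 2 * b')
    (yC2 : 0 ≤ 271/200 - 3 * a' + 2 * b')
    (yC3 : 0 ≤ 47/125 + a')
    (xg : 0 ≤ a - 353/1000)
    (yP1 : 0 ≤ 128227/200000 + 353/500 * a' - 121/125 * b' - s')
    (yP2 : 0 ≤ 128227/200000 + 353/500 * a' + 121/125 * b' - s')
    (s_Bn4_p : 0 ≤ b' + 2/5)
    (s_B1_m : 0 ≤ -(b' - 1/10)) :
    s + 2 / 5 * s' + 3 / 5 * (a' ^ 2 + b' ^ 2) - 2 * (a * a') - 2 * (b * b') ≤ 1 - 1 / 1000 := by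
  linarith only [mul_nonneg xC1 s_B1_m, yC3, mul_nonneg yC1 yC3, mul_nonneg yP2 s_B1_m,
    mul_nonneg xC1 yP1, mul_nonneg yR yC3, mul_nonneg xg yP1, mul_nonneg xC2 s_Bn4_p, xR,
    mul_nonneg yP1 s_Bn4_p, mul_nonneg yC2 yC3, mul_nonneg yC1 yP2, mul_nonneg yC1 yP1,
    mul_nonneg yC3 xg, xC1, mul_nonneg xC2 yP2]

theorem box4r1_2 (a b s a' b' s' : ℝ)
    (xR : 0 ≤ 39/100 - s)
    (xC1 : 0 ≤ 271/200 - 3 * a - 2 * b)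
    (xC2 : 0 ≤ 271/200 - 3 * a + 2 * b)
    (yC3 : 0 ≤ 47/125 + a')
    (xg : 0 ≤ a - 353/1000)
    (yP1 : 0 ≤ 128227/200000 + 353/500 * a' - 121/125 * b' - s')
    (yP2 : 0 ≤ 128227/200000 + 353/500 * a' + 121/125 * b' - s')
    (s_Bn4_m : 0 ≤ -(b' + 2/5))
    (q2 : 0 ≤ s' - a' ^ 2 - b' ^ 2) :
    s + 2 / 5 * s' + 3 / 5 * (a' ^ 2 + b' ^ 2) - 2 * (a * a') - 2 * (b * b') ≤ 1 - 1 / 1000 := by
  linarith only [mul_nonneg yC3 xg, mul_nonneg xg yP1, yP2, mul_nonneg xg yP2, xR,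
    mul_nonneg xg s_Bn4_m, s_Bn4_m, q2, mul_nonneg xC1 yP1, mul_nonneg xC2 yP2]

theorem box4r2_0 (a b s a' b' s' : ℝ)
    (xR : 0 ≤ 39/100 - s)
    (xC1 : 0 ≤ 271/200 - 3 * a - 2 * b)
    (xC2 : 0 ≤ 271/200 - 3 * a + 2 * b)
    (xC3 : 0 ≤ 47/125 + a)
    (yR : 0 ≤ 39/100 - s')
    (yC1 : 0 ≤ 271/200 - 3 * a' - 2 * b')
    (yC2 : 0 ≤ 271/200 - 3 * a' + 2 * b')
    (yC3 : 0 ≤ 47/125 + a')
    (b0 : 0 ≤ b)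
    (xP1 : 0 ≤ 128227/200000 + 353/500 * a - 121/125 * b - s)
    (xP2 : 0 ≤ 128227/200000 + 353/500 * a + 121/125 * b - s)
    (yg : 0 ≤ a' - 353/1000) :
    s + 2 / 5 * s' + 3 / 5 * (a' ^ 2 + b' ^ 2) - 2 * (a * a') - 2 * (b * b') ≤ 1 - 1 / 1000 := by
  linarith only [sq_nonneg (b + b'), mul_nonneg xC2 xP1, mul_nonneg xC1 yC2, mul_nonneg xC1 yC1,
    mul_nonneg yC2 yg, mul_nonneg xC1 xP2, mul_nonneg xC3 yC3, mul_nonneg xR yC1, xP1,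
    mul_nonneg xR yC2, mul_nonneg yC2 b0, mul_nonneg yC3 xP2, mul_nonneg xP2 yg,
    mul_nonneg yR yC1, mul_nonneg xC1 b0, mul_nonneg yC1 yC2, mul_nonneg yR yC3,
    mul_nonneg yC1 yg, mul_nonneg yR yC2, mul_nonneg xC3 xP2]

theorem box4r3_0 (a b s a' b' s' : ℝ)
    (xR : 0 ≤ 39/100 - s)
    (xC1 : 0 ≤ 271/200 - 3 * a - 2 * b)
    (yR : 0 ≤ 39/100 - s')
    (yC1 : 0 ≤ 271/200 - 3 * a' - 2 * b')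
    (yC2 : 0 ≤ 271/200 - 3 * a' + 2 * b')
    (yC3 : 0 ≤ 47/125 + a')
    (b0 : 0 ≤ b)
    (xg : 0 ≤ a - 353/1000)
    (yg : 0 ≤ a' - 353/1000) :
    s + 2 / 5 * s' + 3 / 5 * (a' ^ 2 + b' ^ 2) - 2 * (a * a') - 2 * (b * b') ≤ 1 - 1 / 1000 := by
  linarith only [mul_nonneg xC1 yC2, mul_nonneg xC1 yC1, yg, mul_nonneg yC2 b0,
    mul_nonneg yC1 xg, mul_nonneg xR yC1, mul_nonneg xR yC3, mul_nonneg xR yC2,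
    mul_nonneg yC2 yg, xg, mul_nonneg yR yC1, yC2, mul_nonneg yC1 yC2, mul_nonneg yR yC3,
    mul_nonneg yC1 yg, mul_nonneg yR yC2]

theorem box4r0 (a b s a' b' s' : ℝ)
    (xR : 0 ≤ 39/100 - s)
    (xC1 : 0 ≤ 271/200 - 3 * a - 2 * b)
    (xC2 : 0 ≤ 271/200 - 3 * a + 2 * b)
    (xC3 : 0 ≤ 47/125 + a)
    (yR : 0 ≤ 39/100 - s')
    (yC1 : 0 ≤ 271/200 - 3 * a' - 2 * b')
    (yC2 : 0 ≤ 271/200 - 3 * a' + 2 * b')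
    (yC3 : 0 ≤ 47/125 + a')
    (b0 : 0 ≤ b)
    (xl : 0 ≤ 353/1000 - a)
    (xP1 : 0 ≤ 128227/200000 + 353/500 * a - 121/125 * b - s)
    (xP2 : 0 ≤ 128227/200000 + 353/500 * a + 121/125 * b - s)
    (yl : 0 ≤ 353/1000 - a')
    (yP1 : 0 ≤ 128227/200000 + 353/500 * a' - 121/125 * b' - s')
    (yP2 : 0 ≤ 128227/200000 + 353/500 * a' + 121/125 * b' - s')
    (q1 : 0 ≤ s - a ^ 2 - b ^ 2) (q2 : 0 ≤ s' - a' ^ 2 - b' ^ 2) :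
    s + 2 / 5 * s' + 3 / 5 * (a' ^ 2 + b' ^ 2) - 2 * (a * a') - 2 * (b * b') ≤ 1 - 1 / 1000 := by
  rcases le_total 0 (b' + 1/5) with s_Bn2_p | s_Bn2_m
  · exact box4r0_0 a b s a' b' s' xR xC1 xC3 yR yC1 yC2 yC3 b0 xl xP1 xP2 yl yP1 yP2 s_Bn2_p q2
  · replace s_Bn2_m := neg_nonneg.2 s_Bn2_m
    rcases le_total 0 (a' + 1/10) with s_An1_p | s_An1_m
    · rcases le_total 0 (a) with s_a0_p | s_a0_m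
      · exact box4r0_1 a b s a' b' s' xR xC1 xC2 xC3 yR yC1 yC2 b0 xP1 yP2 s_Bn2_m s_An1_p s_a0_p
          q2
      · replace s_a0_m := neg_nonneg.2 s_a0_m
        exact box4r0_2 a b s a' b' s' xR xC1 xC2 xC3 yR yC1 yC2 b0 xP1 yP1 yP2 s_Bn2_m s_An1_p
            s_a0_m q1 q2
    · replace s_An1_m := neg_nonneg.2 s_An1_m
      exact box4r0_3 a b s a' b' s' xR xC1 xC2 yC2 yC3 xl xP1 yP2 s_Bn2_m s_An1_m q1 q2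

theorem box4r1 (a b s a' b' s' : ℝ)
    (xR : 0 ≤ 39/100 - s)
    (xC1 : 0 ≤ 271/200 - 3 * a - 2 * b)
    (xC2 : 0 ≤ 271/200 - 3 * a + 2 * b)
    (xC3 : 0 ≤ 47/125 + a)
    (yR : 0 ≤ 39/100 - s')
    (yC1 : 0 ≤ 271/200 - 3 * a' - 2 * b')
    (yC2 : 0 ≤ 271/200 - 3 * a' + 2 * b')
    (yC3 : 0 ≤ 47/125 + a')
    (b0 : 0 ≤ b)
    (xg : 0 ≤ a - 353/1000)
    (yl : 0 ≤ 353/1000 - a')
    (yP1 : 0 ≤ 128227/200000 + 353/500 * a' - 121/125 * b' - s')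
    (yP2 : 0 ≤ 128227/200000 + 353/500 * a' + 121/125 * b' - s')
    (q1 : 0 ≤ s - a ^ 2 - b ^ 2) (q2 : 0 ≤ s' - a' ^ 2 - b' ^ 2) :
    s + 2 / 5 * s' + 3 / 5 * (a' ^ 2 + b' ^ 2) - 2 * (a * a') - 2 * (b * b') ≤ 1 - 1 / 1000 := by
  rcases le_total 0 (b' + 2/5) with s_Bn4_p | s_Bn4_m
  · rcases le_total 0 (b' - 1/10) with s_B1_p | s_B1_m
    · exact box4r1_0 a b s a' b' s' xR xC1 xC2 xC3 yR yC1 yC2 yC3 b0 xg yP1 yP2 s_B1_p q2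
    · replace s_B1_m := neg_nonneg.2 s_B1_m
      exact box4r1_1 a b s a' b' s' xR xC1 xC2 yR yC1 yC2 yC3 xg yP1 yP2 s_Bn4_p s_B1_m
  · replace s_Bn4_m := neg_nonneg.2 s_Bn4_m
    exact box4r1_2 a b s a' b' s' xR xC1 xC2 yC3 xg yP1 yP2 s_Bn4_m q2

theorem box4r2 (a b s a' b' s' : ℝ)
    (xR : 0 ≤ 39/100 - s)
    (xC1 : 0 ≤ 271/200 - 3 * a - 2 * b)
    (xC2 : 0 ≤ 271/200 - 3 * a + 2 * b)
    (xC3 : 0 ≤ 47/125 + a)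
    (yR : 0 ≤ 39/100 - s')
    (yC1 : 0 ≤ 271/200 - 3 * a' - 2 * b')
    (yC2 : 0 ≤ 271/200 - 3 * a' + 2 * b')
    (yC3 : 0 ≤ 47/125 + a')
    (b0 : 0 ≤ b)
    (xl : 0 ≤ 353/1000 - a)
    (xP1 : 0 ≤ 128227/200000 + 353/500 * a - 121/125 * b - s)
    (xP2 : 0 ≤ 128227/200000 + 353/500 * a + 121/125 * b - s)
    (yg : 0 ≤ a' - 353/1000)
    (q1 : 0 ≤ s - a ^ 2 - b ^ 2) (q2 : 0 ≤ s' - a' ^ 2 - b' ^ 2) :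
    s + 2 / 5 * s' + 3 / 5 * (a' ^ 2 + b' ^ 2) - 2 * (a * a') - 2 * (b * b') ≤ 1 - 1 / 1000 := by
  exact box4r2_0 a b s a' b' s' xR xC1 xC2 xC3 yR yC1 yC2 yC3 b0 xP1 xP2 yg

theorem box4r3 (a b s a' b' s' : ℝ)
    (xR : 0 ≤ 39/100 - s)
    (xC1 : 0 ≤ 271/200 - 3 * a - 2 * b)
    (xC2 : 0 ≤ 271/200 - 3 * a + 2 * b)
    (xC3 : 0 ≤ 47/125 + a)
    (yR : 0 ≤ 39/100 - s')
    (yC1 : 0 ≤ 271/200 - 3 * a' - 2 * b')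
    (yC2 : 0 ≤ 271/200 - 3 * a' + 2 * b')
    (yC3 : 0 ≤ 47/125 + a')
    (b0 : 0 ≤ b)
    (xg : 0 ≤ a - 353/1000)
    (yg : 0 ≤ a' - 353/1000)
    (q1 : 0 ≤ s - a ^ 2 - b ^ 2) (q2 : 0 ≤ s' - a' ^ 2 - b' ^ 2) :
    s + 2 / 5 * s' + 3 / 5 * (a' ^ 2 + b' ^ 2) - 2 * (a * a') - 2 * (b * b') ≤ 1 - 1 / 1000 := by
  exact box4r3_0 a b s a' b' s' xR xC1 yR yC1 yC2 yC3 b0 xg yg

end Vale.Agent.P052.H487.Box4
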