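import Mathlib.Tactic.Linarith
import Mathlib.Data.Real.Basic

/-! Weighted cells of the truncated octahedron: polynomial inequalities. -/

set_option autoImplicit false
set_option linter.unusedVariables false

namespace Vale.Agent.P052.H487.Poly

theorem cls1_0 (z1 z2 z3 r y1 y2 y3 : ℝ)
    (zOmmm : 0 ≤ 333/800 + 100/111 * r + z1 + z2 + z3)
    (zOmpm : 0 ≤ 333/800 + 100/111 * r + z1 - z2 + z3)
    (zOmmp : 0 ≤ 333/800 + 100/111 * r + z1 + z2 - z3)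
    (zOmpp : 0 ≤ 333/800 + 100/111 * r + z1 - z2 - z3)
    (zC2 : 0 ≤ 2079/10000 + 1250/2079 * r - z2)
    (zM2 : 0 ≤ z2 - z1)
    (zM3 : 0 ≤ z3 - z1)
    (zB : 0 ≤ -39/500 - z1 - 179/1000 * (z1 + z2 + z3))
    (yOmmm : 0 ≤ 76963/88800 + y1 + y2 + y3)
    (yOmpm : 0 ≤ 76963/88800 + y1 - y2 + y3)
    (yOmmp : 0 ≤ 76963/88800 + y1 + y2 - y3)
    (yOmpp : 0 ≤ 76963/88800 + y1 - y2 - y3)
    (yM2 : 0 ≤ y2 - y1)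
    (yM3 : 0 ≤ y3 - y1)
    (yB : 0 ≤ -39/500 - y1 - 179/1000 * (y1 + y2 + y3))
    (r0 : 0 ≤ r - 223/1000)
    (r1 : 0 ≤ 1/2 - r)
    (s_z2my2_p : 0 ≤ z2 - y2)
    (s_z3my3_p : 0 ≤ z3 - y3)
    (s_z2mz3_p : 0 ≤ z2 - z3) :
    (z1 - y1) ^ 2 + (z2 - y2) ^ 2 + (z3 - y3) ^ 2 ≤ r + 1/2 - 1/5000 := by
  linarith only [mul_nonneg zOmpm yOmmm, mul_nonneg zOmmp zB, mul_nonneg zC2 yOmpp,
    mul_nonneg yOmpm r1, mul_nonneg zB yB, mul_nonneg zOmmm yOmmm, mul_nonneg r1 s_z2mz3_p,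
    mul_nonneg zOmpp r0, mul_nonneg yOmmp yM3, mul_nonneg zC2 s_z2my2_p, mul_nonneg zM2 yM2,
    mul_nonneg yOmmm yB, mul_nonneg zOmpp zC2, mul_nonneg r0 r1, mul_nonneg zOmmm zB,
    mul_nonneg zOmpm zB, mul_nonneg zB r1, mul_nonneg zC2 yOmpm, mul_nonneg yOmmm s_z3my3_p,
    mul_nonneg yM2 s_z2my2_p, mul_nonneg zB s_z3my3_p, mul_nonneg zOmpp yOmpm,
    mul_nonneg yOmmp s_z2mz3_p, mul_nonneg yOmmp r1, mul_nonneg yOmmm r1,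
    mul_nonneg yOmmm s_z2my2_p, mul_nonneg zM3 yM2, mul_nonneg zOmpp yOmmm, mul_nonneg zB yM2,
    mul_nonneg yM2 r0, mul_nonneg yOmpm yM2, mul_nonneg yOmpp yM2, mul_nonneg zOmpp s_z3my3_p,
    mul_nonneg zC2 s_z2mz3_p, mul_nonneg yOmmp s_z2my2_p]

theorem cls1_1 (z1 z2 z3 r y1 y2 y3 : ℝ)
    (zOmmm : 0 ≤ 333/800 + 100/111 * r + z1 + z2 + z3)
    (zOmpm : 0 ≤ 333/800 + 100/111 * r + z1 - z2 + z3)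
    (zOmmp : 0 ≤ 333/800 + 100/111 * r + z1 + z2 - z3)
    (zOmpp : 0 ≤ 333/800 + 100/111 * r + z1 - z2 - z3)
    (zC3 : 0 ≤ 2079/10000 + 1250/2079 * r - z3)
    (zM2 : 0 ≤ z2 - z1)
    (zB : 0 ≤ -39/500 - z1 - 179/1000 * (z1 + z2 + z3))
    (yOmmm : 0 ≤ 76963/88800 + y1 + y2 + y3)
    (yOmpm : 0 ≤ 76963/88800 + y1 - y2 + y3)
    (yOmmp : 0 ≤ 76963/88800 + y1 + y2 - y3)
    (yOmpp : 0 ≤ 76963/88800 + y1 - y2 - y3)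
    (yOppp : 0 ≤ 76963/88800 - y1 - y2 - y3)
    (yM2 : 0 ≤ y2 - y1)
    (yM3 : 0 ≤ y3 - y1)
    (yB : 0 ≤ -39/500 - y1 - 179/1000 * (y1 + y2 + y3))
    (r0 : 0 ≤ r - 223/1000)
    (r1 : 0 ≤ 1/2 - r)
    (s_z2my2_p : 0 ≤ z2 - y2)
    (s_z3my3_p : 0 ≤ z3 - y3)
    (s_z2mz3_m : 0 ≤ -(z2 - z3)) :
    (z1 - y1) ^ 2 + (z2 - y2) ^ 2 + (z3 - y3) ^ 2 ≤ r + 1/2 - 1/5000 := by
  linarith only [mul_nonneg yOmmm s_z2my2_p, mul_nonneg zB r1, mul_nonneg yM3 s_z3my3_p,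
    mul_nonneg zOmpp zB, mul_nonneg yOmmm s_z3my3_p, mul_nonneg zOmmm yOmmm,
    mul_nonneg yOmpm s_z3my3_p, mul_nonneg zB s_z2my2_p, mul_nonneg zOmpp yOmpp,
    mul_nonneg yOmpm yM2, mul_nonneg yM3 r0, mul_nonneg r0 r1, mul_nonneg zOmmp zB,
    mul_nonneg yOmmp r1, mul_nonneg r1 s_z2mz3_m, mul_nonneg yOmpm r1, mul_nonneg zOmmp yOmmm,
    mul_nonneg yOmpm s_z2mz3_m, mul_nonneg zB yOppp, mul_nonneg zOmpp s_z2my2_p,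
    mul_nonneg zM2 yM3, mul_nonneg zC3 yOmmp, mul_nonneg zB yB, mul_nonneg zOmpp r0,
    mul_nonneg yOmmp yM3, mul_nonneg zOmpm zB, mul_nonneg yOmmm r1, mul_nonneg zOmpp yOmmm,
    mul_nonneg zOmpp zC3, mul_nonneg zB yM3, mul_nonneg zOmpp yOmpm, mul_nonneg yOmmm yB,
    mul_nonneg zC3 s_z3my3_p, mul_nonneg zC3 s_z2mz3_m, mul_nonneg yM3 s_z2my2_p]

theorem cls1_2 (z1 z2 z3 r y1 y2 y3 : ℝ)
    (zOmmm : 0 ≤ 333/800 + 100/111 * r + z1 + z2 + z3)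
    (zOmpm : 0 ≤ 333/800 + 100/111 * r + z1 - z2 + z3)
    (zOmmp : 0 ≤ 333/800 + 100/111 * r + z1 + z2 - z3)
    (zOpmp : 0 ≤ 333/800 + 100/111 * r - z1 + z2 - z3)
    (zOmpp : 0 ≤ 333/800 + 100/111 * r + z1 - z2 - z3)
    (zOppp : 0 ≤ 333/800 + 100/111 * r - z1 - z2 - z3)
    (zC2 : 0 ≤ 2079/10000 + 1250/2079 * r - z2)
    (zM3 : 0 ≤ z3 - z1)
    (zB : 0 ≤ -39/500 - z1 - 179/1000 * (z1 + z2 + z3))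
    (yOmmm : 0 ≤ 76963/88800 + y1 + y2 + y3)
    (yOmpm : 0 ≤ 76963/88800 + y1 - y2 + y3)
    (yOmmp : 0 ≤ 76963/88800 + y1 + y2 - y3)
    (yOpmp : 0 ≤ 76963/88800 - y1 + y2 - y3)
    (yOmpp : 0 ≤ 76963/88800 + y1 - y2 - y3)
    (yC3 : 0 ≤ 10572241/20790000 - y3)
    (yM2 : 0 ≤ y2 - y1)
    (r0 : 0 ≤ r - 223/1000)
    (r1 : 0 ≤ 1/2 - r)
    (s_z2my2_p : 0 ≤ z2 - y2)
    (s_z3my3_m : 0 ≤ -(z3 - y3))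
    (s_z1my1_p : 0 ≤ z1 - y1)
    (s_y2ay3_p : 0 ≤ y2 + y3) :
    (z1 - y1) ^ 2 + (z2 - y2) ^ 2 + (z3 - y3) ^ 2 ≤ r + 1/2 - 1/5000 := by
  linarith only [mul_nonneg yOmmp s_z3my3_m, mul_nonneg r0 s_y2ay3_p, mul_nonneg zC2 s_z2my2_p,
    mul_nonneg yOmpp yM2, mul_nonneg zOmpm zB, mul_nonneg zM3 r1, mul_nonneg zC2 yOmpp,
    mul_nonneg zM3 yOpmp, mul_nonneg zOmpp r0, mul_nonneg yOmpm yC3, mul_nonneg zB yC3,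
    mul_nonneg yOmmp s_z1my1_p, mul_nonneg zC2 r0, mul_nonneg yOmmp yOmpp,
    mul_nonneg zOppp yOmmp, mul_nonneg zOmpm yOmpm, mul_nonneg yOmmm yC3, mul_nonneg zOmmp yOmmp,
    mul_nonneg zM3 yM2, mul_nonneg yM2 r0, mul_nonneg zC2 yC3, mul_nonneg zOpmp zM3,
    mul_nonneg yOmmm yOmmp, mul_nonneg zM3 s_z3my3_m, mul_nonneg zB s_z1my1_p,
    mul_nonneg zOmpm yOmmp, mul_nonneg zOmmm zC2, mul_nonneg yOmpm s_z1my1_p,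
    mul_nonneg zM3 s_y2ay3_p, mul_nonneg zOmpm r0, mul_nonneg r0 r1, mul_nonneg zM3 zB,
    mul_nonneg s_z1my1_p s_y2ay3_p, mul_nonneg yOmmp s_z2my2_p, mul_nonneg zOmpm yOmpp]

theorem cls1_3 (z1 z2 z3 r y1 y2 y3 : ℝ)
    (zOmmm : 0 ≤ 333/800 + 100/111 * r + z1 + z2 + z3)
    (zOpmm : 0 ≤ 333/800 + 100/111 * r - z1 + z2 + z3)
    (zOmpm : 0 ≤ 333/800 + 100/111 * r + z1 - z2 + z3)
    (zOmmp : 0 ≤ 333/800 + 100/111 * r + z1 + z2 - z3)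
    (zOpmp : 0 ≤ 333/800 + 100/111 * r - z1 + z2 - z3)
    (zC2 : 0 ≤ 2079/10000 + 1250/2079 * r - z2)
    (zM2 : 0 ≤ z2 - z1)
    (zM3 : 0 ≤ z3 - z1)
    (zB : 0 ≤ -39/500 - z1 - 179/1000 * (z1 + z2 + z3))
    (yOmmm : 0 ≤ 76963/88800 + y1 + y2 + y3)
    (yOmpm : 0 ≤ 76963/88800 + y1 - y2 + y3)
    (yOppm : 0 ≤ 76963/88800 - y1 - y2 + y3)
    (yOmmp : 0 ≤ 76963/88800 + y1 + y2 - y3)
    (yOmpp : 0 ≤ 76963/88800 + y1 - y2 - y3)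
    (yM2 : 0 ≤ y2 - y1)
    (r0 : 0 ≤ r - 223/1000)
    (r1 : 0 ≤ 1/2 - r)
    (s_z2my2_p : 0 ≤ z2 - y2)
    (s_z3my3_m : 0 ≤ -(z3 - y3))
    (s_z1my1_p : 0 ≤ z1 - y1)
    (s_y2ay3_m : 0 ≤ -(y2 + y3)) :
    (z1 - y1) ^ 2 + (z2 - y2) ^ 2 + (z3 - y3) ^ 2 ≤ r + 1/2 - 1/5000 := by
  linarith only [mul_nonneg zM3 yM2, mul_nonneg yOmmm s_z1my1_p, mul_nonneg zM3 s_z3my3_m,
    mul_nonneg zOmpm zC2, mul_nonneg zC2 yOmpm, mul_nonneg zOmmm yOmmm, mul_nonneg zC2 yOmpp,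
    mul_nonneg zOmmp yOmmp, mul_nonneg zB yM2, mul_nonneg zM3 yOmmm, mul_nonneg yOmmm r0,
    mul_nonneg zC2 s_z2my2_p, mul_nonneg zOmpm yOmmm, mul_nonneg zOmmp zC2, mul_nonneg zB r1,
    mul_nonneg yOmmm s_y2ay3_m, mul_nonneg zOpmm zB, mul_nonneg zB s_z1my1_p,
    mul_nonneg yOppm r0, mul_nonneg zM2 yOmmp, mul_nonneg zOpmp yOmmp, mul_nonneg zM3 r1,
    mul_nonneg r0 r1, mul_nonneg yM2 r0, mul_nonneg yOmpm yOmmp, mul_nonneg zC2 r0,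
    mul_nonneg yOmpp yM2, mul_nonneg yOmmm yOmmp, mul_nonneg yOppm yOmmp, mul_nonneg zC2 yOppm,
    mul_nonneg zOmpm zB, mul_nonneg zOpmp yM2, mul_nonneg yOmmp s_z3my3_m, mul_nonneg yOmmp r1,
    mul_nonneg zOpmp zM3]

theorem cls1_4 (z1 z2 z3 r y1 y2 y3 : ℝ)
    (zOmmm : 0 ≤ 333/800 + 100/111 * r + z1 + z2 + z3)
    (zOmpm : 0 ≤ 333/800 + 100/111 * r + z1 - z2 + z3)
    (zOmmp : 0 ≤ 333/800 + 100/111 * r + z1 + z2 - z3)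
    (zOpmp : 0 ≤ 333/800 + 100/111 * r - z1 + z2 - z3)
    (zOmpp : 0 ≤ 333/800 + 100/111 * r + z1 - z2 - z3)
    (zOppp : 0 ≤ 333/800 + 100/111 * r - z1 - z2 - z3)
    (zC2 : 0 ≤ 2079/10000 + 1250/2079 * r - z2)
    (zM3 : 0 ≤ z3 - z1)
    (yOmmm : 0 ≤ 76963/88800 + y1 + y2 + y3)
    (yOmpm : 0 ≤ 76963/88800 + y1 - y2 + y3)
    (yOmmp : 0 ≤ 76963/88800 + y1 + y2 - y3)
    (yOpmp : 0 ≤ 76963/88800 - y1 + y2 - y3)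
    (yOppp : 0 ≤ 76963/88800 - y1 - y2 - y3)
    (yC3 : 0 ≤ 10572241/20790000 - y3)
    (yM2 : 0 ≤ y2 - y1)
    (yM3 : 0 ≤ y3 - y1)
    (yB : 0 ≤ -39/500 - y1 - 179/1000 * (y1 + y2 + y3))
    (r0 : 0 ≤ r - 223/1000)
    (r1 : 0 ≤ 1/2 - r)
    (s_z2my2_p : 0 ≤ z2 - y2)
    (s_z3my3_m : 0 ≤ -(z3 - y3))
    (s_z1my1_m : 0 ≤ -(z1 - y1)) :
    (z1 - y1) ^ 2 + (z2 - y2) ^ 2 + (z3 - y3) ^ 2 ≤ r + 1/2 - 1/5000 := by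
  linarith only [mul_nonneg zOmpm yM3, mul_nonneg zOmpm zOpmp, mul_nonneg yOmmp yB,
    mul_nonneg zM3 yM3, mul_nonneg yM2 yM3, mul_nonneg zOmpm yOmpm, mul_nonneg zOmpp yC3,
    mul_nonneg zOmpm s_z2my2_p, mul_nonneg zM3 yOppp, mul_nonneg yB r0, mul_nonneg yB s_z1my1_m,
    mul_nonneg zOppp zM3, mul_nonneg zOmmm zC2, mul_nonneg zM3 yB, mul_nonneg zOmpp zM3,
    mul_nonneg zOmpm zOmmp, mul_nonneg zOmmm s_z1my1_m, mul_nonneg zM3 r1, mul_nonneg yM2 r0,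
    mul_nonneg yC3 r1, mul_nonneg zOmmm yOmmm, mul_nonneg r0 r1, mul_nonneg zOmmm yOmmp,
    mul_nonneg zOmpm s_z3my3_m, mul_nonneg zOmmm r1, mul_nonneg yOpmp yM2, mul_nonneg yOmmp r1,
    mul_nonneg zOmmm yM2, mul_nonneg yC3 s_z1my1_m, mul_nonneg zOmmm zOmpp, mul_nonneg zOmpm r0,
    mul_nonneg yC3 s_z3my3_m, mul_nonneg yOmmm yM2, mul_nonneg zM3 yM2, mul_nonneg yM2 s_z2my2_p]

theorem cls1_5 (z1 z2 z3 r y1 y2 y3 : ℝ)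
    (zOmmm : 0 ≤ 333/800 + 100/111 * r + z1 + z2 + z3)
    (zOmpm : 0 ≤ 333/800 + 100/111 * r + z1 - z2 + z3)
    (zOmmp : 0 ≤ 333/800 + 100/111 * r + z1 + z2 - z3)
    (zOmpp : 0 ≤ 333/800 + 100/111 * r + z1 - z2 - z3)
    (zOppp : 0 ≤ 333/800 + 100/111 * r - z1 - z2 - z3)
    (zC3 : 0 ≤ 2079/10000 + 1250/2079 * r - z3)
    (zM2 : 0 ≤ z2 - z1)
    (zM3 : 0 ≤ z3 - z1)
    (zB : 0 ≤ -39/500 - z1 - 179/1000 * (z1 + z2 + z3))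
    (yOmmm : 0 ≤ 76963/88800 + y1 + y2 + y3)
    (yOmpm : 0 ≤ 76963/88800 + y1 - y2 + y3)
    (yOppm : 0 ≤ 76963/88800 - y1 - y2 + y3)
    (yOmmp : 0 ≤ 76963/88800 + y1 + y2 - y3)
    (yOmpp : 0 ≤ 76963/88800 + y1 - y2 - y3)
    (yC2 : 0 ≤ 10572241/20790000 - y2)
    (yM3 : 0 ≤ y3 - y1)
    (r0 : 0 ≤ r - 223/1000)
    (r1 : 0 ≤ 1/2 - r)
    (s_z2my2_m : 0 ≤ -(z2 - y2))
    (s_z3my3_p : 0 ≤ z3 - y3)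
    (s_z1my1_p : 0 ≤ z1 - y1)
    (s_y2ay3_p : 0 ≤ y2 + y3) :
    (z1 - y1) ^ 2 + (z2 - y2) ^ 2 + (z3 - y3) ^ 2 ≤ r + 1/2 - 1/5000 := by
  linarith only [mul_nonneg yOmmp s_z1my1_p, mul_nonneg zOmmp yOmpp, mul_nonneg zOmpm yOmpm,
    mul_nonneg zOmmp yOmpm, mul_nonneg yOmpm s_z1my1_p, mul_nonneg zM2 zM3, mul_nonneg yM3 r0,
    mul_nonneg zM2 s_y2ay3_p, mul_nonneg yOmmp yM3, mul_nonneg yOmmp yC2, mul_nonneg zOmmm zC3,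
    mul_nonneg zC3 yOmpp, mul_nonneg zC3 yC2, mul_nonneg r0 s_y2ay3_p, mul_nonneg zOmmp yOmmp,
    mul_nonneg yOmpm r1, mul_nonneg zOmmp r0, mul_nonneg s_z1my1_p s_y2ay3_p,
    mul_nonneg yOmmm yOmpm, mul_nonneg zM2 yM3, mul_nonneg yC2 s_y2ay3_p,
    mul_nonneg yOmpm s_z2my2_m, mul_nonneg zOmmp zB, mul_nonneg zC3 s_z3my3_p,
    mul_nonneg zM2 yOppm, mul_nonneg yOmpm s_z3my3_p, mul_nonneg zB yC2, mul_nonneg zC3 r0,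
    mul_nonneg yOmpp yM3, mul_nonneg zM2 s_z2my2_m, mul_nonneg zM2 r1, mul_nonneg zOmpp r0,
    mul_nonneg zOppp yOmpm, mul_nonneg zB s_z1my1_p, mul_nonneg r0 r1]

theorem cls1_6 (z1 z2 z3 r y1 y2 y3 : ℝ)
    (zOmmm : 0 ≤ 333/800 + 100/111 * r + z1 + z2 + z3)
    (zOpmm : 0 ≤ 333/800 + 100/111 * r - z1 + z2 + z3)
    (zOmpm : 0 ≤ 333/800 + 100/111 * r + z1 - z2 + z3)
    (zOmmp : 0 ≤ 333/800 + 100/111 * r + z1 + z2 - z3)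
    (zOmpp : 0 ≤ 333/800 + 100/111 * r + z1 - z2 - z3)
    (zC3 : 0 ≤ 2079/10000 + 1250/2079 * r - z3)
    (zM2 : 0 ≤ z2 - z1)
    (zM3 : 0 ≤ z3 - z1)
    (zB : 0 ≤ -39/500 - z1 - 179/1000 * (z1 + z2 + z3))
    (yOmmm : 0 ≤ 76963/88800 + y1 + y2 + y3)
    (yOpmm : 0 ≤ 76963/88800 - y1 + y2 + y3)
    (yOmpm : 0 ≤ 76963/88800 + y1 - y2 + y3)
    (yOppm : 0 ≤ 76963/88800 - y1 - y2 + y3)
    (yOmmp : 0 ≤ 76963/88800 + y1 + y2 - y3)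
    (yOmpp : 0 ≤ 76963/88800 + y1 - y2 - y3)
    (yOppp : 0 ≤ 76963/88800 - y1 - y2 - y3)
    (yM3 : 0 ≤ y3 - y1)
    (r0 : 0 ≤ r - 223/1000)
    (r1 : 0 ≤ 1/2 - r)
    (s_z2my2_m : 0 ≤ -(z2 - y2))
    (s_z3my3_p : 0 ≤ z3 - y3)
    (s_z1my1_p : 0 ≤ z1 - y1)
    (s_y2ay3_m : 0 ≤ -(y2 + y3)) :
    (z1 - y1) ^ 2 + (z2 - y2) ^ 2 + (z3 - y3) ^ 2 ≤ r + 1/2 - 1/5000 := by
  linarith only [mul_nonneg zOmpm yOmmm, mul_nonneg zB r1, mul_nonneg zB s_z1my1_p,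
    mul_nonneg zOpmm zM2, mul_nonneg yOmpm s_z1my1_p, mul_nonneg zOmpm zM2, mul_nonneg zOpmm zB,
    mul_nonneg zOmmp yOmmm, mul_nonneg zC3 s_z3my3_p, mul_nonneg zOmmp zB,
    mul_nonneg yOmpm yOppm, mul_nonneg zOmmm zC3, mul_nonneg yM3 r0, mul_nonneg yOmmm s_y2ay3_m,
    mul_nonneg yOmpm s_y2ay3_m, mul_nonneg zC3 yOppp, mul_nonneg zC3 yOmpp,
    mul_nonneg zOpmm yOmpm, mul_nonneg yOpmm yM3, mul_nonneg zM2 yM3, mul_nonneg yOppp r0,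
    mul_nonneg yOmmm r1, mul_nonneg zM2 s_z2my2_m, mul_nonneg r0 r1, mul_nonneg zB yM3,
    mul_nonneg zM3 yOmpm, mul_nonneg yOppp yM3, mul_nonneg zM2 r1, mul_nonneg yOmpm s_z2my2_m,
    mul_nonneg zC3 r0, mul_nonneg yOmpm r1, mul_nonneg zC3 s_y2ay3_m, mul_nonneg zOmpp yOmmm,
    mul_nonneg zOmpm zC3, mul_nonneg yOmmp yM3]

theorem cls1_7 (z1 z2 z3 r y1 y2 y3 : ℝ)
    (zOmmm : 0 ≤ 333/800 + 100/111 * r + z1 + z2 + z3)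
    (zOpmm : 0 ≤ 333/800 + 100/111 * r - z1 + z2 + z3)
    (zOmpm : 0 ≤ 333/800 + 100/111 * r + z1 - z2 + z3)
    (zOmmp : 0 ≤ 333/800 + 100/111 * r + z1 + z2 - z3)
    (zOpmp : 0 ≤ 333/800 + 100/111 * r - z1 + z2 - z3)
    (zOmpp : 0 ≤ 333/800 + 100/111 * r + z1 - z2 - z3)
    (zOppp : 0 ≤ 333/800 + 100/111 * r - z1 - z2 - z3)
    (zC3 : 0 ≤ 2079/10000 + 1250/2079 * r - z3)
    (zM2 : 0 ≤ z2 - z1)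
    (yOmmm : 0 ≤ 76963/88800 + y1 + y2 + y3)
    (yOpmm : 0 ≤ 76963/88800 - y1 + y2 + y3)
    (yOmpm : 0 ≤ 76963/88800 + y1 - y2 + y3)
    (yOmmp : 0 ≤ 76963/88800 + y1 + y2 - y3)
    (yOppp : 0 ≤ 76963/88800 - y1 - y2 - y3)
    (yC2 : 0 ≤ 10572241/20790000 - y2)
    (yM3 : 0 ≤ y3 - y1)
    (yB : 0 ≤ -39/500 - y1 - 179/1000 * (y1 + y2 + y3))
    (r0 : 0 ≤ r - 223/1000)
    (r1 : 0 ≤ 1/2 - r)
    (s_z2my2_m : 0 ≤ -(z2 - y2))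
    (s_z3my3_p : 0 ≤ z3 - y3)
    (s_z1my1_m : 0 ≤ -(z1 - y1)) :
    (z1 - y1) ^ 2 + (z2 - y2) ^ 2 + (z3 - y3) ^ 2 ≤ r + 1/2 - 1/5000 := by
  linarith only [mul_nonneg zM2 r1, mul_nonneg zOmmm zC3, mul_nonneg yOmmp yC2,
    mul_nonneg zOmmp yOpmm, mul_nonneg yOmmm yC2, mul_nonneg zOmpm zOmmp, mul_nonneg zOmmp yOmmp,
    mul_nonneg yC2 s_z2my2_m, mul_nonneg zM2 s_z2my2_m, mul_nonneg r0 r1, mul_nonneg zOmmm r1,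
    mul_nonneg yC2 s_z1my1_m, mul_nonneg zOppp yC2, mul_nonneg yC2 r1, mul_nonneg yM3 r0,
    mul_nonneg yOpmm yM3, mul_nonneg zOmmm s_z1my1_m, mul_nonneg zOpmp zM2, mul_nonneg zM2 yB,
    mul_nonneg zOpmm yM3, mul_nonneg yOmpm yB, mul_nonneg yM3 yB, mul_nonneg zOmpp yC2,
    mul_nonneg yB r0, mul_nonneg yM3 s_z3my3_p, mul_nonneg zOmmp r0, mul_nonneg zOmmm yM3,
    mul_nonneg zOmmm zOmpp, mul_nonneg zOmpp zM2, mul_nonneg yB s_z1my1_m, mul_nonneg yOmpm r1,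
    mul_nonneg zOmmp s_z3my3_p, mul_nonneg zOmmp yOppp, mul_nonneg zOmmp s_z2my2_m,
    mul_nonneg zOmmm yOmpm]

theorem cls1_8 (z1 z2 z3 r y1 y2 y3 : ℝ)
    (zOmmm : 0 ≤ 333/800 + 100/111 * r + z1 + z2 + z3)
    (zOmmp : 0 ≤ 333/800 + 100/111 * r + z1 + z2 - z3)
    (zOmpp : 0 ≤ 333/800 + 100/111 * r + z1 - z2 - z3)
    (zM2 : 0 ≤ z2 - z1)
    (zM3 : 0 ≤ z3 - z1)
    (zB : 0 ≤ -39/500 - z1 - 179/1000 * (z1 + z2 + z3))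
    (yOmmm : 0 ≤ 76963/88800 + y1 + y2 + y3)
    (yOpmm : 0 ≤ 76963/88800 - y1 + y2 + y3)
    (yOmpm : 0 ≤ 76963/88800 + y1 - y2 + y3)
    (yOppm : 0 ≤ 76963/88800 - y1 - y2 + y3)
    (yOmmp : 0 ≤ 76963/88800 + y1 + y2 - y3)
    (yOmpp : 0 ≤ 76963/88800 + y1 - y2 - y3)
    (yOppp : 0 ≤ 76963/88800 - y1 - y2 - y3)
    (yC2 : 0 ≤ 10572241/20790000 - y2)
    (r0 : 0 ≤ r - 223/1000)
    (r1 : 0 ≤ 1/2 - r)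
    (s_z2my2_m : 0 ≤ -(z2 - y2))
    (s_z3my3_m : 0 ≤ -(z3 - y3))
    (s_y2my3_p : 0 ≤ y2 - y3)
    (s_z1my1_p : 0 ≤ z1 - y1) :
    (z1 - y1) ^ 2 + (z2 - y2) ^ 2 + (z3 - y3) ^ 2 ≤ r + 1/2 - 1/5000 := by
  linarith only [mul_nonneg yOmpp s_z1my1_p, mul_nonneg zM2 s_z2my2_m,
    mul_nonneg yOmpp s_z2my2_m, mul_nonneg zOmmm yOmpm, mul_nonneg zM2 r1, mul_nonneg zM3 yC2,
    mul_nonneg zM2 s_z1my1_p, mul_nonneg zOmmm yOmpp, mul_nonneg yOmmp yC2, mul_nonneg zOmpp r0,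
    mul_nonneg zM2 zM3, mul_nonneg yC2 s_y2my3_p, mul_nonneg zOmmp zM3, mul_nonneg zOmmm yOmmm,
    mul_nonneg zOmmm zM3, mul_nonneg zOmpp yOmpp, mul_nonneg zM2 yOpmm, mul_nonneg yOmpm yOmpp,
    mul_nonneg zOmmm r0, mul_nonneg zOmmm zM2, mul_nonneg zOmmp r0, mul_nonneg yOmmm yC2,
    mul_nonneg r0 r1, mul_nonneg zOmmm zB, mul_nonneg zOmmp s_y2my3_p, mul_nonneg zB yC2,
    mul_nonneg yOppp r0, mul_nonneg yOmmp yOmpp, mul_nonneg s_z3my3_m s_z1my1_p,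
    mul_nonneg zM2 s_y2my3_p, mul_nonneg yOmpp s_z3my3_m, mul_nonneg zM3 s_z3my3_m,
    mul_nonneg yOmpm s_z1my1_p, mul_nonneg yOppm r0, mul_nonneg yOmmm s_z1my1_p]

theorem cls1_9 (z1 z2 z3 r y1 y2 y3 : ℝ)
    (zOmmm : 0 ≤ 333/800 + 100/111 * r + z1 + z2 + z3)
    (zOmpm : 0 ≤ 333/800 + 100/111 * r + z1 - z2 + z3)
    (zOmmp : 0 ≤ 333/800 + 100/111 * r + z1 + z2 - z3)
    (zOpmp : 0 ≤ 333/800 + 100/111 * r - z1 + z2 - z3)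
    (zM2 : 0 ≤ z2 - z1)
    (zM3 : 0 ≤ z3 - z1)
    (yOmmm : 0 ≤ 76963/88800 + y1 + y2 + y3)
    (yOpmm : 0 ≤ 76963/88800 - y1 + y2 + y3)
    (yOmpm : 0 ≤ 76963/88800 + y1 - y2 + y3)
    (yOpmp : 0 ≤ 76963/88800 - y1 + y2 - y3)
    (yOmpp : 0 ≤ 76963/88800 + y1 - y2 - y3)
    (yC2 : 0 ≤ 10572241/20790000 - y2)
    (yM3 : 0 ≤ y3 - y1)
    (yB : 0 ≤ -39/500 - y1 - 179/1000 * (y1 + y2 + y3))
    (r0 : 0 ≤ r - 223/1000)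
    (r1 : 0 ≤ 1/2 - r)
    (s_z2my2_m : 0 ≤ -(z2 - y2))
    (s_z3my3_m : 0 ≤ -(z3 - y3))
    (s_y2my3_p : 0 ≤ y2 - y3)
    (s_z1my1_m : 0 ≤ -(z1 - y1)) :
    (z1 - y1) ^ 2 + (z2 - y2) ^ 2 + (z3 - y3) ^ 2 ≤ r + 1/2 - 1/5000 := by
  linarith only [mul_nonneg zOmpm yC2, mul_nonneg zM2 r1, mul_nonneg zOmmm s_z2my2_m,
    mul_nonneg zOmpm zM2, mul_nonneg yB s_z1my1_m, mul_nonneg zM3 yC2, mul_nonneg zOmmp r0,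
    mul_nonneg zOmmm zOmpm, mul_nonneg yOmmm yC2, mul_nonneg zM2 yOpmm, mul_nonneg r0 s_y2my3_p,
    mul_nonneg yOpmp yC2, mul_nonneg r0 r1, mul_nonneg yOmpp s_z3my3_m, mul_nonneg yM3 yB,
    mul_nonneg yOmpm yB, mul_nonneg zOmmm s_z1my1_m, mul_nonneg yOmpp r1,
    mul_nonneg zOmmp s_y2my3_p, mul_nonneg zOpmp yB, mul_nonneg zOmmm s_z3my3_m,
    mul_nonneg zOmmm zOmmm, mul_nonneg zOmpm yOmpp, mul_nonneg zM2 s_y2my3_p,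
    mul_nonneg yOpmp yB, mul_nonneg yOmpm yOmpp, mul_nonneg zOmmp zM3, mul_nonneg yOmmm yOmpp,
    mul_nonneg yB s_z3my3_m, mul_nonneg zOmmm yOmpp, mul_nonneg zOmmm zOmmp,
    mul_nonneg zOmmp yOmpp, mul_nonneg yOmmm r0, mul_nonneg yC2 s_y2my3_p]

theorem cls1_10 (z1 z2 z3 r y1 y2 y3 : ℝ)
    (zOmmm : 0 ≤ 333/800 + 100/111 * r + z1 + z2 + z3)
    (zOmpm : 0 ≤ 333/800 + 100/111 * r + z1 - z2 + z3)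
    (zOmmp : 0 ≤ 333/800 + 100/111 * r + z1 + z2 - z3)
    (zOmpp : 0 ≤ 333/800 + 100/111 * r + z1 - z2 - z3)
    (zM2 : 0 ≤ z2 - z1)
    (zM3 : 0 ≤ z3 - z1)
    (zB : 0 ≤ -39/500 - z1 - 179/1000 * (z1 + z2 + z3))
    (yOmmm : 0 ≤ 76963/88800 + y1 + y2 + y3)
    (yOpmm : 0 ≤ 76963/88800 - y1 + y2 + y3)
    (yOmpm : 0 ≤ 76963/88800 + y1 - y2 + y3)
    (yOppm : 0 ≤ 76963/88800 - y1 - y2 + y3)
    (yOmmp : 0 ≤ 76963/88800 + y1 + y2 - y3)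
    (yOpmp : 0 ≤ 76963/88800 - y1 + y2 - y3)
    (yOmpp : 0 ≤ 76963/88800 + y1 - y2 - y3)
    (yOppp : 0 ≤ 76963/88800 - y1 - y2 - y3)
    (yC3 : 0 ≤ 10572241/20790000 - y3)
    (r0 : 0 ≤ r - 223/1000)
    (r1 : 0 ≤ 1/2 - r)
    (s_z2my2_m : 0 ≤ -(z2 - y2))
    (s_z3my3_m : 0 ≤ -(z3 - y3))
    (s_y2my3_m : 0 ≤ -(y2 - y3))
    (s_z1my1_p : 0 ≤ z1 - y1) :
    (z1 - y1) ^ 2 + (z2 - y2) ^ 2 + (z3 - y3) ^ 2 ≤ r + 1/2 - 1/5000 := by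
  linarith only [mul_nonneg yOmmp s_z1my1_p, mul_nonneg zOmpm zM2, mul_nonneg yOppm r0,
    mul_nonneg yOmpm yC3, mul_nonneg zM2 s_z2my2_m, mul_nonneg zOmmm yOmmm, mul_nonneg zM3 yOpmm,
    mul_nonneg yOpmp r0, mul_nonneg zM3 yOppp, mul_nonneg zOmmm zM2, mul_nonneg zOmpp zM3,
    mul_nonneg zOmpp yOmpp, mul_nonneg zOmmm zM3, mul_nonneg yOmmm s_z1my1_p,
    mul_nonneg zOmpm yOmpp, mul_nonneg zOmmm zB, mul_nonneg zOmpp r0, mul_nonneg zOmpm s_y2my3_m,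
    mul_nonneg zB yC3, mul_nonneg yOmpp s_z2my2_m, mul_nonneg zOmmm yOmmp,
    mul_nonneg zOmmp yOmpp, mul_nonneg r0 s_z1my1_p, mul_nonneg zM3 s_z3my3_m, mul_nonneg r0 r1,
    mul_nonneg yOmmp yOmpp, mul_nonneg yC3 s_y2my3_m, mul_nonneg yOmmm yOmpp,
    mul_nonneg yOmpp s_z1my1_p, mul_nonneg zOmpm r0, mul_nonneg zM2 yC3,
    mul_nonneg zM3 s_y2my3_m, mul_nonneg s_z2my2_m s_z1my1_p, mul_nonneg zM3 s_z1my1_p,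
    mul_nonneg zOmmp r0]

theorem cls1_11 (z1 z2 z3 r y1 y2 y3 : ℝ)
    (zOmmm : 0 ≤ 333/800 + 100/111 * r + z1 + z2 + z3)
    (zOmpm : 0 ≤ 333/800 + 100/111 * r + z1 - z2 + z3)
    (zOppm : 0 ≤ 333/800 + 100/111 * r - z1 - z2 + z3)
    (zOmmp : 0 ≤ 333/800 + 100/111 * r + z1 + z2 - z3)
    (zOmpp : 0 ≤ 333/800 + 100/111 * r + z1 - z2 - z3)
    (zOppp : 0 ≤ 333/800 + 100/111 * r - z1 - z2 - z3)
    (zM2 : 0 ≤ z2 - z1)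
    (zM3 : 0 ≤ z3 - z1)
    (yOmmm : 0 ≤ 76963/88800 + y1 + y2 + y3)
    (yOpmm : 0 ≤ 76963/88800 - y1 + y2 + y3)
    (yOmpm : 0 ≤ 76963/88800 + y1 - y2 + y3)
    (yOppm : 0 ≤ 76963/88800 - y1 - y2 + y3)
    (yOmmp : 0 ≤ 76963/88800 + y1 + y2 - y3)
    (yOmpp : 0 ≤ 76963/88800 + y1 - y2 - y3)
    (yOppp : 0 ≤ 76963/88800 - y1 - y2 - y3)
    (yC3 : 0 ≤ 10572241/20790000 - y3)
    (yB : 0 ≤ -39/500 - y1 - 179/1000 * (y1 + y2 + y3))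
    (r0 : 0 ≤ r - 223/1000)
    (r1 : 0 ≤ 1/2 - r)
    (s_z2my2_m : 0 ≤ -(z2 - y2))
    (s_z3my3_m : 0 ≤ -(z3 - y3))
    (s_y2my3_m : 0 ≤ -(y2 - y3))
    (s_z1my1_m : 0 ≤ -(z1 - y1)) :
    (z1 - y1) ^ 2 + (z2 - y2) ^ 2 + (z3 - y3) ^ 2 ≤ r + 1/2 - 1/5000 := by
  linarith only [mul_nonneg zOmpm r0, mul_nonneg zM3 yB, mul_nonneg zOmmm s_z2my2_m,
    mul_nonneg zOmpm s_y2my3_m, mul_nonneg yOppp r0, mul_nonneg zOmmm yOmpm,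
    mul_nonneg yOmmm yOmpp, mul_nonneg zOppm yB, mul_nonneg zOmmp zM3, mul_nonneg zOmmp yC3,
    mul_nonneg yOmpp r1, mul_nonneg zOppp r0, mul_nonneg zOmmm yOmmp, mul_nonneg r0 s_y2my3_m,
    mul_nonneg zM3 yOpmm, mul_nonneg zOmmm s_z1my1_m, mul_nonneg zOmmm s_z3my3_m,
    mul_nonneg yOppm yOmpp, mul_nonneg zM3 s_z3my3_m, mul_nonneg zM3 r1, mul_nonneg zOmpp yOmpp,
    mul_nonneg yC3 s_y2my3_m, mul_nonneg zOmpm zM2, mul_nonneg zOmpm yB,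
    mul_nonneg yC3 s_z3my3_m, mul_nonneg zOmmm zOmpp, mul_nonneg zOmmm zOmmm,
    mul_nonneg yB s_z1my1_m, mul_nonneg zM2 yC3, mul_nonneg yOmpp s_z2my2_m,
    mul_nonneg yOmpp yOmpp, mul_nonneg yOppp yC3, mul_nonneg yOmmp yB, mul_nonneg r0 r1]

theorem cls1 (z1 z2 z3 r y1 y2 y3 : ℝ)
    (zOmmm : 0 ≤ 333/800 + 100/111 * r + z1 + z2 + z3)
    (zOpmm : 0 ≤ 333/800 + 100/111 * r - z1 + z2 + z3)
    (zOmpm : 0 ≤ 333/800 + 100/111 * r + z1 - z2 + z3)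
    (zOppm : 0 ≤ 333/800 + 100/111 * r - z1 - z2 + z3)
    (zOmmp : 0 ≤ 333/800 + 100/111 * r + z1 + z2 - z3)
    (zOpmp : 0 ≤ 333/800 + 100/111 * r - z1 + z2 - z3)
    (zOmpp : 0 ≤ 333/800 + 100/111 * r + z1 - z2 - z3)
    (zOppp : 0 ≤ 333/800 + 100/111 * r - z1 - z2 - z3)
    (zC1 : 0 ≤ 2079/10000 + 1250/2079 * r - z1)
    (zC2 : 0 ≤ 2079/10000 + 1250/2079 * r - z2)
    (zC3 : 0 ≤ 2079/10000 + 1250/2079 * r - z3)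
    (zM2 : 0 ≤ z2 - z1)
    (zM3 : 0 ≤ z3 - z1)
    (zB : 0 ≤ -39/500 - z1 - 179/1000 * (z1 + z2 + z3))
    (yOmmm : 0 ≤ 76963/88800 + y1 + y2 + y3)
    (yOpmm : 0 ≤ 76963/88800 - y1 + y2 + y3)
    (yOmpm : 0 ≤ 76963/88800 + y1 - y2 + y3)
    (yOppm : 0 ≤ 76963/88800 - y1 - y2 + y3)
    (yOmmp : 0 ≤ 76963/88800 + y1 + y2 - y3)
    (yOpmp : 0 ≤ 76963/88800 - y1 + y2 - y3)
    (yOmpp : 0 ≤ 76963/88800 + y1 - y2 - y3)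
    (yOppp : 0 ≤ 76963/88800 - y1 - y2 - y3)
    (yC1 : 0 ≤ 10572241/20790000 - y1)
    (yC2 : 0 ≤ 10572241/20790000 - y2)
    (yC3 : 0 ≤ 10572241/20790000 - y3)
    (yM2 : 0 ≤ y2 - y1)
    (yM3 : 0 ≤ y3 - y1)
    (yB : 0 ≤ -39/500 - y1 - 179/1000 * (y1 + y2 + y3))
    (r0 : 0 ≤ r - 223/1000)
    (r1 : 0 ≤ 1/2 - r) :
    (z1 - y1) ^ 2 + (z2 - y2) ^ 2 + (z3 - y3) ^ 2 ≤ r + 1/2 - 1/5000 := by
  rcases le_total 0 (z2 - y2) with s_z2my2_p | s_z2my2_m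
  · rcases le_total 0 (z3 - y3) with s_z3my3_p | s_z3my3_m
    · rcases le_total 0 (z2 - z3) with s_z2mz3_p | s_z2mz3_m
      · exact cls1_0 z1 z2 z3 r y1 y2 y3 zOmmm zOmpm zOmmp zOmpp zC2 zM2 zM3 zB yOmmm yOmpm yOmmp
          yOmpp yM2 yM3 yB r0 r1 s_z2my2_p s_z3my3_p s_z2mz3_p
      · replace s_z2mz3_m := neg_nonneg.2 s_z2mz3_m
        exact cls1_1 z1 z2 z3 r y1 y2 y3 zOmmm zOmpm zOmmp zOmpp zC3 zM2 zB yOmmm yOmpm yOmmp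
            yOmpp yOppp yM2 yM3 yB r0 r1 s_z2my2_p s_z3my3_p s_z2mz3_m
    · replace s_z3my3_m := neg_nonneg.2 s_z3my3_m
      rcases le_total 0 (z1 - y1) with s_z1my1_p | s_z1my1_m
      · rcases le_total 0 (y2 + y3) with s_y2ay3_p | s_y2ay3_m
        · exact cls1_2 z1 z2 z3 r y1 y2 y3 zOmmm zOmpm zOmmp zOpmp zOmpp zOppp zC2 zM3 zB yOmmm
            yOmpm yOmmp yOpmp yOmpp yC3 yM2 r0 r1 s_z2my2_p s_z3my3_m s_z1my1_p s_y2ay3_p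
        · replace s_y2ay3_m := neg_nonneg.2 s_y2ay3_m
          exact cls1_3 z1 z2 z3 r y1 y2 y3 zOmmm zOpmm zOmpm zOmmp zOpmp zC2 zM2 zM3 zB yOmmm
              yOmpm yOppm yOmmp yOmpp yM2 r0 r1 s_z2my2_p s_z3my3_m s_z1my1_p s_y2ay3_m
      · replace s_z1my1_m := neg_nonneg.2 s_z1my1_m
        exact cls1_4 z1 z2 z3 r y1 y2 y3 zOmmm zOmpm zOmmp zOpmp zOmpp zOppp zC2 zM3 yOmmm yOmpm
            yOmmp yOpmp yOppp yC3 yM2 yM3 yB r0 r1 s_z2my2_p s_z3my3_m s_z1my1_m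
  · replace s_z2my2_m := neg_nonneg.2 s_z2my2_m
    rcases le_total 0 (z3 - y3) with s_z3my3_p | s_z3my3_m
    · rcases le_total 0 (z1 - y1) with s_z1my1_p | s_z1my1_m
      · rcases le_total 0 (y2 + y3) with s_y2ay3_p | s_y2ay3_m
        · exact cls1_5 z1 z2 z3 r y1 y2 y3 zOmmm zOmpm zOmmp zOmpp zOppp zC3 zM2 zM3 zB yOmmm
            yOmpm yOppm yOmmp yOmpp yC2 yM3 r0 r1 s_z2my2_m s_z3my3_p s_z1my1_p s_y2ay3_p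
        · replace s_y2ay3_m := neg_nonneg.2 s_y2ay3_m
          exact cls1_6 z1 z2 z3 r y1 y2 y3 zOmmm zOpmm zOmpm zOmmp zOmpp zC3 zM2 zM3 zB yOmmm
              yOpmm yOmpm yOppm yOmmp yOmpp yOppp yM3 r0 r1 s_z2my2_m s_z3my3_p s_z1my1_p
              s_y2ay3_m
      · replace s_z1my1_m := neg_nonneg.2 s_z1my1_m
        exact cls1_7 z1 z2 z3 r y1 y2 y3 zOmmm zOpmm zOmpm zOmmp zOpmp zOmpp zOppp zC3 zM2 yOmmm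
            yOpmm yOmpm yOmmp yOppp yC2 yM3 yB r0 r1 s_z2my2_m s_z3my3_p s_z1my1_m
    · replace s_z3my3_m := neg_nonneg.2 s_z3my3_m
      rcases le_total 0 (y2 - y3) with s_y2my3_p | s_y2my3_m
      · rcases le_total 0 (z1 - y1) with s_z1my1_p | s_z1my1_m
        · exact cls1_8 z1 z2 z3 r y1 y2 y3 zOmmm zOmmp zOmpp zM2 zM3 zB yOmmm yOpmm yOmpm yOppm
            yOmmp yOmpp yOppp yC2 r0 r1 s_z2my2_m s_z3my3_m s_y2my3_p s_z1my1_p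
        · replace s_z1my1_m := neg_nonneg.2 s_z1my1_m
          exact cls1_9 z1 z2 z3 r y1 y2 y3 zOmmm zOmpm zOmmp zOpmp zM2 zM3 yOmmm yOpmm yOmpm
              yOpmp yOmpp yC2 yM3 yB r0 r1 s_z2my2_m s_z3my3_m s_y2my3_p s_z1my1_m
      · replace s_y2my3_m := neg_nonneg.2 s_y2my3_m
        rcases le_total 0 (z1 - y1) with s_z1my1_p | s_z1my1_m
        · exact cls1_10 z1 z2 z3 r y1 y2 y3 zOmmm zOmpm zOmmp zOmpp zM2 zM3 zB yOmmm yOpmm yOmpm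
            yOppm yOmmp yOpmp yOmpp yOppp yC3 r0 r1 s_z2my2_m s_z3my3_m s_y2my3_m s_z1my1_p
        · replace s_z1my1_m := neg_nonneg.2 s_z1my1_m
          exact cls1_11 z1 z2 z3 r y1 y2 y3 zOmmm zOmpm zOppm zOmmp zOmpp zOppp zM2 zM3 yOmmm
              yOpmm yOmpm yOppm yOmmp yOmpp yOppp yC3 yB r0 r1 s_z2my2_m s_z3my3_m s_y2my3_m
              s_z1my1_m

end Vale.Agent.P052.H487.Poly
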