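import Mathlib.Tactic.Linarith
import Mathlib.Data.Real.Basic

/-! Weighted cells of the truncated octahedron: polynomial inequalities. -/

set_option autoImplicit false
set_option linter.unusedVariables false

namespace Vale.Agent.P052.H487.Poly

theorem cls4_0 (z1 z2 z3 r y1 y2 y3 : ℝ)
    (zOpmm : 0 ≤ 333/800 + 100/111 * r - z1 + z2 + z3)
    (zOmpm : 0 ≤ 333/800 + 100/111 * r + z1 - z2 + z3)
    (zOppm : 0 ≤ 333/800 + 100/111 * r - z1 - z2 + z3)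
    (zOppp : 0 ≤ 333/800 + 100/111 * r - z1 - z2 - z3)
    (zC1 : 0 ≤ 2079/10000 + 1250/2079 * r - z1)
    (zC2 : 0 ≤ 2079/10000 + 1250/2079 * r - z2)
    (zC3 : 0 ≤ 2079/10000 + 1250/2079 * r - z3)
    (zB3 : 0 ≤ 39/500 + z3 + 179/1000 * (z1 + z2 + z3))
    (yC3 : 0 ≤ 10572241/20790000 - y3)
    (yB1 : 0 ≤ 39/500 + y1 + 179/1000 * (y1 + y2 + y3))
    (yB2 : 0 ≤ 39/500 + y2 + 179/1000 * (y1 + y2 + y3))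
    (yB3 : 0 ≤ 39/500 + y3 + 179/1000 * (y1 + y2 + y3))
    (r0 : 0 ≤ r - 223/1000)
    (r1 : 0 ≤ 1/2 - r)
    (s_z1my1_p : 0 ≤ z1 - y1)
    (s_z2my2_p : 0 ≤ z2 - y2) :
    (z1 - y1) ^ 2 + (z2 - y2) ^ 2 + (z3 - y3) ^ 2 ≤ r + 1/2 - 1/5000 := by
  linarith only [mul_nonneg zC1 s_z1my1_p, mul_nonneg r0 s_z2my2_p, mul_nonneg zC2 yB1,
    mul_nonneg zB3 r1, mul_nonneg zOppp zB3, mul_nonneg yC3 s_z1my1_p, mul_nonneg zOppm yB2,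
    mul_nonneg zOppm s_z2my2_p, mul_nonneg yB1 yB3, mul_nonneg r0 r1, mul_nonneg zB3 yB2,
    mul_nonneg yB2 s_z2my2_p, mul_nonneg yB2 yB3, mul_nonneg yB1 r0, mul_nonneg yB2 r0,
    mul_nonneg zC3 zB3, mul_nonneg zOpmm yB2, mul_nonneg zB3 yB1, mul_nonneg yB1 s_z1my1_p,
    mul_nonneg zB3 yB3, mul_nonneg zOppm yB1, mul_nonneg yC3 r1, mul_nonneg zC2 s_z2my2_p,
    mul_nonneg zOppm yB3, mul_nonneg yB1 yB2, mul_nonneg zC1 zC2, mul_nonneg zOppm s_z1my1_p,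
    mul_nonneg zC1 yB2, mul_nonneg zOppm r1, mul_nonneg zC3 yC3, mul_nonneg r0 s_z1my1_p,
    mul_nonneg yC3 s_z2my2_p, mul_nonneg zOmpm yB1, mul_nonneg yC3 yB3]

theorem cls4_1 (z1 z2 z3 r y1 y2 y3 : ℝ)
    (zOmpm : 0 ≤ 333/800 + 100/111 * r + z1 - z2 + z3)
    (zOpmp : 0 ≤ 333/800 + 100/111 * r - z1 + z2 - z3)
    (zOppp : 0 ≤ 333/800 + 100/111 * r - z1 - z2 - z3)
    (zC1 : 0 ≤ 2079/10000 + 1250/2079 * r - z1)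
    (zC3 : 0 ≤ 2079/10000 + 1250/2079 * r - z3)
    (zB1 : 0 ≤ 39/500 + z1 + 179/1000 * (z1 + z2 + z3))
    (zB2 : 0 ≤ 39/500 + z2 + 179/1000 * (z1 + z2 + z3))
    (zB3 : 0 ≤ 39/500 + z3 + 179/1000 * (z1 + z2 + z3))
    (yOmmm : 0 ≤ 76963/88800 + y1 + y2 + y3)
    (yOppm : 0 ≤ 76963/88800 - y1 - y2 + y3)
    (yOpmp : 0 ≤ 76963/88800 - y1 + y2 - y3)
    (yOmpp : 0 ≤ 76963/88800 + y1 - y2 - y3)
    (yC2 : 0 ≤ 10572241/20790000 - y2)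
    (yB1 : 0 ≤ 39/500 + y1 + 179/1000 * (y1 + y2 + y3))
    (yB3 : 0 ≤ 39/500 + y3 + 179/1000 * (y1 + y2 + y3))
    (r0 : 0 ≤ r - 223/1000)
    (r1 : 0 ≤ 1/2 - r)
    (s_z1my1_p : 0 ≤ z1 - y1)
    (s_z2my2_m : 0 ≤ -(z2 - y2))
    (s_z3my3_p : 0 ≤ z3 - y3) :
    (z1 - y1) ^ 2 + (z2 - y2) ^ 2 + (z3 - y3) ^ 2 ≤ r + 1/2 - 1/5000 := by
  linarith only [mul_nonneg zB3 yC2, mul_nonneg yB3 yB3, mul_nonneg zC1 yB3,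
    mul_nonneg r0 s_z3my3_p, mul_nonneg zC1 zC3, mul_nonneg yOppm yC2, mul_nonneg yB1 r1,
    mul_nonneg zB2 yB3, mul_nonneg yB1 s_z1my1_p, mul_nonneg yB1 yB3, mul_nonneg zC3 s_z3my3_p,
    mul_nonneg zOpmp zB1, mul_nonneg zOpmp r1, mul_nonneg yOpmp yC2, mul_nonneg yB3 r1,
    mul_nonneg r0 s_z1my1_p, mul_nonneg zB1 yC2, mul_nonneg zOpmp s_z3my3_p,
    mul_nonneg zOppp zB2, mul_nonneg yOmmm yC2, mul_nonneg zC3 yB1, mul_nonneg zB2 r1,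
    mul_nonneg zOmpm yC2, mul_nonneg r0 r1, mul_nonneg zOpmp zB3, mul_nonneg zB1 yB1,
    mul_nonneg zOpmp s_z1my1_p, mul_nonneg yOmpp yC2, mul_nonneg zB2 s_z2my2_m,
    mul_nonneg yB3 s_z3my3_p, mul_nonneg zC1 s_z1my1_p, mul_nonneg zB2 yB1,
    mul_nonneg yC2 s_z2my2_m, mul_nonneg zB2 yOmmm]

theorem cls4_2 (z1 z2 z3 r y1 y2 y3 : ℝ)
    (zOpmm : 0 ≤ 333/800 + 100/111 * r - z1 + z2 + z3)
    (zOppm : 0 ≤ 333/800 + 100/111 * r - z1 - z2 + z3)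
    (zOmmp : 0 ≤ 333/800 + 100/111 * r + z1 + z2 - z3)
    (zOpmp : 0 ≤ 333/800 + 100/111 * r - z1 + z2 - z3)
    (zOppp : 0 ≤ 333/800 + 100/111 * r - z1 - z2 - z3)
    (zC1 : 0 ≤ 2079/10000 + 1250/2079 * r - z1)
    (zB2 : 0 ≤ 39/500 + z2 + 179/1000 * (z1 + z2 + z3))
    (zB3 : 0 ≤ 39/500 + z3 + 179/1000 * (z1 + z2 + z3))
    (yOmmm : 0 ≤ 76963/88800 + y1 + y2 + y3)
    (yOmpm : 0 ≤ 76963/88800 + y1 - y2 + y3)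
    (yOppm : 0 ≤ 76963/88800 - y1 - y2 + y3)
    (yOmmp : 0 ≤ 76963/88800 + y1 + y2 - y3)
    (yOpmp : 0 ≤ 76963/88800 - y1 + y2 - y3)
    (yOmpp : 0 ≤ 76963/88800 + y1 - y2 - y3)
    (yOppp : 0 ≤ 76963/88800 - y1 - y2 - y3)
    (yC2 : 0 ≤ 10572241/20790000 - y2)
    (yB1 : 0 ≤ 39/500 + y1 + 179/1000 * (y1 + y2 + y3))
    (yB3 : 0 ≤ 39/500 + y3 + 179/1000 * (y1 + y2 + y3))
    (r0 : 0 ≤ r - 223/1000)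
    (r1 : 0 ≤ 1/2 - r)
    (s_z1my1_p : 0 ≤ z1 - y1)
    (s_z2my2_m : 0 ≤ -(z2 - y2))
    (s_z3my3_m : 0 ≤ -(z3 - y3))
    (s_y2my3_p : 0 ≤ y2 - y3) :
    (z1 - y1) ^ 2 + (z2 - y2) ^ 2 + (z3 - y3) ^ 2 ≤ r + 1/2 - 1/5000 := by
  linarith only [mul_nonneg yC2 s_y2my3_p, mul_nonneg yOmpp yB3, mul_nonneg zOpmm r0,
    mul_nonneg zB3 yC2, mul_nonneg zC1 s_z1my1_p, mul_nonneg zB3 s_z3my3_m, mul_nonneg zB2 yOmmm,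
    mul_nonneg zOppp zC1, mul_nonneg yOmpp s_z3my3_m, mul_nonneg zB2 yOpmp, mul_nonneg r0 r1,
    mul_nonneg yOmpm r0, mul_nonneg yB1 s_y2my3_p, mul_nonneg zOpmp yOmpp, mul_nonneg zOppm zB2,
    mul_nonneg zOpmp zC1, mul_nonneg yOppm yOmpp, mul_nonneg zC1 yOpmp, mul_nonneg yC2 s_z2my2_m,
    mul_nonneg zB2 yOmmp, mul_nonneg yOmpp r1, mul_nonneg yB1 r0, mul_nonneg zOmmp yB1,
    mul_nonneg zOpmp r0, mul_nonneg zB3 yB1, mul_nonneg zB2 s_z2my2_m, mul_nonneg zB3 yOmpm,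
    mul_nonneg r0 s_z2my2_m, mul_nonneg zOppm zC1, mul_nonneg yOppp yB1, mul_nonneg zC1 yOppp,
    mul_nonneg yOmpp s_z1my1_p, mul_nonneg zOppp yOmpp, mul_nonneg yOmpm yOmpp,
    mul_nonneg zC1 yOppm]

theorem cls4_3 (z1 z2 z3 r y1 y2 y3 : ℝ)
    (zOpmm : 0 ≤ 333/800 + 100/111 * r - z1 + z2 + z3)
    (zOmpm : 0 ≤ 333/800 + 100/111 * r + z1 - z2 + z3)
    (zOmmp : 0 ≤ 333/800 + 100/111 * r + z1 + z2 - z3)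
    (zOpmp : 0 ≤ 333/800 + 100/111 * r - z1 + z2 - z3)
    (zOmpp : 0 ≤ 333/800 + 100/111 * r + z1 - z2 - z3)
    (zOppp : 0 ≤ 333/800 + 100/111 * r - z1 - z2 - z3)
    (zC1 : 0 ≤ 2079/10000 + 1250/2079 * r - z1)
    (zB2 : 0 ≤ 39/500 + z2 + 179/1000 * (z1 + z2 + z3))
    (zB3 : 0 ≤ 39/500 + z3 + 179/1000 * (z1 + z2 + z3))
    (yOmmm : 0 ≤ 76963/88800 + y1 + y2 + y3)
    (yOpmm : 0 ≤ 76963/88800 - y1 + y2 + y3)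
    (yOmpm : 0 ≤ 76963/88800 + y1 - y2 + y3)
    (yOppm : 0 ≤ 76963/88800 - y1 - y2 + y3)
    (yOmmp : 0 ≤ 76963/88800 + y1 + y2 - y3)
    (yOpmp : 0 ≤ 76963/88800 - y1 + y2 - y3)
    (yOmpp : 0 ≤ 76963/88800 + y1 - y2 - y3)
    (yOppp : 0 ≤ 76963/88800 - y1 - y2 - y3)
    (yC3 : 0 ≤ 10572241/20790000 - y3)
    (yB1 : 0 ≤ 39/500 + y1 + 179/1000 * (y1 + y2 + y3))
    (r0 : 0 ≤ r - 223/1000)
    (r1 : 0 ≤ 1/2 - r)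
    (s_z1my1_p : 0 ≤ z1 - y1)
    (s_z2my2_m : 0 ≤ -(z2 - y2))
    (s_z3my3_m : 0 ≤ -(z3 - y3))
    (s_y2my3_m : 0 ≤ -(y2 - y3)) :
    (z1 - y1) ^ 2 + (z2 - y2) ^ 2 + (z3 - y3) ^ 2 ≤ r + 1/2 - 1/5000 := by
  linarith only [mul_nonneg yOmpp yOppp, mul_nonneg yOmpp s_z2my2_m, mul_nonneg zB3 yOmpm,
    mul_nonneg zOpmm zB3, mul_nonneg yOpmm yC3, mul_nonneg yC3 s_z3my3_m, mul_nonneg yOmpp r1,
    mul_nonneg zC1 yOppp, mul_nonneg zC1 s_z1my1_p, mul_nonneg zOpmm r0, mul_nonneg zOppp zB3,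
    mul_nonneg zB2 yOmmp, mul_nonneg zOmmp zC1, mul_nonneg zOmmp zB3, mul_nonneg yOmmp yOmpp,
    mul_nonneg yB1 r0, mul_nonneg zOppp r0, mul_nonneg yOppp yB1, mul_nonneg zB2 s_z2my2_m,
    mul_nonneg zB3 yOppm, mul_nonneg yOpmp yOmpp, mul_nonneg zOmpm yB1, mul_nonneg zC1 yOpmp,
    mul_nonneg zB3 yOmmm, mul_nonneg zOpmp r0, mul_nonneg zC1 yOppm, mul_nonneg zB2 yB1,
    mul_nonneg r0 r1, mul_nonneg yOmpm r0, mul_nonneg yC3 s_y2my3_m, mul_nonneg yB1 s_y2my3_m,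
    mul_nonneg zB3 s_z3my3_m, mul_nonneg yOmpp s_z1my1_p, mul_nonneg zOmpp zC1,
    mul_nonneg zB2 yC3]

theorem cls4_4 (z1 z2 z3 r y1 y2 y3 : ℝ)
    (zOpmm : 0 ≤ 333/800 + 100/111 * r - z1 + z2 + z3)
    (zOmpp : 0 ≤ 333/800 + 100/111 * r + z1 - z2 - z3)
    (zOppp : 0 ≤ 333/800 + 100/111 * r - z1 - z2 - z3)
    (zC2 : 0 ≤ 2079/10000 + 1250/2079 * r - z2)
    (zC3 : 0 ≤ 2079/10000 + 1250/2079 * r - z3)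
    (zB1 : 0 ≤ 39/500 + z1 + 179/1000 * (z1 + z2 + z3))
    (zB2 : 0 ≤ 39/500 + z2 + 179/1000 * (z1 + z2 + z3))
    (zB3 : 0 ≤ 39/500 + z3 + 179/1000 * (z1 + z2 + z3))
    (yOmmm : 0 ≤ 76963/88800 + y1 + y2 + y3)
    (yOpmm : 0 ≤ 76963/88800 - y1 + y2 + y3)
    (yOmpm : 0 ≤ 76963/88800 + y1 - y2 + y3)
    (yOmmp : 0 ≤ 76963/88800 + y1 + y2 - y3)
    (yOppp : 0 ≤ 76963/88800 - y1 - y2 - y3)
    (yC1 : 0 ≤ 10572241/20790000 - y1)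
    (yB2 : 0 ≤ 39/500 + y2 + 179/1000 * (y1 + y2 + y3))
    (yB3 : 0 ≤ 39/500 + y3 + 179/1000 * (y1 + y2 + y3))
    (r0 : 0 ≤ r - 223/1000)
    (r1 : 0 ≤ 1/2 - r)
    (s_z1my1_m : 0 ≤ -(z1 - y1))
    (s_z2my2_p : 0 ≤ z2 - y2)
    (s_z3my3_p : 0 ≤ z3 - y3) :
    (z1 - y1) ^ 2 + (z2 - y2) ^ 2 + (z3 - y3) ^ 2 ≤ r + 1/2 - 1/5000 := by
  linarith only [mul_nonneg yOmmp yC1, mul_nonneg yB2 r1, mul_nonneg zC2 s_z2my2_p,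
    mul_nonneg yB2 yB3, mul_nonneg zB1 r1, mul_nonneg yB2 s_z2my2_p, mul_nonneg zB1 yB3,
    mul_nonneg zB3 yC1, mul_nonneg zC3 s_z3my3_p, mul_nonneg zOmpp r1, mul_nonneg r0 r1,
    mul_nonneg zOmpp s_z2my2_p, mul_nonneg zOppp zB1, mul_nonneg zB1 s_z1my1_m,
    mul_nonneg zOmpp zB2, mul_nonneg yOmpm yC1, mul_nonneg yC1 s_z1my1_m, mul_nonneg yB2 yB2,
    mul_nonneg yB3 r1, mul_nonneg yOppp yC1, mul_nonneg zB1 yB2, mul_nonneg r0 s_z2my2_p,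
    mul_nonneg yB3 yB3, mul_nonneg zOmpp zB3, mul_nonneg zC3 yB2, mul_nonneg zOpmm yC1,
    mul_nonneg yB3 s_z3my3_p, mul_nonneg yOpmm yC1, mul_nonneg zB2 yC1, mul_nonneg r0 s_z3my3_p,
    mul_nonneg zOmpp s_z3my3_p, mul_nonneg zC2 zC3, mul_nonneg zB1 yOmmm, mul_nonneg zC2 yB3]

theorem cls4_5 (z1 z2 z3 r y1 y2 y3 : ℝ)
    (zOmmm : 0 ≤ 333/800 + 100/111 * r + z1 + z2 + z3)
    (zOpmm : 0 ≤ 333/800 + 100/111 * r - z1 + z2 + z3)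
    (zOmpm : 0 ≤ 333/800 + 100/111 * r + z1 - z2 + z3)
    (zOppm : 0 ≤ 333/800 + 100/111 * r - z1 - z2 + z3)
    (zOmmp : 0 ≤ 333/800 + 100/111 * r + z1 + z2 - z3)
    (zOpmp : 0 ≤ 333/800 + 100/111 * r - z1 + z2 - z3)
    (zOppp : 0 ≤ 333/800 + 100/111 * r - z1 - z2 - z3)
    (zC2 : 0 ≤ 2079/10000 + 1250/2079 * r - z2)
    (zB1 : 0 ≤ 39/500 + z1 + 179/1000 * (z1 + z2 + z3))
    (zB3 : 0 ≤ 39/500 + z3 + 179/1000 * (z1 + z2 + z3))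
    (yOmmm : 0 ≤ 76963/88800 + y1 + y2 + y3)
    (yOpmm : 0 ≤ 76963/88800 - y1 + y2 + y3)
    (yOmpm : 0 ≤ 76963/88800 + y1 - y2 + y3)
    (yOmmp : 0 ≤ 76963/88800 + y1 + y2 - y3)
    (yOpmp : 0 ≤ 76963/88800 - y1 + y2 - y3)
    (yOmpp : 0 ≤ 76963/88800 + y1 - y2 - y3)
    (yOppp : 0 ≤ 76963/88800 - y1 - y2 - y3)
    (yC1 : 0 ≤ 10572241/20790000 - y1)
    (yB2 : 0 ≤ 39/500 + y2 + 179/1000 * (y1 + y2 + y3))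
    (r0 : 0 ≤ r - 223/1000)
    (r1 : 0 ≤ 1/2 - r)
    (s_z1my1_m : 0 ≤ -(z1 - y1))
    (s_z2my2_p : 0 ≤ z2 - y2)
    (s_z3my3_m : 0 ≤ -(z3 - y3))
    (s_y1my3_p : 0 ≤ y1 - y3) :
    (z1 - y1) ^ 2 + (z2 - y2) ^ 2 + (z3 - y3) ^ 2 ≤ r + 1/2 - 1/5000 := by
  linarith only [mul_nonneg zOppm zB1, mul_nonneg zB3 s_z3my3_m, mul_nonneg zB3 yOpmm,
    mul_nonneg zB3 yOpmp, mul_nonneg zC2 s_z2my2_p, mul_nonneg yOpmp s_z1my1_m,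
    mul_nonneg zOppp r0, mul_nonneg zOppm yC1, mul_nonneg yOpmp s_z3my3_m, mul_nonneg zB1 yOmmp,
    mul_nonneg yB2 s_y1my3_p, mul_nonneg zOppp zC2, mul_nonneg zC2 yOmpp, mul_nonneg yOpmm yOpmp,
    mul_nonneg zOpmp zC2, mul_nonneg zB3 yB2, mul_nonneg r0 r1, mul_nonneg zB1 yOmmm,
    mul_nonneg yOpmp r1, mul_nonneg zOmmp yOpmp, mul_nonneg zOpmm yC1, mul_nonneg zB1 yOmpp,
    mul_nonneg r0 s_y1my3_p, mul_nonneg zOppm r0, mul_nonneg zOmmm zB1, mul_nonneg yB2 r0,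
    mul_nonneg zOppm zC2, mul_nonneg zOmpm r0, mul_nonneg zB1 s_z1my1_m,
    mul_nonneg yOpmp s_z2my2_p, mul_nonneg zC2 yOppp, mul_nonneg yC1 s_y1my3_p,
    mul_nonneg yOppp yB2, mul_nonneg zB3 yOmpm, mul_nonneg zOmmp yB2]

theorem cls4_6 (z1 z2 z3 r y1 y2 y3 : ℝ)
    (zOpmm : 0 ≤ 333/800 + 100/111 * r - z1 + z2 + z3)
    (zOmpm : 0 ≤ 333/800 + 100/111 * r + z1 - z2 + z3)
    (zOppm : 0 ≤ 333/800 + 100/111 * r - z1 - z2 + z3)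
    (zOmpp : 0 ≤ 333/800 + 100/111 * r + z1 - z2 - z3)
    (zOppp : 0 ≤ 333/800 + 100/111 * r - z1 - z2 - z3)
    (zC2 : 0 ≤ 2079/10000 + 1250/2079 * r - z2)
    (zB1 : 0 ≤ 39/500 + z1 + 179/1000 * (z1 + z2 + z3))
    (zB3 : 0 ≤ 39/500 + z3 + 179/1000 * (z1 + z2 + z3))
    (yOpmm : 0 ≤ 76963/88800 - y1 + y2 + y3)
    (yOmpm : 0 ≤ 76963/88800 + y1 - y2 + y3)
    (yOppm : 0 ≤ 76963/88800 - y1 - y2 + y3)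
    (yOmmp : 0 ≤ 76963/88800 + y1 + y2 - y3)
    (yOpmp : 0 ≤ 76963/88800 - y1 + y2 - y3)
    (yOmpp : 0 ≤ 76963/88800 + y1 - y2 - y3)
    (yOppp : 0 ≤ 76963/88800 - y1 - y2 - y3)
    (yC3 : 0 ≤ 10572241/20790000 - y3)
    (yB2 : 0 ≤ 39/500 + y2 + 179/1000 * (y1 + y2 + y3))
    (r0 : 0 ≤ r - 223/1000)
    (r1 : 0 ≤ 1/2 - r)
    (s_z1my1_m : 0 ≤ -(z1 - y1))
    (s_z2my2_p : 0 ≤ z2 - y2)
    (s_z3my3_m : 0 ≤ -(z3 - y3))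
    (s_y1my3_m : 0 ≤ -(y1 - y3)) :
    (z1 - y1) ^ 2 + (z2 - y2) ^ 2 + (z3 - y3) ^ 2 ≤ r + 1/2 - 1/5000 := by
  linarith only [mul_nonneg zB1 yOmmp, mul_nonneg zOpmm zC2, mul_nonneg zC2 s_z2my2_p,
    mul_nonneg zB1 yC3, mul_nonneg zOpmm zB1, mul_nonneg zOmpm r0, mul_nonneg yOppm yOpmp,
    mul_nonneg r0 r1, mul_nonneg yB2 r0, mul_nonneg yOpmp s_z1my1_m, mul_nonneg yOpmp r0,
    mul_nonneg yOpmm yC3, mul_nonneg zOmpp zB3, mul_nonneg yOpmm r0, mul_nonneg zB3 s_y1my3_m,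
    mul_nonneg zC2 yOmpm, mul_nonneg zOmpm zC2, mul_nonneg zOppm zB1, mul_nonneg zOppm r0,
    mul_nonneg zC2 yOppm, mul_nonneg zB3 yOpmm, mul_nonneg zC2 yOmpp, mul_nonneg yOmmp r0,
    mul_nonneg yOpmp s_z3my3_m, mul_nonneg zB1 s_z1my1_m, mul_nonneg zB1 yB2,
    mul_nonneg zB3 yOppp, mul_nonneg yOpmp yOpmp, mul_nonneg yOppp yB2, mul_nonneg yC3 s_y1my3_m,
    mul_nonneg zB3 yOmpm, mul_nonneg zOppp zC2, mul_nonneg zB3 s_z3my3_m, mul_nonneg yOppp yC3,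
    mul_nonneg yB2 s_z2my2_p]

theorem cls4_7 (z1 z2 z3 r y1 y2 y3 : ℝ)
    (zOmmm : 0 ≤ 333/800 + 100/111 * r + z1 + z2 + z3)
    (zOpmm : 0 ≤ 333/800 + 100/111 * r - z1 + z2 + z3)
    (zC3 : 0 ≤ 2079/10000 + 1250/2079 * r - z3)
    (zB1 : 0 ≤ 39/500 + z1 + 179/1000 * (z1 + z2 + z3))
    (zB2 : 0 ≤ 39/500 + z2 + 179/1000 * (z1 + z2 + z3))
    (zB3 : 0 ≤ 39/500 + z3 + 179/1000 * (z1 + z2 + z3))
    (yOpmm : 0 ≤ 76963/88800 - y1 + y2 + y3)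
    (yOppm : 0 ≤ 76963/88800 - y1 - y2 + y3)
    (yOmmp : 0 ≤ 76963/88800 + y1 + y2 - y3)
    (yOpmp : 0 ≤ 76963/88800 - y1 + y2 - y3)
    (yOmpp : 0 ≤ 76963/88800 + y1 - y2 - y3)
    (yOppp : 0 ≤ 76963/88800 - y1 - y2 - y3)
    (yC1 : 0 ≤ 10572241/20790000 - y1)
    (yC3 : 0 ≤ 10572241/20790000 - y3)
    (yB3 : 0 ≤ 39/500 + y3 + 179/1000 * (y1 + y2 + y3))
    (r0 : 0 ≤ r - 223/1000)
    (r1 : 0 ≤ 1/2 - r)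
    (s_z1my1_m : 0 ≤ -(z1 - y1))
    (s_z2my2_m : 0 ≤ -(z2 - y2))
    (s_y1my2_p : 0 ≤ y1 - y2) :
    (z1 - y1) ^ 2 + (z2 - y2) ^ 2 + (z3 - y3) ^ 2 ≤ r + 1/2 - 1/5000 := by
  linarith only [mul_nonneg zB2 yC1, mul_nonneg zC3 yOppp, mul_nonneg zB3 yOppm,
    mul_nonneg yC1 s_z1my1_m, mul_nonneg yB3 r0, mul_nonneg zC3 zB3, mul_nonneg zB1 yOmpp,
    mul_nonneg yOppp yC1, mul_nonneg zB2 r0, mul_nonneg zB1 zB1, mul_nonneg zC3 s_z1my1_m,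
    mul_nonneg yC1 s_y1my2_p, mul_nonneg zOpmm yOppm, mul_nonneg yOmmp r0,
    mul_nonneg r0 s_y1my2_p, mul_nonneg yOppm s_z1my1_m, mul_nonneg yB3 s_y1my2_p,
    mul_nonneg zB2 yOpmm, mul_nonneg zB1 s_z1my1_m, mul_nonneg zB2 s_z2my2_m,
    mul_nonneg zC3 yOpmp, mul_nonneg zC3 yC3, mul_nonneg r0 r1, mul_nonneg zC3 s_z2my2_m,
    mul_nonneg zB1 s_y1my2_p, mul_nonneg zB3 yB3, mul_nonneg zOmmm zB1, mul_nonneg zB2 yOppm,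
    mul_nonneg zC3 r0, mul_nonneg yOppm yC3, mul_nonneg yOppm s_z2my2_m, mul_nonneg zB1 zB2,
    mul_nonneg yOppm r1, mul_nonneg yOppp yB3, mul_nonneg zB2 yB3]

theorem cls4_8 (z1 z2 z3 r y1 y2 y3 : ℝ)
    (zOpmm : 0 ≤ 333/800 + 100/111 * r - z1 + z2 + z3)
    (zOppm : 0 ≤ 333/800 + 100/111 * r - z1 - z2 + z3)
    (zOmpp : 0 ≤ 333/800 + 100/111 * r + z1 - z2 - z3)
    (zOppp : 0 ≤ 333/800 + 100/111 * r - z1 - z2 - z3)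
    (zC3 : 0 ≤ 2079/10000 + 1250/2079 * r - z3)
    (zB1 : 0 ≤ 39/500 + z1 + 179/1000 * (z1 + z2 + z3))
    (zB2 : 0 ≤ 39/500 + z2 + 179/1000 * (z1 + z2 + z3))
    (zB3 : 0 ≤ 39/500 + z3 + 179/1000 * (z1 + z2 + z3))
    (yOmmm : 0 ≤ 76963/88800 + y1 + y2 + y3)
    (yOmpm : 0 ≤ 76963/88800 + y1 - y2 + y3)
    (yOppm : 0 ≤ 76963/88800 - y1 - y2 + y3)
    (yOpmp : 0 ≤ 76963/88800 - y1 + y2 - y3)
    (yOmpp : 0 ≤ 76963/88800 + y1 - y2 - y3)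
    (yOppp : 0 ≤ 76963/88800 - y1 - y2 - y3)
    (yC2 : 0 ≤ 10572241/20790000 - y2)
    (yC3 : 0 ≤ 10572241/20790000 - y3)
    (yB3 : 0 ≤ 39/500 + y3 + 179/1000 * (y1 + y2 + y3))
    (r0 : 0 ≤ r - 223/1000)
    (r1 : 0 ≤ 1/2 - r)
    (s_z1my1_m : 0 ≤ -(z1 - y1))
    (s_z2my2_m : 0 ≤ -(z2 - y2))
    (s_y1my2_m : 0 ≤ -(y1 - y2)) :
    (z1 - y1) ^ 2 + (z2 - y2) ^ 2 + (z3 - y3) ^ 2 ≤ r + 1/2 - 1/5000 := by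
  linarith only [mul_nonneg yOppm yOmpp, mul_nonneg yB3 s_y1my2_m, mul_nonneg zB1 yB3,
    mul_nonneg yOppm r1, mul_nonneg zB3 yB3, mul_nonneg zOmpp r0, mul_nonneg zC3 yC3,
    mul_nonneg zOpmm zB2, mul_nonneg zB1 yOmpm, mul_nonneg zC3 zB3, mul_nonneg zB1 yOpmp,
    mul_nonneg zB2 yOpmp, mul_nonneg yOppm s_z1my1_m, mul_nonneg yC2 s_z2my2_m,
    mul_nonneg zB1 yC2, mul_nonneg yOppp yB3, mul_nonneg yOppm s_z2my2_m,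
    mul_nonneg zB2 s_y1my2_m, mul_nonneg zB1 s_z1my1_m, mul_nonneg zB1 zB2, mul_nonneg zB3 yOppm,
    mul_nonneg r0 r1, mul_nonneg zC3 r0, mul_nonneg zC3 s_z1my1_m, mul_nonneg zB2 yOmmm,
    mul_nonneg yB3 r0, mul_nonneg zOppp r0, mul_nonneg zOppm zC3, mul_nonneg yOppp yC2,
    mul_nonneg yOppm yC3, mul_nonneg zB2 s_z2my2_m, mul_nonneg r0 s_y1my2_m,
    mul_nonneg zC3 yOppp, mul_nonneg yC2 s_y1my2_m, mul_nonneg zC3 s_y1my2_m]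

theorem cls4 (z1 z2 z3 r y1 y2 y3 : ℝ)
    (zOmmm : 0 ≤ 333/800 + 100/111 * r + z1 + z2 + z3)
    (zOpmm : 0 ≤ 333/800 + 100/111 * r - z1 + z2 + z3)
    (zOmpm : 0 ≤ 333/800 + 100/111 * r + z1 - z2 + z3)
    (zOppm : 0 ≤ 333/800 + 100/111 * r - z1 - z2 + z3)
    (zOmmp : 0 ≤ 333/800 + 100/111 * r + z1 + z2 - z3)
    (zOpmp : 0 ≤ 333/800 + 100/111 * r - z1 + z2 - z3)
    (zOmpp : 0 ≤ 333/800 + 100/111 * r + z1 - z2 - z3)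
    (zOppp : 0 ≤ 333/800 + 100/111 * r - z1 - z2 - z3)
    (zC1 : 0 ≤ 2079/10000 + 1250/2079 * r - z1)
    (zC2 : 0 ≤ 2079/10000 + 1250/2079 * r - z2)
    (zC3 : 0 ≤ 2079/10000 + 1250/2079 * r - z3)
    (zB1 : 0 ≤ 39/500 + z1 + 179/1000 * (z1 + z2 + z3))
    (zB2 : 0 ≤ 39/500 + z2 + 179/1000 * (z1 + z2 + z3))
    (zB3 : 0 ≤ 39/500 + z3 + 179/1000 * (z1 + z2 + z3))
    (yOmmm : 0 ≤ 76963/88800 + y1 + y2 + y3)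
    (yOpmm : 0 ≤ 76963/88800 - y1 + y2 + y3)
    (yOmpm : 0 ≤ 76963/88800 + y1 - y2 + y3)
    (yOppm : 0 ≤ 76963/88800 - y1 - y2 + y3)
    (yOmmp : 0 ≤ 76963/88800 + y1 + y2 - y3)
    (yOpmp : 0 ≤ 76963/88800 - y1 + y2 - y3)
    (yOmpp : 0 ≤ 76963/88800 + y1 - y2 - y3)
    (yOppp : 0 ≤ 76963/88800 - y1 - y2 - y3)
    (yC1 : 0 ≤ 10572241/20790000 - y1)
    (yC2 : 0 ≤ 10572241/20790000 - y2)
    (yC3 : 0 ≤ 10572241/20790000 - y3)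
    (yB1 : 0 ≤ 39/500 + y1 + 179/1000 * (y1 + y2 + y3))
    (yB2 : 0 ≤ 39/500 + y2 + 179/1000 * (y1 + y2 + y3))
    (yB3 : 0 ≤ 39/500 + y3 + 179/1000 * (y1 + y2 + y3))
    (r0 : 0 ≤ r - 223/1000)
    (r1 : 0 ≤ 1/2 - r) :
    (z1 - y1) ^ 2 + (z2 - y2) ^ 2 + (z3 - y3) ^ 2 ≤ r + 1/2 - 1/5000 := by
  rcases le_total 0 (z1 - y1) with s_z1my1_p | s_z1my1_m
  · rcases le_total 0 (z2 - y2) with s_z2my2_p | s_z2my2_m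
    · exact cls4_0 z1 z2 z3 r y1 y2 y3 zOpmm zOmpm zOppm zOppp zC1 zC2 zC3 zB3 yC3 yB1 yB2 yB3 r0
        r1 s_z1my1_p s_z2my2_p
    · replace s_z2my2_m := neg_nonneg.2 s_z2my2_m
      rcases le_total 0 (z3 - y3) with s_z3my3_p | s_z3my3_m
      · exact cls4_1 z1 z2 z3 r y1 y2 y3 zOmpm zOpmp zOppp zC1 zC3 zB1 zB2 zB3 yOmmm yOppm yOpmp
          yOmpp yC2 yB1 yB3 r0 r1 s_z1my1_p s_z2my2_m s_z3my3_p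
      · replace s_z3my3_m := neg_nonneg.2 s_z3my3_m
        rcases le_total 0 (y2 - y3) with s_y2my3_p | s_y2my3_m
        · exact cls4_2 z1 z2 z3 r y1 y2 y3 zOpmm zOppm zOmmp zOpmp zOppp zC1 zB2 zB3 yOmmm yOmpm
            yOppm yOmmp yOpmp yOmpp yOppp yC2 yB1 yB3 r0 r1 s_z1my1_p s_z2my2_m s_z3my3_m
            s_y2my3_p
        · replace s_y2my3_m := neg_nonneg.2 s_y2my3_m
          exact cls4_3 z1 z2 z3 r y1 y2 y3 zOpmm zOmpm zOmmp zOpmp zOmpp zOppp zC1 zB2 zB3 yOmmm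
              yOpmm yOmpm yOppm yOmmp yOpmp yOmpp yOppp yC3 yB1 r0 r1 s_z1my1_p s_z2my2_m
              s_z3my3_m s_y2my3_m
  · replace s_z1my1_m := neg_nonneg.2 s_z1my1_m
    rcases le_total 0 (z2 - y2) with s_z2my2_p | s_z2my2_m
    · rcases le_total 0 (z3 - y3) with s_z3my3_p | s_z3my3_m
      · exact cls4_4 z1 z2 z3 r y1 y2 y3 zOpmm zOmpp zOppp zC2 zC3 zB1 zB2 zB3 yOmmm yOpmm yOmpm
          yOmmp yOppp yC1 yB2 yB3 r0 r1 s_z1my1_m s_z2my2_p s_z3my3_p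
      · replace s_z3my3_m := neg_nonneg.2 s_z3my3_m
        rcases le_total 0 (y1 - y3) with s_y1my3_p | s_y1my3_m
        · exact cls4_5 z1 z2 z3 r y1 y2 y3 zOmmm zOpmm zOmpm zOppm zOmmp zOpmp zOppp zC2 zB1 zB3
            yOmmm yOpmm yOmpm yOmmp yOpmp yOmpp yOppp yC1 yB2 r0 r1 s_z1my1_m s_z2my2_p s_z3my3_m
            s_y1my3_p
        · replace s_y1my3_m := neg_nonneg.2 s_y1my3_m
          exact cls4_6 z1 z2 z3 r y1 y2 y3 zOpmm zOmpm zOppm zOmpp zOppp zC2 zB1 zB3 yOpmm yOmpm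
              yOppm yOmmp yOpmp yOmpp yOppp yC3 yB2 r0 r1 s_z1my1_m s_z2my2_p s_z3my3_m s_y1my3_m
    · replace s_z2my2_m := neg_nonneg.2 s_z2my2_m
      rcases le_total 0 (y1 - y2) with s_y1my2_p | s_y1my2_m
      · exact cls4_7 z1 z2 z3 r y1 y2 y3 zOmmm zOpmm zC3 zB1 zB2 zB3 yOpmm yOppm yOmmp yOpmp
          yOmpp yOppp yC1 yC3 yB3 r0 r1 s_z1my1_m s_z2my2_m s_y1my2_p
      · replace s_y1my2_m := neg_nonneg.2 s_y1my2_m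
        exact cls4_8 z1 z2 z3 r y1 y2 y3 zOpmm zOppm zOmpp zOppp zC3 zB1 zB2 zB3 yOmmm yOmpm
            yOppm yOpmp yOmpp yOppp yC2 yC3 yB3 r0 r1 s_z1my1_m s_z2my2_m s_y1my2_m

end Vale.Agent.P052.H487.Poly
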