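import Vale.Agent.P052.H25.OneCells
import Vale.Agent.P052.H487.PolyA
import Vale.Agent.P052.H487.PolyD
import Mathlib.Topology.Algebra.Ring.Real
import Mathlib.Topology.Order.OrderClosed

/-!
P052, weights at least `223 / 1000`: the four cells.
-/

set_option autoImplicit false

namespace Vale.Agent.P052.H487.Poly

open Vale.Agent.P052.H25

/-- Four closed cells covering the space, such that two points of a cell, of weights at least
`lo` and `1 / 2`, are not far. -/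
structure CellsR (lo th τ μ : ℝ) (C : Fin 4 → ℝ → ℝ → ℝ → Prop) : Prop where
  closed : ∀ j, IsClosed {p : ℝ × ℝ × ℝ | C j p.1 p.2.1 p.2.2}
  cover : ∀ x y z, ∃ j, C j x y z
  pair : ∀ j ρ x y z x' y' z', lo ≤ ρ → ρ ≤ 1 / 2 → C j x y z → C j x' y' z' →
    InW th τ ρ x y z → InW th τ (1 / 2) x' y' z' →
      (x - x') ^ 2 + (y - y') ^ 2 + (z - z') ^ 2 ≤ ρ + 1 / 2 - μ

/-- The first coordinate is the smallest and lies deep. -/
def CellA (x y z : ℝ) : Prop := x ≤ y ∧ x ≤ z ∧ x + 179 / 1000 * (x + y + z) ≤ -39 / 500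

/-- The central cell. -/
def CellD (x y z : ℝ) : Prop :=
  -39 / 500 ≤ x + 179 / 1000 * (x + y + z) ∧ -39 / 500 ≤ y + 179 / 1000 * (x + y + z) ∧
    -39 / 500 ≤ z + 179 / 1000 * (x + y + z)

/-- The four cells. -/
def C : Fin 4 → ℝ → ℝ → ℝ → Prop :=
  ![fun x y z => CellA x y z, fun x y z => CellA y x z, fun x y z => CellA z y x,
    fun x y z => CellD x y z]

theorem inW_swap12 {th τ ρ x y z : ℝ} (h : InW th τ ρ x y z) : InW th τ ρ y x z := by
  obtain ⟨h1, h2, h3, h4⟩ := h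
  exact ⟨by linarith, h3, h2, h4⟩

theorem inW_swap13 {th τ ρ x y z : ℝ} (h : InW th τ ρ x y z) : InW th τ ρ z y x := by
  obtain ⟨h1, h2, h3, h4⟩ := h
  exact ⟨by linarith, h4, h3, h2⟩

theorem pairA (ρ x y z x' y' z' : ℝ) (h0 : 223 / 1000 ≤ ρ) (h1 : ρ ≤ 1 / 2) (hc : CellA x y z)
    (hc' : CellA x' y' z') (hi : InW (111 / 200) (2079 / 2500) ρ x y z)
    (hi' : InW (111 / 200) (2079 / 2500) (1 / 2) x' y' z') :
    (x - x') ^ 2 + (y - y') ^ 2 + (z - z') ^ 2 ≤ ρ + 1 / 2 - 1 / 5000 := by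
  obtain ⟨c1, c2, c3⟩ := hc
  obtain ⟨d1, d2, d3⟩ := hc'
  obtain ⟨i1, i2, i3, i4⟩ := hi
  obtain ⟨j1, j2, j3, j4⟩ := hi'
  have e1 : ρ / (2 * (111 / 200)) + 3 * (111 / 200) / 4 = 333 / 800 + 100 / 111 * ρ := by ring
  have e2 : ρ / (2 * (2079 / 2500)) + 2079 / 2500 / 4 = 2079 / 10000 + 1250 / 2079 * ρ := by ring
  have e3 : (1 / 2 : ℝ) / (2 * (111 / 200)) + 3 * (111 / 200) / 4 = 76963 / 88800 := by norm_num
  have e4 : (1 / 2 : ℝ) / (2 * (2079 / 2500)) + 2079 / 2500 / 4 = 10572241 / 20790000 := by norm_num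
  rw [e1] at i1
  rw [e2] at i2 i3 i4
  rw [e3] at j1
  rw [e4] at j2 j3 j4
  have a1 := le_abs_self x
  have a2 := le_abs_self y
  have a3 := le_abs_self z
  have a4 := neg_abs_le x
  have a5 := neg_abs_le y
  have a6 := neg_abs_le z
  have b1 := le_abs_self x'
  have b2 := le_abs_self y'
  have b3 := le_abs_self z'
  have b4 := neg_abs_le x'
  have b5 := neg_abs_le y'
  have b6 := neg_abs_le z'
  apply cls1 x y z ρ x' y' z' <;> linarith

theorem pairD (ρ x y z x' y' z' : ℝ) (h0 : 223 / 1000 ≤ ρ) (h1 : ρ ≤ 1 / 2) (hc : CellD x y z)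
    (hc' : CellD x' y' z') (hi : InW (111 / 200) (2079 / 2500) ρ x y z)
    (hi' : InW (111 / 200) (2079 / 2500) (1 / 2) x' y' z') :
    (x - x') ^ 2 + (y - y') ^ 2 + (z - z') ^ 2 ≤ ρ + 1 / 2 - 1 / 5000 := by
  obtain ⟨c1, c2, c3⟩ := hc
  obtain ⟨d1, d2, d3⟩ := hc'
  obtain ⟨i1, i2, i3, i4⟩ := hi
  obtain ⟨j1, j2, j3, j4⟩ := hi'
  have e1 : ρ / (2 * (111 / 200)) + 3 * (111 / 200) / 4 = 333 / 800 + 100 / 111 * ρ := by ring
  have e2 : ρ / (2 * (2079 / 2500)) + 2079 / 2500 / 4 = 2079 / 10000 + 1250 / 2079 * ρ := by ring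
  have e3 : (1 / 2 : ℝ) / (2 * (111 / 200)) + 3 * (111 / 200) / 4 = 76963 / 88800 := by norm_num
  have e4 : (1 / 2 : ℝ) / (2 * (2079 / 2500)) + 2079 / 2500 / 4 = 10572241 / 20790000 := by norm_num
  rw [e1] at i1
  rw [e2] at i2 i3 i4
  rw [e3] at j1
  rw [e4] at j2 j3 j4
  have a1 := le_abs_self x
  have a2 := le_abs_self y
  have a3 := le_abs_self z
  have a4 := neg_abs_le x
  have a5 := neg_abs_le y
  have a6 := neg_abs_le z
  have b1 := le_abs_self x'
  have b2 := le_abs_self y'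
  have b3 := le_abs_self z'
  have b4 := neg_abs_le x'
  have b5 := neg_abs_le y'
  have b6 := neg_abs_le z'
  apply cls4 x y z ρ x' y' z' <;> linarith

theorem closedA : IsClosed {p : ℝ × ℝ × ℝ | CellA p.1 p.2.1 p.2.2} := by
  have h : {p : ℝ × ℝ × ℝ | CellA p.1 p.2.1 p.2.2} = {p : ℝ × ℝ × ℝ | p.1 ≤ p.2.1} ∩
      ({p : ℝ × ℝ × ℝ | p.1 ≤ p.2.2} ∩
        {p : ℝ × ℝ × ℝ | p.1 + 179 / 1000 * (p.1 + p.2.1 + p.2.2) ≤ -39 / 500}) := rfl
  rw [h]
  exact (isClosed_le (by fun_prop) (by fun_prop)).inter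
    ((isClosed_le (by fun_prop) (by fun_prop)).inter (isClosed_le (by fun_prop) (by fun_prop)))

theorem closedD : IsClosed {p : ℝ × ℝ × ℝ | CellD p.1 p.2.1 p.2.2} := by
  have h : {p : ℝ × ℝ × ℝ | CellD p.1 p.2.1 p.2.2} =
      {p : ℝ × ℝ × ℝ | -39 / 500 ≤ p.1 + 179 / 1000 * (p.1 + p.2.1 + p.2.2)} ∩
      ({p : ℝ × ℝ × ℝ | -39 / 500 ≤ p.2.1 + 179 / 1000 * (p.1 + p.2.1 + p.2.2)} ∩
        {p : ℝ × ℝ × ℝ | -39 / 500 ≤ p.2.2 + 179 / 1000 * (p.1 + p.2.1 + p.2.2)}) := rfl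
  rw [h]
  exact (isClosed_le (by fun_prop) (by fun_prop)).inter
    ((isClosed_le (by fun_prop) (by fun_prop)).inter (isClosed_le (by fun_prop) (by fun_prop)))

theorem cover (x y z : ℝ) : ∃ j, C j x y z := by
  by_cases hD : CellD x y z
  · exact ⟨3, hD⟩
  · have hs : x + 179 / 1000 * (x + y + z) < -39 / 500 ∨ y + 179 / 1000 * (x + y + z) < -39 / 500 ∨
        z + 179 / 1000 * (x + y + z) < -39 / 500 := by
      by_contra h
      push Not at h
      exact hD h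
    rcases le_total x y with h1 | h1
    · rcases le_total x z with h2 | h2
      · refine ⟨0, h1, h2, ?_⟩
        rcases hs with h | h | h <;> linarith
      · refine ⟨2, by linarith, h2, ?_⟩
        rcases hs with h | h | h <;> linarith
    · rcases le_total y z with h2 | h2
      · refine ⟨1, h1, h2, ?_⟩
        rcases hs with h | h | h <;> linarith
      · refine ⟨2, h2, by linarith, ?_⟩
        rcases hs with h | h | h <;> linarith

/-- The four cells have the required property. -/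
theorem cells : CellsR (223 / 1000) (111 / 200) (2079 / 2500) (1 / 5000) C where
  closed j := by
    match j with
    | 0 => exact closedA
    | 1 => exact closedA.preimage (f := fun p : ℝ × ℝ × ℝ => (p.2.1, p.1, p.2.2)) (by fun_prop)
    | 2 => exact closedA.preimage (f := fun p : ℝ × ℝ × ℝ => (p.2.2, p.2.1, p.1)) (by fun_prop)
    | 3 => exact closedD
  cover := cover
  pair j ρ x y z x' y' z' h0 h1 hc hc' hi hi' := by
    match j with
    | 0 => exact pairA ρ x y z x' y' z' h0 h1 hc hc' hi hi'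
    | 1 =>
      have h := pairA ρ y x z y' x' z' h0 h1 hc hc' (inW_swap12 hi) (inW_swap12 hi')
      linarith
    | 2 =>
      have h := pairA ρ z y x z' y' x' h0 h1 hc hc' (inW_swap13 hi) (inW_swap13 hi')
      linarith
    | 3 => exact pairD ρ x y z x' y' z' h0 h1 hc hc' hi hi'

end Vale.Agent.P052.H487.Poly
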