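import Vale.Agent.P052.H487.Cover
import Vale.Agent.P052.H768.Two2
import Mathlib.Geometry.Euclidean.Projection
import Mathlib.Analysis.SpecialFunctions.Complex.Arg

/-!
Borsuk's partition problem for sets symmetric in a flat: the theorems for bounded sets.
-/

namespace Vale.Agent.P052.H487

open Metric Set
open scoped RealInnerProductSpace
open Vale.Agent.P052.H768 (zc zc_mem sp_mem sp_add_zc inner_zc inner_sp zc_sub norm_sq_split
  continuous_zc tr tr_compact tr_dist smallerCover_of)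

section
variable {V : Type*} [NormedAddCommGroup V] [InnerProductSpace ℝ V] [FiniteDimensional ℝ V]

theorem zc_eq_zero (U : Submodule ℝ V) {x : V} (h : zc U x = 0) : x ∈ U := by
  have h1 := sp_add_zc U x
  rw [h, add_zero] at h1
  rw [← h1]
  exact sp_mem U x

theorem exists_basis (W : Submodule ℝ V) {k : ℕ} (hk : Module.finrank ℝ W = k) :
    ∃ b : Fin k → V, (∀ i, b i ∈ W) ∧ (∀ i, ‖b i‖ = 1) ∧ (∀ i j, i ≠ j → ⟪b i, b j⟫ = 0) ∧
      (∀ v ∈ W, v = ∑ i, ⟪b i, v⟫ • b i) ∧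
      (∀ u ∈ W, ∀ v ∈ W, ⟪u, v⟫ = ∑ i, ⟪b i, u⟫ * ⟪b i, v⟫) := by
  set b : OrthonormalBasis (Fin k) ℝ W :=
    (stdOrthonormalBasis ℝ W).reindex (finCongr hk) with hb
  refine ⟨fun i => (b i : V), fun i => (b i).2, fun i => ?_, fun i j hij => ?_, fun v hv => ?_,
    fun u hu v hv => ?_⟩
  · exact b.orthonormal.1 i
  · exact b.orthonormal.2 hij
  · have h := congrArg Subtype.val (b.sum_repr' ⟨v, hv⟩)
    rw [AddSubmonoidClass.coe_finsetSum] at h
    exact h.symm
  · have h := b.sum_inner_mul_inner ⟨u, hu⟩ ⟨v, hv⟩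
    have h2 : (⟪(⟨u, hu⟩ : W), ⟨v, hv⟩⟫ : ℝ) = ⟪u, v⟫ := rfl
    rw [← h2, ← h]
    refine Finset.sum_congr rfl fun i _ => ?_
    rw [real_inner_comm (b i) (⟨u, hu⟩ : W)]
    rfl

/-- Five sectors. -/
theorem five_sectors (W : Submodule ℝ V) (hW : Module.finrank ℝ W = 2) :
    ∃ S : Fin 5 → Set V, (∀ j, ∃ c > 0, ∀ u ∈ S j, ∀ w ∈ S j, c ≤ ⟪u, w⟫) ∧
      (∀ u ∈ W, ‖u‖ = 1 → ∃ j, u ∈ S j) := by
  obtain ⟨b, -, hb1, hb0, hbs, hbi⟩ := exists_basis W hW
  have h01 : ⟪b 0, b 1⟫ = 0 := hb0 0 1 (by decide)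
  have h10 : ⟪b 1, b 0⟫ = 0 := hb0 1 0 (by decide)
  have h00 : ⟪b 0, b 0⟫ = 1 := by rw [real_inner_self_eq_norm_sq, hb1, one_pow]
  have h11 : ⟪b 1, b 1⟫ = 1 := by rw [real_inner_self_eq_norm_sq, hb1, one_pow]
  refine ⟨fun k => {u | ∃ θ : ℝ, 2 * Real.pi / 5 * (k : ℕ) ≤ θ ∧
    θ ≤ 2 * Real.pi / 5 * ((k : ℕ) + 1) ∧ u = ea (b 0) (b 1) θ}, fun k => ?_, fun u hu hu1 => ?_⟩
  · refine ⟨Real.cos (2 * Real.pi / 5), ?_, ?_⟩
    · refine Real.cos_pos_of_mem_Ioo ⟨?_, ?_⟩ <;> linarith [Real.pi_pos]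
    · rintro _ ⟨θ, h1, h2, rfl⟩ _ ⟨θ', h1', h2', rfl⟩
      have h3 : ⟪ea (b 0) (b 1) θ, ea (b 0) (b 1) θ'⟫ = Real.cos |θ - θ'| := by
        rw [Real.cos_abs, Real.cos_sub]
        simp only [ea, inner_add_left, inner_add_right, real_inner_smul_left,
          real_inner_smul_right, h00, h11, h01, h10]
        ring
      rw [h3]
      have h4 : |θ - θ'| ≤ 2 * Real.pi / 5 := by
        rw [abs_le]
        constructor <;> linarith
      exact Real.cos_le_cos_of_nonneg_of_le_pi (abs_nonneg _) (by linarith [Real.pi_pos]) h4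
  · -- the angle of `u`
    have hsum : ⟪b 0, u⟫ ^ 2 + ⟪b 1, u⟫ ^ 2 = 1 := by
      have h := hbi u hu u hu
      rw [real_inner_self_eq_norm_sq, hu1, Fin.sum_univ_two] at h
      linarith
    obtain ⟨θ, hθ0, hθ1, hc, hs⟩ : ∃ θ : ℝ, 0 ≤ θ ∧ θ < 2 * Real.pi ∧
        Real.cos θ = ⟪b 0, u⟫ ∧ Real.sin θ = ⟪b 1, u⟫ := by
      set z : ℂ := ⟨⟪b 0, u⟫, ⟪b 1, u⟫⟩ with hz
      have hz1 : ‖z‖ = 1 := by
        rw [Complex.norm_def, Complex.normSq_apply, hz]
        simp only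
        rw [← sq, ← sq, hsum, Real.sqrt_one]
      have hz0 : z ≠ 0 := by
        intro h
        rw [h, norm_zero] at hz1
        exact zero_ne_one hz1
      have hcos : Real.cos z.arg = ⟪b 0, u⟫ := by
        rw [Complex.cos_arg hz0, hz1, div_one]
      have hsin : Real.sin z.arg = ⟪b 1, u⟫ := by
        rw [Complex.sin_arg, hz1, div_one]
      rcases le_or_gt 0 z.arg with h | h
      · exact ⟨z.arg, h, by linarith [Complex.arg_le_pi z, Real.pi_pos], hcos, hsin⟩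
      · refine ⟨z.arg + 2 * Real.pi, by linarith [Complex.neg_pi_lt_arg z], by linarith, ?_, ?_⟩
        · rw [Real.cos_add_two_pi, hcos]
        · rw [Real.sin_add_two_pi, hsin]
    have hpos : 0 < 2 * Real.pi / 5 := by positivity
    set k : ℕ := ⌊θ / (2 * Real.pi / 5)⌋₊ with hk
    have hk1 : (k : ℝ) ≤ θ / (2 * Real.pi / 5) := Nat.floor_le (by positivity)
    have hk2 : θ / (2 * Real.pi / 5) < k + 1 := Nat.lt_floor_add_one _
    rw [le_div_iff₀ hpos] at hk1
    rw [div_lt_iff₀ hpos] at hk2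
    have hk5 : k < 5 := by
      have h1 : (k : ℝ) * (2 * Real.pi / 5) < 5 * (2 * Real.pi / 5) := by linarith
      have h2 : (k : ℝ) < 5 := lt_of_mul_lt_mul_right h1 hpos.le
      exact_mod_cast h2
    refine ⟨⟨k, hk5⟩, θ, by simpa [mul_comm] using hk1, ?_, ?_⟩
    · simp only
      linarith
    · rw [ea, hc, hs]
      have h := hbs u hu
      rw [Fin.sum_univ_two] at h
      exact h

/-- The unit sphere of a `k`-dimensional space is covered by `k 2 ^ k` acute sets. -/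
theorem acute_cover (W : Submodule ℝ V) {k : ℕ} (hW : Module.finrank ℝ W = k) :
    ∃ S : Fin k × (Fin k → Bool) → Set V,
      (∀ j, ∃ c > 0, ∀ u ∈ S j, ∀ w ∈ S j, c ≤ ⟪u, w⟫) ∧
      (∀ u ∈ W, ‖u‖ = 1 → ∃ j, u ∈ S j) := by
  obtain ⟨b, -, hb1, hb0, hbs, hbi⟩ := exists_basis W hW
  set sg : Bool → ℝ := fun b => if b then 1 else -1 with hsg
  have hsg2 : ∀ b, sg b * sg b = 1 := by intro b; cases b <;> simp [hsg]
  refine ⟨fun p => {u | u ∈ W ∧ ‖u‖ = 1 ∧ (∀ j, 0 ≤ sg (p.2 j) * ⟪b j, u⟫) ∧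
    ∀ j, |⟪b j, u⟫| ≤ |⟪b p.1, u⟫|}, fun p => ?_, fun u hu hu1 => ?_⟩
  · have hk : 0 < k := Fin.pos p.1
    have hk0 : (0 : ℝ) < k := by exact_mod_cast hk
    have hbig : ∀ u ∈ W, ‖u‖ = 1 → (∀ j, |⟪b j, u⟫| ≤ |⟪b p.1, u⟫|) →
        1 / (k : ℝ) ≤ |⟪b p.1, u⟫| ^ 2 := by
      intro u hu hu1 h
      have h1 := hbi u hu u hu
      rw [real_inner_self_eq_norm_sq, hu1] at h1
      have h2 : ∑ i, ⟪b i, u⟫ * ⟪b i, u⟫ ≤ ∑ _i : Fin k, |⟪b p.1, u⟫| ^ 2 := by
        refine Finset.sum_le_sum fun i _ => ?_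
        rw [← sq, ← sq_abs]
        have := h i
        gcongr
      rw [Finset.sum_const, Finset.card_univ, Fintype.card_fin, nsmul_eq_mul, ← h1] at h2
      rw [div_le_iff₀ hk0]
      linarith
    refine ⟨1 / k, by positivity, ?_⟩
    rintro u ⟨hu, hu1, hus, hum⟩ w ⟨hw, hw1, hws, hwm⟩
    have hterm : ∀ j, ⟪b j, u⟫ * ⟪b j, w⟫ = |⟪b j, u⟫| * |⟪b j, w⟫| := by
      intro j
      rw [← abs_mul, abs_of_nonneg]
      have h1 := mul_nonneg (hus j) (hws j)
      have h2 : sg (p.2 j) * ⟪b j, u⟫ * (sg (p.2 j) * ⟪b j, w⟫)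
          = (sg (p.2 j) * sg (p.2 j)) * (⟪b j, u⟫ * ⟪b j, w⟫) := by ring
      rw [h2, hsg2, one_mul] at h1
      exact h1
    rw [hbi u hu w hw]
    have h1 := hbig u hu hu1 hum
    have h2 := hbig w hw hw1 hwm
    have h3 : 1 / (k : ℝ) ≤ |⟪b p.1, u⟫| * |⟪b p.1, w⟫| := by
      have h4 : (1 / (k : ℝ)) ^ 2 ≤ (|⟪b p.1, u⟫| * |⟪b p.1, w⟫|) ^ 2 := by
        rw [mul_pow, sq]
        exact mul_le_mul h1 h2 (by positivity) (by positivity)
      exact le_of_sq_le_sq h4 (by positivity)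
    refine h3.trans ?_
    rw [← hterm]
    exact Finset.single_le_sum (f := fun j => ⟪b j, u⟫ * ⟪b j, w⟫)
      (fun j _ => by
        change 0 ≤ ⟪b j, u⟫ * ⟪b j, w⟫
        rw [hterm]; positivity) (Finset.mem_univ p.1)
  · have hne : Nonempty (Fin k) := by
      by_contra hcon
      rw [not_nonempty_iff] at hcon
      have h1 := hbi u hu u hu
      rw [real_inner_self_eq_norm_sq, hu1, Finset.univ_eq_empty, Finset.sum_empty] at h1
      norm_num at h1
    obtain ⟨i, hi⟩ := Finite.exists_max fun j => |⟪b j, u⟫|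
    refine ⟨(i, fun j => decide (0 ≤ ⟪b j, u⟫)), hu, hu1, fun j => ?_, hi⟩
    by_cases h : 0 ≤ ⟪b j, u⟫
    · simp [hsg, h]
    · push Not at h
      have : ¬ 0 ≤ ⟪b j, u⟫ := not_le.2 h
      simp only [this, hsg, decide_false, Bool.false_eq_true, if_false]
      linarith

end

/-- Padding with empty sets. -/
theorem cover_mono {d : ℕ} {X : Set (EuclideanSpace ℝ (Fin d))} (hD : 0 < Metric.diam X)
    {m n : ℕ} (hmn : m ≤ n) (h : IsSmallerCover X m) : IsSmallerCover X n := by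
  obtain ⟨P, hP, hPd⟩ := h
  refine ⟨fun i => if h : (i : ℕ) < m then P ⟨i, h⟩ else ∅, ?_, fun i => ?_⟩
  · rw [← hP]
    ext x
    simp only [mem_iUnion]
    constructor
    · rintro ⟨i, hi⟩
      by_cases h : (i : ℕ) < m
      · rw [dif_pos h] at hi
        exact ⟨_, hi⟩
      · rw [dif_neg h] at hi
        exact absurd hi (notMem_empty x)
    · rintro ⟨i, hi⟩
      refine ⟨⟨i, lt_of_lt_of_le i.2 hmn⟩, ?_⟩
      rw [dif_pos i.2]
      exact hi
  · dsimp only
    by_cases h : (i : ℕ) < m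
    · rw [dif_pos h]
      exact hPd _
    · rw [dif_neg h, Metric.diam_empty]
      exact hD

section
variable {d : ℕ} {X : Set (EuclideanSpace ℝ (Fin d))} (hX : Bornology.IsBounded X)
  (hD : 0 < Metric.diam X) (F : AffineSubspace ℝ (EuclideanSpace ℝ (Fin d))) [Nonempty F]
  (hsym : ∀ x ∈ X, EuclideanGeometry.reflection F x ∈ X) {N : ℕ}
  (P : Fin N → Set (EuclideanSpace ℝ (Fin d))) (hPb : ∀ i, Bornology.IsBounded (P i))
  (hPd : ∀ i, Metric.diam (P i) < Metric.diam X) (hP : closure X ∩ F ⊆ ⋃ i, P i)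

include hsym in
theorem tr_refl {p : EuclideanSpace ℝ (Fin d)} (hp : p ∈ F) :
    ∀ x ∈ tr X p, F.direction.starProjection x - zc F.direction x ∈ tr X p := by
  rintro _ ⟨x, hx, rfl⟩
  refine ⟨EuclideanGeometry.reflection F x, ?_, ?_⟩
  · exact map_mem_closure (f := fun x => EuclideanGeometry.reflection F x)
      (EuclideanGeometry.reflection F).continuous hx (fun y hy => hsym y hy)
  · change EuclideanGeometry.reflection F x - p = F.direction.starProjection (x - p)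
      - zc F.direction (x - p)
    rw [EuclideanGeometry.reflection_apply_of_mem F x hp, vsub_eq_sub, vadd_eq_add,
      Submodule.reflection_apply, zc, two_smul]
    abel

omit [Nonempty F] in
include hPd hP hPb in
theorem tr_cover {p : EuclideanSpace ℝ (Fin d)} (hp : p ∈ F) :
    (∀ i, ∃ D' < Metric.diam X, ∀ x ∈ (fun x => x - p) '' P i, ∀ y ∈ (fun x => x - p) '' P i,
      dist x y ≤ D') ∧
    ∀ x ∈ tr X p, zc F.direction x = 0 → ∃ i, x ∈ (fun x => x - p) '' P i := by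
  constructor
  · refine fun i => ⟨Metric.diam (P i), hPd i, ?_⟩
    rintro _ ⟨x, hx, rfl⟩ _ ⟨y, hy, rfl⟩
    change dist (x - p) (y - p) ≤ _
    rw [dist_sub_right]
    exact Metric.dist_le_diam_of_mem (hPb i) hx hy
  · rintro _ ⟨x, hx, rfl⟩ h0
    have h1 : x - p ∈ F.direction := zc_eq_zero F.direction h0
    have h2 : x ∈ F := by
      have := AffineSubspace.vadd_mem_of_mem_direction h1 hp
      simpa using this
    obtain ⟨i, hi⟩ := mem_iUnion.1 (hP ⟨hx, h2⟩)
    exact ⟨i, x, hi, rfl⟩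

include hX hD hsym hPb hPd hP

/-- All codimensions: classes on the flat and classes of directions. -/
theorem main_sphere {κ : Type*} [Fintype κ] {M : ℕ} (hκ : Fintype.card κ = M)
    (S : κ → Set (EuclideanSpace ℝ (Fin d)))
    (hS : ∀ j, ∃ c > 0, ∀ u ∈ S j, ∀ w ∈ S j, c ≤ ⟪u, w⟫)
    (hScov : ∀ u ∈ F.directionᗮ, ‖u‖ = 1 → ∃ j, u ∈ S j) : IsSmallerCover X (N + M) := by
  obtain ⟨⟨p, hp⟩⟩ := (inferInstance : Nonempty F)
  obtain ⟨h1, h2⟩ := tr_cover F P hPb hPd hP hp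
  obtain ⟨C, hC, D', hD', hCd⟩ := sphere_cover F.direction (tr_compact hX p) hD
    (tr_dist hX p) (tr_refl F hsym hp) _ h1 h2 S hS hScov
  exact smallerCover_of hD p (by rw [Fintype.card_sum, Fintype.card_fin, hκ]) C
    (fun x hx => mem_iUnion.1 (hC ⟨x, subset_closure hx, rfl⟩)) hD' hCd

/-- Planes in `ℝ⁴`. -/
theorem main_four (h2 : Module.finrank ℝ F.direction = 2) (hd : d = 4) :
    IsSmallerCover X (N + 4) := by
  obtain ⟨⟨p, hp⟩⟩ := (inferInstance : Nonempty F)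
  obtain ⟨h3, h4⟩ := tr_cover F P hPb hPd hP hp
  have hfr : Module.finrank ℝ F.directionᗮ = 2 := by
    have := Submodule.finrank_add_finrank_orthogonal F.direction
    rw [finrank_euclideanSpace_fin] at this
    omega
  obtain ⟨e, -, he1, he0, hes, -⟩ := exists_basis F.directionᗮ hfr
  obtain ⟨f, -, -, -, -, hfi⟩ := exists_basis F.direction h2
  obtain ⟨C, hC, D', hD', hCd⟩ := quadrant_cover F.direction (tr_compact hX p)
    (tr_dist hX p) (tr_refl F hsym hp) _ h3 h4 (he1 0) (he1 1) (he0 0 1 (by decide))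
    (by
      intro v hv
      have h := hes v hv
      rw [Fin.sum_univ_two] at h
      exact h) (f₁ := f 0) (f₂ := f 1)
    (by
      intro a ha
      have h := hfi a ha a ha
      rw [real_inner_self_eq_norm_sq, Fin.sum_univ_two] at h
      rw [h]
      ring)
  exact smallerCover_of hD p (by simp) C
    (fun x hx => mem_iUnion.1 (hC ⟨x, subset_closure hx, rfl⟩)) hD' hCd

/-- Flats of codimension two. -/
theorem main_codim_two (h2 : Module.finrank ℝ F.direction + 2 = d) :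
    IsSmallerCover X (N + 5) := by
  have hfr : Module.finrank ℝ F.directionᗮ = 2 := by
    have := Submodule.finrank_add_finrank_orthogonal F.direction
    rw [finrank_euclideanSpace_fin] at this
    omega
  obtain ⟨S, hS, hScov⟩ := five_sectors F.directionᗮ hfr
  exact main_sphere hX hD F hsym P hPb hPd hP (by simp) S hS hScov

/-- Flats of codimension `k`. -/
theorem main_codim {k : ℕ} (h2 : Module.finrank ℝ F.direction + k = d) :
    IsSmallerCover X (N + k * 2 ^ k) := by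
  have hfr : Module.finrank ℝ F.directionᗮ = k := by
    have := Submodule.finrank_add_finrank_orthogonal F.direction
    rw [finrank_euclideanSpace_fin] at this
    omega
  obtain ⟨S, hS, hScov⟩ := acute_cover F.directionᗮ hfr
  exact main_sphere hX hD F hsym P hPb hPd hP (by simp) S hS hScov

end

end Vale.Agent.P052.H487
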