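import Vale.Agent.P052.H487.Rot
import Vale.Agent.P052.H487.Main

/-!
Borsuk's partition problem for sets with a rotation about a flat of codimension two:
the theorems for bounded sets.
-/

namespace Vale.Agent.P052.H487

open Metric Set
open scoped RealInnerProductSpace
open Vale.Agent.P052.H768 (zc zc_mem sp_mem sp_add_zc inner_zc inner_sp zc_sub norm_sq_split
  continuous_zc tr tr_compact tr_dist smallerCover_of)

section
variable {V : Type*} [NormedAddCommGroup V] [InnerProductSpace ℝ V] [FiniteDimensional ℝ V]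
  {e₁ e₂ : V} (h₁ : ‖e₁‖ = 1) (h₂ : ‖e₂‖ = 1) (h₁₂ : ⟪e₁, e₂⟫ = 0)

omit [FiniteDimensional ℝ V] in
theorem mem_span_orth (e₁ e₂ z : V) :
    z ∈ (Submodule.span ℝ {e₁, e₂})ᗮ ↔ ⟪e₁, z⟫ = 0 ∧ ⟪e₂, z⟫ = 0 := by
  rw [Submodule.mem_orthogonal]
  constructor
  · intro h
    exact ⟨h e₁ (Submodule.subset_span (by simp)), h e₂ (Submodule.subset_span (by simp))⟩
  · rintro ⟨ha, hb⟩ u hu
    obtain ⟨a, b, rfl⟩ := Submodule.mem_span_pair.1 hu
    rw [inner_add_left, real_inner_smul_left, real_inner_smul_left, ha, hb]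
    ring

include h₁ h₂ h₁₂

theorem zc_span (x : V) :
    zc (Submodule.span ℝ {e₁, e₂})ᗮ x = ⟪e₁, x⟫ • e₁ + ⟪e₂, x⟫ • e₂ := by
  have h21 : ⟪e₂, e₁⟫ = 0 := by rw [real_inner_comm]; exact h₁₂
  have h11 : ⟪e₁, e₁⟫ = 1 := by rw [real_inner_self_eq_norm_sq, h₁, one_pow]
  have h22 : ⟪e₂, e₂⟫ = 1 := by rw [real_inner_self_eq_norm_sq, h₂, one_pow]
  have h3 : (Submodule.span ℝ {e₁, e₂})ᗮ.starProjection x
      = x - (⟪e₁, x⟫ • e₁ + ⟪e₂, x⟫ • e₂) := by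
    refine Submodule.eq_starProjection_of_mem_of_inner_eq_zero ?_ ?_
    · rw [mem_span_orth]
      simp only [inner_sub_right, inner_add_right, real_inner_smul_right, h11, h22, h₁₂, h21]
      constructor <;> ring
    · intro w hw
      rw [mem_span_orth] at hw
      rw [sub_sub_cancel, inner_add_left, real_inner_smul_left, real_inner_smul_left, hw.1, hw.2]
      ring
  rw [zc, h3, sub_sub_cancel]

omit [FiniteDimensional ℝ V] in
theorem finrank_pair : Module.finrank ℝ (Submodule.span ℝ {e₁, e₂}) = 2 := by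
  have h : LinearIndependent ℝ ![e₁, e₂] := by
    rw [LinearIndependent.pair_iff]
    intro s t hst
    have h21 : ⟪e₂, e₁⟫ = 0 := by rw [real_inner_comm]; exact h₁₂
    have h11 : ⟪e₁, e₁⟫ = 1 := by rw [real_inner_self_eq_norm_sq, h₁, one_pow]
    have h22 : ⟪e₂, e₂⟫ = 1 := by rw [real_inner_self_eq_norm_sq, h₂, one_pow]
    constructor
    · have := congrArg (fun z => ⟪e₁, z⟫) hst
      simp only [inner_add_right, real_inner_smul_right, h11, h₁₂, inner_zero_right] at this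
      linarith
    · have := congrArg (fun z => ⟪e₂, z⟫) hst
      simp only [inner_add_right, real_inner_smul_right, h21, h22, inner_zero_right] at this
      linarith
  have h4 := finrank_span_eq_card h
  rw [Matrix.range_cons_cons_empty, Fintype.card_fin] at h4
  exact h4

end

section
variable {d : ℕ} {X : Set (EuclideanSpace ℝ (Fin d))} (hX : Bornology.IsBounded X)
  (hD : 0 < Metric.diam X) {e₁ e₂ : EuclideanSpace ℝ (Fin d)} {c₁ c₂ θ : ℝ}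
  (h₁ : ‖e₁‖ = 1) (h₂ : ‖e₂‖ = 1) (h₁₂ : ⟪e₁, e₂⟫ = 0)
  (hrot : ∀ x ∈ X, x + ((Real.cos θ - 1) * (⟪e₁, x⟫ - c₁) - Real.sin θ * (⟪e₂, x⟫ - c₂)) • e₁ +
    (Real.sin θ * (⟪e₁, x⟫ - c₁) + (Real.cos θ - 1) * (⟪e₂, x⟫ - c₂)) • e₂ ∈ X) {N : ℕ}
  (P : Fin N → Set (EuclideanSpace ℝ (Fin d))) (hPb : ∀ i, Bornology.IsBounded (P i))
  (hPd : ∀ i, Metric.diam (P i) < Metric.diam X)
  (hP : closure X ∩ {x | ⟪e₁, x⟫ = c₁ ∧ ⟪e₂, x⟫ = c₂} ⊆ ⋃ i, P i)

include h₁ h₂ h₁₂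

theorem inner_ctr (c₁ c₂ : ℝ) :
    ⟪e₁, c₁ • e₁ + c₂ • e₂⟫ = c₁ ∧ ⟪e₂, c₁ • e₁ + c₂ • e₂⟫ = c₂ := by
  have h21 : ⟪e₂, e₁⟫ = 0 := by rw [real_inner_comm]; exact h₁₂
  have h11 : ⟪e₁, e₁⟫ = 1 := by rw [real_inner_self_eq_norm_sq, h₁, one_pow]
  have h22 : ⟪e₂, e₂⟫ = 1 := by rw [real_inner_self_eq_norm_sq, h₂, one_pow]
  simp only [inner_add_right, real_inner_smul_right, h11, h22, h₁₂, h21]
  constructor <;> ring

include hrot in
theorem tr_rot : ∀ x ∈ tr X (c₁ • e₁ + c₂ • e₂), rt e₁ e₂ θ x ∈ tr X (c₁ • e₁ + c₂ • e₂) := by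
  obtain ⟨hp1, hp2⟩ := inner_ctr h₁ h₂ h₁₂ c₁ c₂
  rintro _ ⟨x, hx, rfl⟩
  refine ⟨x + ((Real.cos θ - 1) * (⟪e₁, x⟫ - c₁) - Real.sin θ * (⟪e₂, x⟫ - c₂)) • e₁ +
    (Real.sin θ * (⟪e₁, x⟫ - c₁) + (Real.cos θ - 1) * (⟪e₂, x⟫ - c₂)) • e₂, ?_, ?_⟩
  · exact map_mem_closure (f := fun x => x + ((Real.cos θ - 1) * (⟪e₁, x⟫ - c₁) -
      Real.sin θ * (⟪e₂, x⟫ - c₂)) • e₁ +
      (Real.sin θ * (⟪e₁, x⟫ - c₁) + (Real.cos θ - 1) * (⟪e₂, x⟫ - c₂)) • e₂)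
      (by fun_prop) hx (fun y hy => hrot y hy)
  · simp only [rt, inner_sub_right, hp1, hp2]
    abel

include hPb hPd hP in
theorem tr_cover' :
    (∀ i, ∃ D' < Metric.diam X, ∀ x ∈ (fun x => x - (c₁ • e₁ + c₂ • e₂)) '' P i,
      ∀ y ∈ (fun x => x - (c₁ • e₁ + c₂ • e₂)) '' P i, dist x y ≤ D') ∧
    ∀ x ∈ tr X (c₁ • e₁ + c₂ • e₂), zc (Submodule.span ℝ {e₁, e₂})ᗮ x = 0 →
      ∃ i, x ∈ (fun x => x - (c₁ • e₁ + c₂ • e₂)) '' P i := by
  obtain ⟨hp1, hp2⟩ := inner_ctr h₁ h₂ h₁₂ c₁ c₂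
  constructor
  · refine fun i => ⟨Metric.diam (P i), hPd i, ?_⟩
    rintro _ ⟨x, hx, rfl⟩ _ ⟨y, hy, rfl⟩
    dsimp only
    rw [dist_sub_right]
    exact Metric.dist_le_diam_of_mem (hPb i) hx hy
  · rintro _ ⟨x, hx, rfl⟩ h0
    have h1 := zc_eq_zero _ h0
    rw [mem_span_orth, inner_sub_right, inner_sub_right, hp1, hp2, sub_eq_zero, sub_eq_zero] at h1
    obtain ⟨i, hi⟩ := mem_iUnion.1 (hP ⟨hx, h1⟩)
    exact ⟨i, x, hi, rfl⟩

include hX hD hPb hPd hP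

/-- The general sector theorem. -/
theorem rot_sectors (hθ0 : 0 < θ) (hrot : ∀ x ∈ tr X (c₁ • e₁ + c₂ • e₂),
    rt e₁ e₂ θ x ∈ tr X (c₁ • e₁ + c₂ • e₂)) {m : ℕ} (hm : 0 < m)
    (hθm : 2 * Real.pi / m + θ / 2 < Real.pi) : IsSmallerCover X (N + m) := by
  obtain ⟨h3, h4⟩ := tr_cover' h₁ h₂ h₁₂ P hPb hPd hP
  obtain ⟨C, hC, D', hD', hCd⟩ := sector_cover _ (tr_compact hX _) (tr_dist hX _) _ h3 h4
    h₁ h₂ h₁₂ (zc_span h₁ h₂ h₁₂) (φ := θ / 2) (by linarith) hm hθm (by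
      rw [mul_div_cancel₀ θ two_ne_zero]
      exact hrot)
  exact smallerCover_of hD _ (by simp) C
    (fun x hx => mem_iUnion.1 (hC ⟨x, subset_closure hx, rfl⟩)) hD' hCd

include hrot

theorem rot_five (hθ0 : 0 < θ) (hθ : θ ≤ Real.pi) : IsSmallerCover X (N + 5) := by
  refine rot_sectors hX hD h₁ h₂ h₁₂ P hPb hPd hP hθ0 (tr_rot h₁ h₂ h₁₂ hrot) (by norm_num) ?_
  push_cast
  linarith [Real.pi_pos]

theorem rot_four (hθ0 : 0 < θ) (hθ : θ < Real.pi) : IsSmallerCover X (N + 4) := by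
  refine rot_sectors hX hD h₁ h₂ h₁₂ P hPb hPd hP hθ0 (tr_rot h₁ h₂ h₁₂ hrot) (by norm_num) ?_
  push_cast
  linarith [Real.pi_pos]

theorem rot_three (hθ0 : 0 < θ) (hθ : θ < Real.pi) (hθ' : θ ≠ 2 * Real.pi / 3) :
    IsSmallerCover X (N + 3) := by
  rcases lt_or_gt_of_ne hθ' with h | h
  · refine rot_sectors hX hD h₁ h₂ h₁₂ P hPb hPd hP hθ0 (tr_rot h₁ h₂ h₁₂ hrot) (by norm_num) ?_
    push_cast
    linarith [Real.pi_pos]
  · have h21 : ⟪e₂, e₁⟫ = 0 := by rw [real_inner_comm]; exact h₁₂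
    have hp : c₂ • e₂ + c₁ • e₁ = c₁ • e₁ + c₂ • e₂ := add_comm _ _
    refine rot_sectors (θ := 2 * Real.pi - 2 * θ) hX hD h₂ h₁ h21 P hPb hPd
      (c₁ := c₂) (c₂ := c₁) ?_ (by linarith) ?_ (by norm_num) ?_
    · rintro x ⟨hx, hx1, hx2⟩
      exact hP ⟨hx, hx2, hx1⟩
    · rw [hp]
      intro x hx
      have h3 := tr_rot h₁ h₂ h₁₂ hrot _ (tr_rot h₁ h₂ h₁₂ hrot x hx)
      rw [rt_rt h₁ h₂ h₁₂] at h3
      have h4 : rt e₂ e₁ (2 * Real.pi - 2 * θ) x = rt e₁ e₂ (θ + θ) x := by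
        rw [rt, rt, Real.cos_two_pi_sub, Real.sin_two_pi_sub, two_mul θ]
        match_scalars <;> ring
      rw [h4]
      exact h3
    · push_cast
      linarith [Real.pi_pos]

theorem rot_dim_four (hd : d = 4) (hθ0 : 0 < θ) (hθ : θ ≤ Real.pi) :
    IsSmallerCover X (N + 4) := by
  rcases lt_or_eq_of_le hθ with h | h
  · exact rot_four hX hD h₁ h₂ h₁₂ hrot P hPb hPd hP hθ0 h
  subst h
  obtain ⟨h3, h4⟩ := tr_cover' h₁ h₂ h₁₂ P hPb hPd hP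
  have h5 := tr_rot h₁ h₂ h₁₂ hrot
  set U := (Submodule.span ℝ {e₁, e₂})ᗮ with hU
  have hfr : Module.finrank ℝ U = 2 := by
    have h6 := Submodule.finrank_add_finrank_orthogonal (Submodule.span ℝ {e₁, e₂})
    rw [finrank_pair h₁ h₂ h₁₂, finrank_euclideanSpace_fin, ← hU] at h6
    have h7 := h6.trans hd
    omega
  obtain ⟨f, -, -, -, -, hfi⟩ := exists_basis U hfr
  obtain ⟨C, hC, D', hD', hCd⟩ := quadrant_cover U (tr_compact hX _)
    (tr_dist hX _) (by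
      intro x hx
      have h6 := h5 x hx
      have h7 : U.starProjection x - zc U x = rt e₁ e₂ Real.pi x := by
        have h8 : U.starProjection x = x - zc U x := by rw [zc]; abel
        rw [h8, zc_span h₁ h₂ h₁₂, rt, Real.cos_pi, Real.sin_pi]
        match_scalars <;> ring
      rw [h7]
      exact h6) _ h3 h4 h₁ h₂ h₁₂
    (by
      intro v hv
      have h6 : U.starProjection v = 0 :=
        (Submodule.starProjection_apply_eq_zero_iff U).2 hv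
      have h7 := zc_span h₁ h₂ h₁₂ v
      rw [← hU, zc, h6, sub_zero] at h7
      exact h7) (f₁ := f 0) (f₂ := f 1)
    (by
      intro a ha
      have h := hfi a ha a ha
      rw [real_inner_self_eq_norm_sq, Fin.sum_univ_two] at h
      rw [h]
      ring)
  exact smallerCover_of hD _ (by simp) C
    (fun x hx => mem_iUnion.1 (hC ⟨x, subset_closure hx, rfl⟩)) hD' hCd

end

/-- Borsuk's theorem in a plane of `ℝ⁴`. -/
theorem planar_cover {d : ℕ} (hd : d = 4) {Y : Set (EuclideanSpace ℝ (Fin d))}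
    (hY : Bornology.IsBounded Y) {D : ℝ} (hD0 : 0 < D) (hYD : Metric.diam Y ≤ D)
    {e₁ e₂ : EuclideanSpace ℝ (Fin d)} {c₁ c₂ : ℝ}
    (h₁ : ‖e₁‖ = 1) (h₂ : ‖e₂‖ = 1) (h₁₂ : ⟪e₁, e₂⟫ = 0)
    (hYF : Y ⊆ {x | ⟪e₁, x⟫ = c₁ ∧ ⟪e₂, x⟫ = c₂}) :
    ∃ P : Fin 3 → Set (EuclideanSpace ℝ (Fin d)), (∀ i, Bornology.IsBounded (P i)) ∧
      (∀ i, Metric.diam (P i) < D) ∧ Y ⊆ ⋃ i, P i := by
  rcases lt_or_eq_of_le hYD with h | h
  · exact ⟨fun _ => Y, fun _ => hY, fun _ => h, fun x hx => mem_iUnion.2 ⟨0, hx⟩⟩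
  obtain ⟨hp1, hp2⟩ := inner_ctr h₁ h₂ h₁₂ c₁ c₂
  set U := (Submodule.span ℝ {e₁, e₂})ᗮ with hU
  have hfr : Module.finrank ℝ U = 2 := by
    have h6 := Submodule.finrank_add_finrank_orthogonal (Submodule.span ℝ {e₁, e₂})
    rw [finrank_pair h₁ h₂ h₁₂, finrank_euclideanSpace_fin, ← hU] at h6
    have h7 := h6.trans hd
    omega
  set φ : U ≃ₗᵢ[ℝ] EuclideanSpace ℝ (Fin 2) :=
    ((stdOrthonormalBasis ℝ U).reindex (finCongr hfr)).repr with hφ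
  set p := c₁ • e₁ + c₂ • e₂ with hp
  set ψ : EuclideanSpace ℝ (Fin 2) → EuclideanSpace ℝ (Fin d) :=
    fun z => ((φ.symm z : U) : EuclideanSpace ℝ (Fin d)) + p with hψ
  have hψi : Isometry ψ := by
    refine Isometry.of_dist_eq fun x y => ?_
    rw [hψ]
    dsimp only
    rw [dist_add_right, ← Subtype.dist_eq]
    exact φ.symm.isometry.dist_eq x y
  have hψr : Y ⊆ Set.range ψ := by
    intro y hy
    obtain ⟨hy1, hy2⟩ := hYF hy
    have hyU : y - p ∈ U := by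
      rw [hU, mem_span_orth, inner_sub_right, inner_sub_right, hp1, hp2, hy1, hy2]
      simp
    refine ⟨φ ⟨y - p, hyU⟩, ?_⟩
    rw [hψ]
    simp
  set Z := ψ ⁻¹' Y with hZ
  have hZY : ψ '' Z = Y := Set.image_preimage_eq_of_subset hψr
  have hZd : Metric.diam Z = D := by
    rw [← h, ← hZY, hψi.diam_image]
  have hZb : Bornology.IsBounded Z := hψi.antilipschitz.isBounded_preimage hY
  obtain ⟨P, hP1, hP2⟩ := H768.main_two_small (k := 0) (d := 2) (X := Z) (by norm_num)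
    (by norm_num) hZb (by rw [hZd]; exact hD0) (fun i => i.elim0) (fun i => i.elim0)
    (fun i => i.elim0) linearIndependent_empty_type (fun i => i.elim0)
  have hPZ : ∀ i, P i ⊆ Z := fun i => by
    rw [← hP1]
    exact subset_iUnion P i
  refine ⟨fun i => ψ '' P i, fun i => ?_, fun i => ?_, ?_⟩
  · exact hψi.lipschitz.isBounded_image (hZb.subset (hPZ i))
  · rw [hψi.diam_image, ← hZd]
    exact hP2 i
  · rw [← Set.image_iUnion, hP1, hZY]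

end Vale.Agent.P052.H487
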