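import Vale.Agent.P052.H487.Null3
import Vale.Agent.P052.H487.RotMain

/-!
Borsuk's partition problem for sets with a rotation about a flat of codimension two:
the theorems for bounded sets.
-/

namespace Vale.Agent.P052.H487

open Metric Set
open scoped RealInnerProductSpace
open Vale.Agent.P052.H768 (zc zc_mem sp_mem sp_add_zc inner_zc inner_sp zc_sub norm_sq_split
  continuous_zc tr tr_compact tr_dist smallerCover_of)

section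
variable {V : Type*} [NormedAddCommGroup V] [InnerProductSpace ℝ V] [FiniteDimensional ℝ V]
variable (U : Submodule ℝ V) {K : Set V} {D : ℝ}
  {e₁ e₂ : V} (h₁ : ‖e₁‖ = 1) (h₂ : ‖e₂‖ = 1) (h₁₂ : ⟪e₁, e₂⟫ = 0)
  (hzc : ∀ x, zc U x = ⟪e₁, x⟫ • e₁ + ⟪e₂, x⟫ • e₂)

include h₁ h₂ h₁₂ hzc

/-- Order three over a plane: three sectors. -/
theorem sec_three (hK : IsCompact K) (hD0 : 0 ≤ D) (hD : ∀ x ∈ K, ∀ y ∈ K, dist x y ≤ D)
    (hrot : ∀ x ∈ K, rt e₁ e₂ (2 * Real.pi / 3) x ∈ K) {f₁ f₂ : V}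
    (hf : ∀ a ∈ U, ‖a‖ ^ 2 = ⟪f₁, a⟫ ^ 2 + ⟪f₂, a⟫ ^ 2) : Sec U K D 3 := by
  obtain ⟨α, hα⟩ := exists_good_angle_three U h₁ h₂ h₁₂ hzc hf hD0 hD hrot
  refine sec_rot U h₁ h₂ h₁₂ hzc hK hD (φ := Real.pi / 3) (by positivity) (m := 3)
    (by norm_num) (by push_cast; linarith) (by
      have e : 2 * (Real.pi / 3) = 2 * Real.pi / 3 := by ring
      rw [e]
      exact hrot) α ?_
  intro _ k hk x hx y hy hd r s hr hs hxe hye
  -- turn back by `3 - k` steps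
  have hx' := iter_rot h₁ h₂ h₁₂ hrot (3 - k) x hx
  have hy' := iter_rot h₁ h₂ h₁₂ hrot (3 - k) y hy
  have hxe' := zc_rt U h₁ h₂ h₁₂ hzc hxe (((3 - k : ℕ) : ℝ) * (2 * Real.pi / 3))
  have hye' := zc_rt U h₁ h₂ h₁₂ hzc hye (((3 - k : ℕ) : ℝ) * (2 * Real.pi / 3))
  have hper : ∀ γ : ℝ, ea e₁ e₂ (γ + 2 * Real.pi) = ea e₁ e₂ γ := by
    intro γ
    rw [ea, ea, Real.cos_add_two_pi, Real.sin_add_two_pi]
  have hk3 : ((3 - k : ℕ) : ℝ) = 3 - k := by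
    rw [Nat.cast_sub (by omega)]
    norm_num
  rw [hk3] at hxe' hye' hx' hy'
  have e1 : α + 2 * Real.pi / (3 : ℕ) * k + (3 - k) * (2 * Real.pi / 3) = α + 2 * Real.pi := by
    push_cast
    ring
  have e2 : α + 2 * Real.pi / (3 : ℕ) * (k + 1) + (3 - k) * (2 * Real.pi / 3)
      = α + 2 * Real.pi / 3 + 2 * Real.pi := by
    push_cast
    ring
  rw [e1, hper] at hxe'
  rw [e2, hper] at hye'
  refine hα _ hx' _ hy' ?_ r s hr hs hxe' hye'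
  rw [dist_rt_rt h₁ h₂ h₁₂]
  exact hd

/-- Half-turns over a plane: four sectors. -/
theorem sec_four (hK : IsCompact K) (hD : ∀ x ∈ K, ∀ y ∈ K, dist x y ≤ D)
    (hrot : ∀ x ∈ K, rt e₁ e₂ Real.pi x ∈ K) {f₁ f₂ : V}
    (hf : ∀ a ∈ U, ‖a‖ ^ 2 = ⟪f₁, a⟫ ^ 2 + ⟪f₂, a⟫ ^ 2) : Sec U K D 4 := by
  have hinv : ∀ x ∈ K, U.starProjection x - zc U x ∈ K := by
    intro x hx
    have h7 : U.starProjection x - zc U x = rt e₁ e₂ Real.pi x := by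
      have h8 : U.starProjection x = x - zc U x := by rw [zc]; abel
      rw [h8, hzc, rt, Real.cos_pi, Real.sin_pi]
      match_scalars <;> ring
    rw [h7]
    exact hrot x hx
  obtain ⟨α, hα⟩ := exists_good_angle U hD hinv h₁ h₂ h₁₂ hf
  refine sec_rot U h₁ h₂ h₁₂ hzc hK hD (φ := Real.pi / 2) (by positivity) (m := 4)
    (by norm_num) (by push_cast; linarith) (by
      have e : 2 * (Real.pi / 2) = Real.pi := by ring
      rw [e]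
      exact hrot) α ?_
  intro _ k hk x hx y hy hd r s hr hs hxe hye
  have q1 : ∀ γ : ℝ, ea e₁ e₂ (γ + Real.pi / 2) = na e₁ e₂ γ := by
    intro γ
    rw [ea, na, Real.cos_add_pi_div_two, Real.sin_add_pi_div_two]
  have q2 : ∀ γ : ℝ, ea e₁ e₂ (γ + Real.pi) = (-1 : ℝ) • ea e₁ e₂ γ := by
    intro γ
    rw [ea, ea, Real.cos_add_pi, Real.sin_add_pi]
    match_scalars <;> ring
  have q3 : ∀ γ : ℝ, ea e₁ e₂ (γ + Real.pi + Real.pi / 2) = (-1 : ℝ) • na e₁ e₂ γ := by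
    intro γ
    rw [q1, na, na, Real.cos_add_pi, Real.sin_add_pi]
    match_scalars <;> ring
  have q4 : ∀ γ : ℝ, ea e₁ e₂ (γ + 2 * Real.pi) = ea e₁ e₂ γ := by
    intro γ
    rw [ea, ea, Real.cos_add_two_pi, Real.sin_add_two_pi]
  have hd' : dist y x = D := by rw [dist_comm]; exact hd
  interval_cases k
  · have a1 : α + 2 * Real.pi / (4 : ℕ) * ((0 : ℕ) : ℝ) = α := by push_cast; ring
    have a2 : α + 2 * Real.pi / (4 : ℕ) * (((0 : ℕ) : ℝ) + 1) = α + Real.pi / 2 := by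
      push_cast; ring
    rw [a1] at hxe
    rw [a2, q1] at hye
    rcases hα x hx y hy hd r s hxe hye with h | h <;> linarith
  · have a1 : α + 2 * Real.pi / (4 : ℕ) * ((1 : ℕ) : ℝ) = α + Real.pi / 2 := by push_cast; ring
    have a2 : α + 2 * Real.pi / (4 : ℕ) * (((1 : ℕ) : ℝ) + 1) = α + Real.pi := by
      push_cast; ring
    rw [a1, q1] at hxe
    rw [a2, q2, smul_smul] at hye
    rcases hα y hy x hx hd' _ _ hye hxe with h | h <;> linarith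
  · have a1 : α + 2 * Real.pi / (4 : ℕ) * ((2 : ℕ) : ℝ) = α + Real.pi := by push_cast; ring
    have a2 : α + 2 * Real.pi / (4 : ℕ) * (((2 : ℕ) : ℝ) + 1) = α + Real.pi + Real.pi / 2 := by
      push_cast; ring
    rw [a1, q2, smul_smul] at hxe
    rw [a2, q3, smul_smul] at hye
    rcases hα x hx y hy hd _ _ hxe hye with h | h <;> linarith
  · have a1 : α + 2 * Real.pi / (4 : ℕ) * ((3 : ℕ) : ℝ) = α + Real.pi + Real.pi / 2 := by
      push_cast; ring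
    have a2 : α + 2 * Real.pi / (4 : ℕ) * (((3 : ℕ) : ℝ) + 1) = α + 2 * Real.pi := by
      push_cast; ring
    rw [a1, q3, smul_smul] at hxe
    rw [a2, q4] at hye
    rcases hα y hy x hx hd' _ _ hye hxe with h | h <;> linarith

end

section
variable {d : ℕ} {X : Set (EuclideanSpace ℝ (Fin d))} (hX : Bornology.IsBounded X)
  (hD : 0 < Metric.diam X) {e₁ e₂ : EuclideanSpace ℝ (Fin d)} {c₁ c₂ θ : ℝ}
  (h₁ : ‖e₁‖ = 1) (h₂ : ‖e₂‖ = 1) (h₁₂ : ⟪e₁, e₂⟫ = 0)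

include hD in
theorem nonempty_of_diam : X.Nonempty := by
  by_contra h
  rw [Set.not_nonempty_iff_eq_empty] at h
  rw [h, Metric.diam_empty] at hD
  exact lt_irrefl _ hD

include hX hD h₁ h₂ h₁₂

/-- Sectors over a plane of `ℝ⁴`. -/
theorem cover_four {m : ℕ} (hd : d = 4) (hθ0 : 0 < θ) (hθ : θ ≤ Real.pi)
    (hK : ∀ x ∈ tr X (c₁ • e₁ + c₂ • e₂), rt e₁ e₂ θ x ∈ tr X (c₁ • e₁ + c₂ • e₂))
    (hsmall : ∀ x ∈ tr X (c₁ • e₁ + c₂ • e₂),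
      3 * ‖zc (Submodule.span ℝ {e₁, e₂})ᗮ x‖ ^ 2 ≤ Metric.diam X ^ 2)
    (hsec : Sec (Submodule.span ℝ {e₁, e₂})ᗮ (tr X (c₁ • e₁ + c₂ • e₂)) (Metric.diam X) (m + 1)) :
    IsSmallerCover X (m + 3) := by
  have hfr : Module.finrank ℝ (Submodule.span ℝ {e₁, e₂})ᗮ = 2 := by
    have h6 := Submodule.finrank_add_finrank_orthogonal (Submodule.span ℝ {e₁, e₂})
    rw [finrank_pair h₁ h₂ h₁₂, finrank_euclideanSpace_fin] at h6
    omega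
  have hzc := zc_span (V := EuclideanSpace ℝ (Fin d)) h₁ h₂ h₁₂
  have hne : (tr X (c₁ • e₁ + c₂ • e₂)).Nonempty :=
    (nonempty_of_diam hD).closure.image _
  obtain ⟨C, hC, D', hD', hCd⟩ := sec_glue _ (tr_compact hX _) (tr_dist hX _) hsec
    (rem_two _ (tr_compact hX _) hne hD
      (pair_rot _ h₁ h₂ h₁₂ hzc (tr_dist hX _) hθ0 hθ hK) hfr hsmall)
  exact smallerCover_of hD _ (by simp) C
    (fun x hx => mem_iUnion.1 (hC ⟨x, subset_closure hx, rfl⟩)) hD' hCd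

/-- Sectors over a three dimensional flat of `ℝ⁵`. -/
theorem cover_five {m : ℕ} (hd : d = 5) (hθ0 : 0 < θ) (hθ : θ ≤ Real.pi)
    (hK : ∀ x ∈ tr X (c₁ • e₁ + c₂ • e₂), rt e₁ e₂ θ x ∈ tr X (c₁ • e₁ + c₂ • e₂))
    (hhalf : ∀ x ∈ tr X (c₁ • e₁ + c₂ • e₂),
      2 * ‖zc (Submodule.span ℝ {e₁, e₂})ᗮ x‖ ≤ Metric.diam X)
    (hsec : Sec (Submodule.span ℝ {e₁, e₂})ᗮ (tr X (c₁ • e₁ + c₂ • e₂)) (Metric.diam X) (m + 1)) :
    IsSmallerCover X (m + 4) := by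
  have hfr : Module.finrank ℝ (Submodule.span ℝ {e₁, e₂})ᗮ = 3 := by
    have h6 := Submodule.finrank_add_finrank_orthogonal (Submodule.span ℝ {e₁, e₂})
    rw [finrank_pair h₁ h₂ h₁₂, finrank_euclideanSpace_fin] at h6
    omega
  have hzc := zc_span (V := EuclideanSpace ℝ (Fin d)) h₁ h₂ h₁₂
  have hne : (tr X (c₁ • e₁ + c₂ • e₂)).Nonempty :=
    (nonempty_of_diam hD).closure.image _
  obtain ⟨C, hC, D', hD', hCd⟩ := sec_glue _ (tr_compact hX _) (tr_dist hX _) hsec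
    (rem_three _ (tr_compact hX _) hne hD
      (pair_rot _ h₁ h₂ h₁₂ hzc (tr_dist hX _) hθ0 hθ hK) hfr hhalf)
  exact smallerCover_of hD _ (by simp) C
    (fun x hx => mem_iUnion.1 (hC ⟨x, subset_closure hx, rfl⟩)) hD' hCd

omit hD in
/-- Angles below 120 degrees: three sectors. -/
theorem sec_slack (hθ0 : 0 < θ) (hθ : θ < 2 * Real.pi / 3)
    (hK : ∀ x ∈ tr X (c₁ • e₁ + c₂ • e₂), rt e₁ e₂ θ x ∈ tr X (c₁ • e₁ + c₂ • e₂)) :
    Sec (Submodule.span ℝ {e₁, e₂})ᗮ (tr X (c₁ • e₁ + c₂ • e₂)) (Metric.diam X) 3 := by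
  refine sec_rot _ h₁ h₂ h₁₂ (zc_span h₁ h₂ h₁₂) (tr_compact hX _) (tr_dist hX _)
    (φ := θ / 2) (by positivity) (m := 3) (by norm_num) (by push_cast; linarith) (by
      rw [mul_div_cancel₀ θ two_ne_zero]
      exact hK) 0 ?_
  intro h
  exfalso
  push_cast at h
  linarith

/-- Dimension four, angles below 120 degrees. -/
theorem four_slack (hd : d = 4) (hθ0 : 0 < θ) (hθ : θ < 2 * Real.pi / 3)
    (hK : ∀ x ∈ tr X (c₁ • e₁ + c₂ • e₂), rt e₁ e₂ θ x ∈ tr X (c₁ • e₁ + c₂ • e₂)) :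
    IsSmallerCover X 5 :=
  cover_four (m := 2) hX hD h₁ h₂ h₁₂ hd hθ0 (by linarith [Real.pi_pos]) hK
    (small_rot _ h₁ h₂ h₁₂ (zc_span h₁ h₂ h₁₂) (tr_dist hX _) hθ0 hθ.le hK)
    (sec_slack hX h₁ h₂ h₁₂ hθ0 hθ hK)

omit hX hD in
/-- Coordinates on the flat, in dimension four. -/
theorem exists_flat_coord (hd : d = 4) : ∃ f₁ f₂ : EuclideanSpace ℝ (Fin d),
    ∀ a ∈ (Submodule.span ℝ {e₁, e₂})ᗮ, ‖a‖ ^ 2 = ⟪f₁, a⟫ ^ 2 + ⟪f₂, a⟫ ^ 2 := by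
  have hfr : Module.finrank ℝ (Submodule.span ℝ {e₁, e₂})ᗮ = 2 := by
    have h6 := Submodule.finrank_add_finrank_orthogonal (Submodule.span ℝ {e₁, e₂})
    rw [finrank_pair h₁ h₂ h₁₂, finrank_euclideanSpace_fin] at h6
    omega
  obtain ⟨f, -, -, -, -, hfi⟩ := exists_basis _ hfr
  refine ⟨f 0, f 1, fun a ha => ?_⟩
  have h := hfi a ha a ha
  rw [real_inner_self_eq_norm_sq, Fin.sum_univ_two] at h
  rw [h]
  ring

/-- Dimension four, order three. -/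
theorem sec_order_three (hd : d = 4)
    (hK : ∀ x ∈ tr X (c₁ • e₁ + c₂ • e₂),
      rt e₁ e₂ (2 * Real.pi / 3) x ∈ tr X (c₁ • e₁ + c₂ • e₂)) :
    Sec (Submodule.span ℝ {e₁, e₂})ᗮ (tr X (c₁ • e₁ + c₂ • e₂)) (Metric.diam X) 3 := by
  obtain ⟨f₁, f₂, hf⟩ := exists_flat_coord h₁ h₂ h₁₂ hd
  exact sec_three _ h₁ h₂ h₁₂ (zc_span h₁ h₂ h₁₂) (tr_compact hX _) hD.le (tr_dist hX _) hK hf

/-- Dimension four, order two. -/
theorem sec_order_two (hd : d = 4)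
    (hK : ∀ x ∈ tr X (c₁ • e₁ + c₂ • e₂), rt e₁ e₂ Real.pi x ∈ tr X (c₁ • e₁ + c₂ • e₂)) :
    Sec (Submodule.span ℝ {e₁, e₂})ᗮ (tr X (c₁ • e₁ + c₂ • e₂)) (Metric.diam X) 4 := by
  obtain ⟨f₁, f₂, hf⟩ := exists_flat_coord h₁ h₂ h₁₂ hd
  exact sec_four _ h₁ h₂ h₁₂ (zc_span h₁ h₂ h₁₂) (tr_compact hX _) (tr_dist hX _) hK hf

omit hX hD in
/-- The inverse of the doubled rotation. -/
theorem double_swap
    (hK : ∀ x ∈ tr X (c₁ • e₁ + c₂ • e₂), rt e₁ e₂ θ x ∈ tr X (c₁ • e₁ + c₂ • e₂)) :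
    ∀ x ∈ tr X (c₂ • e₂ + c₁ • e₁),
      rt e₂ e₁ (2 * Real.pi - 2 * θ) x ∈ tr X (c₂ • e₂ + c₁ • e₁) := by
  have hp : c₂ • e₂ + c₁ • e₁ = c₁ • e₁ + c₂ • e₂ := add_comm _ _
  rw [hp]
  intro x hx
  have h3 := hK _ (hK x hx)
  rw [rt_rt h₁ h₂ h₁₂] at h3
  have h4 : rt e₂ e₁ (2 * Real.pi - 2 * θ) x = rt e₁ e₂ (θ + θ) x := by
    rw [rt, rt, Real.cos_two_pi_sub, Real.sin_two_pi_sub, two_mul θ]
    match_scalars <;> ring
  rw [h4]
  exact h3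

/-- **Dimension four, all rotations except half-turns.** -/
theorem main_dim_four (hd : d = 4) (hθ0 : 0 < θ) (hθ : θ < Real.pi)
    (hK : ∀ x ∈ tr X (c₁ • e₁ + c₂ • e₂), rt e₁ e₂ θ x ∈ tr X (c₁ • e₁ + c₂ • e₂)) :
    IsSmallerCover X 5 := by
  rcases lt_trichotomy θ (2 * Real.pi / 3) with h | h | h
  · exact four_slack hX hD h₁ h₂ h₁₂ hd hθ0 h hK
  · subst h
    exact cover_four (m := 2) hX hD h₁ h₂ h₁₂ hd hθ0 hθ.le hK
      (small_rot _ h₁ h₂ h₁₂ (zc_span h₁ h₂ h₁₂) (tr_dist hX _) hθ0 le_rfl hK)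
      (sec_order_three hX hD h₁ h₂ h₁₂ hd hK)
  · have h21 : ⟪e₂, e₁⟫ = 0 := by rw [real_inner_comm]; exact h₁₂
    exact four_slack (c₁ := c₂) (c₂ := c₁) hX hD h₂ h₁ h21 hd (by linarith) (by linarith)
      (double_swap h₁ h₂ h₁₂ hK)

/-- **Dimension four, half-turns.** -/
theorem main_half_turn (hd : d = 4)
    (hK : ∀ x ∈ tr X (c₁ • e₁ + c₂ • e₂), rt e₁ e₂ Real.pi x ∈ tr X (c₁ • e₁ + c₂ • e₂)) :
    IsSmallerCover X 6 := by
  refine cover_four (m := 3) hX hD h₁ h₂ h₁₂ hd Real.pi_pos le_rfl hK ?_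
    (sec_order_two hX hD h₁ h₂ h₁₂ hd hK)
  intro x hx
  have h := half_rot _ h₁ h₂ h₁₂ (zc_span h₁ h₂ h₁₂) (tr_dist hX _) hD.le hK x hx
  nlinarith [norm_nonneg (zc (Submodule.span ℝ {e₁, e₂})ᗮ x)]

/-- **Dimension five, rotations by `π / j`, `j ≥ 2`.** -/
theorem main_dim_five (hd : d = 5) {j : ℕ} (hj : 2 ≤ j)
    (hK : ∀ x ∈ tr X (c₁ • e₁ + c₂ • e₂),
      rt e₁ e₂ (Real.pi / j) x ∈ tr X (c₁ • e₁ + c₂ • e₂)) :
    IsSmallerCover X 6 := by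
  have hj0 : (0 : ℝ) < j := by
    have : 0 < j := by omega
    exact_mod_cast this
  have hj2 : (2 : ℝ) ≤ j := by exact_mod_cast hj
  have hle : Real.pi / j ≤ Real.pi / 2 := div_le_div_of_nonneg_left Real.pi_pos.le (by norm_num) hj2
  refine cover_five (m := 2) hX hD h₁ h₂ h₁₂ hd (by positivity) (by linarith [Real.pi_pos]) hK ?_
    (sec_slack hX h₁ h₂ h₁₂ (by positivity) (by linarith [Real.pi_pos]) hK)
  have h := iter_rot h₁ h₂ h₁₂ hK j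
  rw [mul_div_cancel₀ _ hj0.ne'] at h
  exact half_rot _ h₁ h₂ h₁₂ (zc_span h₁ h₂ h₁₂) (tr_dist hX _) hD.le h

/-- Classes on the flat. -/
theorem flat_four {m N : ℕ}
    (hsec : Sec (Submodule.span ℝ {e₁, e₂})ᗮ (tr X (c₁ • e₁ + c₂ • e₂)) (Metric.diam X) m)
    (P : Fin N → Set (EuclideanSpace ℝ (Fin d))) (hPb : ∀ i, Bornology.IsBounded (P i))
    (hPd : ∀ i, Metric.diam (P i) < Metric.diam X)
    (hP : closure X ∩ {x | ⟪e₁, x⟫ = c₁ ∧ ⟪e₂, x⟫ = c₂} ⊆ ⋃ i, P i) :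
    IsSmallerCover X (N + m) := by
  obtain ⟨h3, h4⟩ := tr_cover' h₁ h₂ h₁₂ P hPb hPd hP
  obtain ⟨C, hC, D', hD', hCd⟩ := sec_flat _ (tr_compact hX _) (tr_dist hX _) hsec _ h3 h4
  exact smallerCover_of hD _ (by simp) C
    (fun x hx => mem_iUnion.1 (hC ⟨x, subset_closure hx, rfl⟩)) hD' hCd

end

end Vale.Agent.P052.H487
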