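import Vale.Agent.P052.H487.Multi
import Vale.Agent.P052.H487.Fin

/-!
Borsuk's partition problem: several orthogonal rotations and mirrors.
-/

namespace Vale.Agent.P052.H487

open Metric Set
open scoped RealInnerProductSpace
open Vale.Agent.P052.H768 (zc zc_mem sp_mem sp_add_zc inner_zc inner_sp zc_sub norm_sq_split
  continuous_zc tr tr_compact tr_dist smallerCover_of)

section
variable {V : Type*} [NormedAddCommGroup V] [InnerProductSpace ℝ V] [FiniteDimensional ℝ V]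

section
variable (F : Submodule ℝ V) {K : Set V} (hK : IsCompact K) (hne : K.Nonempty) {D : ℝ}
  (hD0 : 0 < D)
  (hpair : ∀ x ∈ K, ∀ y ∈ K, ‖F.starProjection x - F.starProjection y‖ ^ 2 ≤
    D ^ 2 - ‖zc F x‖ ^ 2 - ‖zc F y‖ ^ 2)
  (hsmall : ∀ x ∈ K, 3 * ‖zc F x‖ ^ 2 ≤ D ^ 2)
  (R : Set V) (hRc : IsCompact R) (hRK : R ⊆ K)
  (hRfar : ∀ x ∈ R, ∀ y ∈ R, dist x y = D → ⟪zc F x, zc F y⟫ = 0)
include hK hne hD0 hpair hsmall hRc hRK hRfar

omit hK hne hpair in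
theorem rem_zero (h0 : Module.finrank ℝ F = 0) : Cov R D 1 := by
  refine ⟨fun _ => R, fun _ => hRc, fun _ => Subset.rfl, fun x hx => mem_iUnion.2 ⟨0, hx⟩, ?_⟩
  intro _ x hx y hy hxy
  rw [Submodule.finrank_eq_zero] at h0
  have h1 := dist_sq F x y
  have h2 : ∀ z, F.starProjection z = 0 := by
    intro z
    have := sp_mem F z
    rw [h0, Submodule.mem_bot] at this
    rw [h0]
    exact this
  rw [hxy, h2, h2, sub_zero, norm_zero, norm_sub_sq_real, hRfar x hx y hy hxy] at h1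
  have h3 := hsmall x (hRK hx)
  have h4 := hsmall y (hRK hy)
  have h5 : 0 < D ^ 2 := by positivity
  linarith

theorem rem_one (h1 : Module.finrank ℝ F = 1) : Cov R D 2 := by
  have hFF : Fᗮᗮ = F := Submodule.orthogonal_orthogonal F
  obtain ⟨ℓ, hℓ, hℓd⟩ := H768.exists_coord Fᗮ (by rw [hFF]; exact h1)
  have hz : ∀ x, zc Fᗮ x = F.starProjection x := by
    intro x
    rw [zc, Submodule.starProjection_orthogonal_val, sub_sub_cancel]
  have hd : ∀ x y, ‖F.starProjection x - F.starProjection y‖ ^ 2 = (ℓ x - ℓ y) ^ 2 := by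
    intro x y
    rw [← hℓd, hz, hz]
  obtain ⟨p, hp, hpm⟩ := hK.exists_isMinOn hne hℓ.continuousOn
  obtain ⟨q, hq, hqm⟩ := hK.exists_isMaxOn hne hℓ.continuousOn
  have hmin : ∀ x ∈ K, ℓ p ≤ ℓ x := fun x hx => hpm hx
  have hmax : ∀ x ∈ K, ℓ x ≤ ℓ q := fun x hx => hqm hx
  have hpq : (ℓ q - ℓ p) ^ 2 ≤ D ^ 2 := by
    have h2 := hpair q hq p hp
    rw [hd] at h2
    have := sq_nonneg ‖zc F q‖
    have := sq_nonneg ‖zc F p‖
    linarith
  have hpq' : ℓ q - ℓ p ≤ D := abs_le_of_sq_le_sq' hpq hD0.le |>.2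
  have key : ∀ x ∈ R, ∀ y ∈ R, |ℓ x - ℓ y| ≤ D / 2 → dist x y ≠ D := by
    intro x hx y hy h hxy
    have h2 := dist_sq F x y
    rw [hxy, hd, norm_sub_sq_real, hRfar x hx y hy hxy] at h2
    have h3 := hsmall x (hRK hx)
    have h4 := hsmall y (hRK hy)
    have h5 : 0 < D ^ 2 := by positivity
    have h6 : (ℓ x - ℓ y) ^ 2 ≤ (D / 2) ^ 2 := by
      rw [← sq_abs]
      gcongr
    nlinarith
  refine ⟨fun j => R ∩ {x | if j = 0 then ℓ x ≤ (ℓ p + ℓ q) / 2 else (ℓ p + ℓ q) / 2 ≤ ℓ x},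
    fun j => ?_, fun j => inter_subset_left, ?_, fun j => ?_⟩
  · refine hRc.inter_right ?_
    by_cases hj : j = 0
    · simp only [hj, if_true]
      exact isClosed_le hℓ continuous_const
    · simp only [hj, if_false]
      exact isClosed_le continuous_const hℓ
  · intro x hx
    rcases le_total (ℓ x) ((ℓ p + ℓ q) / 2) with h | h
    · exact mem_iUnion.2 ⟨0, hx, by simpa using h⟩
    · exact mem_iUnion.2 ⟨1, hx, by simpa using h⟩
  · intro x hx y hy
    have a1 := hmin x (hRK hx.1)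
    have a2 := hmax x (hRK hx.1)
    have b1 := hmin y (hRK hy.1)
    have b2 := hmax y (hRK hy.1)
    refine key x hx.1 y hy.1 ?_
    have hx2 := hx.2
    have hy2 := hy.2
    by_cases hj : j = 0
    · simp only [hj, if_true, mem_ofPred_eq] at hx2 hy2
      rw [abs_le]
      constructor <;> linarith
    · simp only [hj, if_false, mem_ofPred_eq] at hx2 hy2
      rw [abs_le]
      constructor <;> linarith

/-- The remainder over a flat of dimension at most two. -/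
theorem rem_small {e : ℕ} (he : Module.finrank ℝ F = e) (he2 : e ≤ 2) : Cov R D (e + 1) := by
  interval_cases e
  · exact rem_zero F hD0 hsmall R hRc hRK hRfar he
  · exact rem_one F hK hne hD0 hpair hsmall R hRc hRK hRfar he
  · exact rem_two_inner F hK hne hD0 hpair he hsmall R hRc hRK hRfar

end

/-- The rotations give the symmetries of a component. -/
theorem comp_rot {K : Set V} {e₁ e₂ : V} (h₁ : ‖e₁‖ = 1) (h₂ : ‖e₂‖ = 1) (h₁₂ : ⟪e₁, e₂⟫ = 0)
    {θ : ℝ} (hθ0 : 0 < θ) (hθ : θ ≤ 2 * Real.pi / 3) (hrot : ∀ x ∈ K, rt e₁ e₂ θ x ∈ K) :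
    Comp (Submodule.span ℝ {e₁, e₂})ᗮ K := by
  have hzc := zc_span h₁ h₂ h₁₂
  set U := (Submodule.span ℝ {e₁, e₂})ᗮ with hU
  have hmem : ∀ (η : ℝ) (y : V), rt e₁ e₂ η y - y ∈ Uᗮ := by
    intro η y
    rw [hU, Submodule.orthogonal_orthogonal, Submodule.mem_span_pair]
    exact ⟨_, _, by rw [rt, add_assoc, add_sub_cancel_left]⟩
  have hnorm : ∀ (η : ℝ) (y : V), ‖zc U (rt e₁ e₂ η y)‖ = ‖zc U y‖ := by
    intro η y
    have h : ‖zc U (rt e₁ e₂ η y)‖ ^ 2 = ‖zc U y‖ ^ 2 := by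
      rw [norm_zc_sq U h₁ h₂ h₁₂ hzc, norm_zc_sq U h₁ h₂ h₁₂ hzc, inner_rt_left h₁ h₁₂,
        inner_rt_right h₂ h₁₂]
      linear_combination (⟪e₁, y⟫ ^ 2 + ⟪e₂, y⟫ ^ 2) * Real.sin_sq_add_cos_sq η
    exact (pow_left_inj₀ (norm_nonneg _) (norm_nonneg _) two_ne_zero).1 h
  have hinner : ∀ (η : ℝ) (x y : V) (r s α β : ℝ), ⟪e₁, x⟫ = r * Real.cos α →
      ⟪e₂, x⟫ = r * Real.sin α → ⟪e₁, y⟫ = s * Real.cos β → ⟪e₂, y⟫ = s * Real.sin β →
      ⟪zc U x, zc U (rt e₁ e₂ η y)⟫ = r * s * Real.cos (β - α + η) := by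
    intro η x y r s α β a1 a2 b1 b2
    rw [inner_zc_zc U h₁ h₂ h₁₂ hzc, inner_rt_left h₁ h₁₂, inner_rt_right h₂ h₁₂, a1, a2, b1,
      b2, Real.cos_add, Real.cos_sub, Real.sin_sub]
    ring
  constructor
  · intro x hx y hy
    obtain ⟨r, α, hr0, -, hα0, hα1, hx1, hx2⟩ := exists_polar ⟪e₁, x⟫ ⟪e₂, x⟫
    obtain ⟨s, β, hs0, -, hβ0, hβ1, hy1, hy2⟩ := exists_polar ⟪e₁, y⟫ ⟪e₂, y⟫
    obtain ⟨k, hk⟩ := exists_turn (δ := β - α) hθ0 (by linarith [Real.pi_pos]) (by linarith)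
    refine ⟨rt e₁ e₂ (k * θ) y, iter_rot h₁ h₂ h₁₂ hrot k y hy, hmem _ _, hnorm _ _, ?_⟩
    rw [hinner _ x y r s α β hx1 hx2 hy1 hy2]
    exact mul_nonpos_of_nonneg_of_nonpos (by positivity) hk
  · intro x hx y hy hxy
    obtain ⟨r, α, hr0, hr2, hα0, hα1, hx1, hx2⟩ := exists_polar ⟪e₁, x⟫ ⟪e₂, x⟫
    have h0 : 0 ≤ (2 * Real.pi / 3) / θ := by positivity
    have h1 := Nat.le_ceil ((2 * Real.pi / 3) / θ)
    have h2 := Nat.ceil_lt_add_one h0
    rw [div_le_iff₀ hθ0] at h1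
    have h3 := mul_lt_mul_of_pos_right h2 hθ0
    rw [add_mul, div_mul_cancel₀ _ hθ0.ne', one_mul] at h3
    refine ⟨rt e₁ e₂ (⌈(2 * Real.pi / 3) / θ⌉₊ * θ) y,
      iter_rot h₁ h₂ h₁₂ hrot ⌈(2 * Real.pi / 3) / θ⌉₊ y hy, hmem _ _, hnorm _ _, ?_⟩
    have hxy1 : ⟪e₁, y⟫ = ⟪e₁, x⟫ := by
      have h21 : ⟪e₂, e₁⟫ = 0 := by rw [real_inner_comm]; exact h₁₂
      have h11 : ⟪e₁, e₁⟫ = 1 := by rw [real_inner_self_eq_norm_sq, h₁, one_pow]
      have h := congrArg (fun z => ⟪e₁, z⟫) hxy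
      simp only [hzc, inner_add_right, real_inner_smul_right, h11, h₁₂] at h
      linarith
    have hxy2 : ⟪e₂, y⟫ = ⟪e₂, x⟫ := by
      have h21 : ⟪e₂, e₁⟫ = 0 := by rw [real_inner_comm]; exact h₁₂
      have h22 : ⟪e₂, e₂⟫ = 1 := by rw [real_inner_self_eq_norm_sq, h₂, one_pow]
      have h := congrArg (fun z => ⟪e₂, z⟫) hxy
      simp only [hzc, inner_add_right, real_inner_smul_right, h21, h22] at h
      linarith
    rw [hinner _ x y r r α α hx1 hx2 (by rw [hxy1, hx1]) (by rw [hxy2, hx2]), sub_self, zero_add,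
      norm_zc_sq U h₁ h₂ h₁₂ hzc, ← hr2]
    set η : ℝ := (⌈(2 * Real.pi / 3) / θ⌉₊ : ℝ) * θ with hη
    have h6 : Real.cos η ≤ -(1 / 2) := by
      have h7 : Real.cos η = - Real.cos |η - Real.pi| := by
        rw [Real.cos_abs, Real.cos_sub_pi, neg_neg]
      have h8 : |η - Real.pi| ≤ Real.pi / 3 := by
        rw [abs_le]
        constructor <;> linarith
      have h9 : Real.cos (Real.pi / 3) ≤ Real.cos |η - Real.pi| :=
        Real.cos_le_cos_of_nonneg_of_le_pi (abs_nonneg _) (by linarith [Real.pi_pos]) h8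
      rw [Real.cos_pi_div_three] at h9
      rw [h7]
      linarith
    have h11 : r * r * Real.cos η ≤ r * r * (-(1 / 2)) :=
      mul_le_mul_of_nonneg_left h6 (by positivity)
    nlinarith

/-- A rotation component, angle not `π`, `2π/3`. -/
theorem rot_component {K : Set V} (hK : IsCompact K) {D : ℝ}
    (hD : ∀ x ∈ K, ∀ y ∈ K, dist x y ≤ D) {e₁ e₂ : V} (h₁ : ‖e₁‖ = 1) (h₂ : ‖e₂‖ = 1)
    (h₁₂ : ⟪e₁, e₂⟫ = 0) {θ : ℝ} (hθ0 : 0 < θ) (hθ : θ < Real.pi) (hθ' : θ ≠ 2 * Real.pi / 3)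
    (hrot : ∀ x ∈ K, rt e₁ e₂ θ x ∈ K) :
    Sec (Submodule.span ℝ {e₁, e₂})ᗮ K D 3 ∧ Comp (Submodule.span ℝ {e₁, e₂})ᗮ K := by
  have slack : ∀ {a b : V}, ‖a‖ = 1 → ‖b‖ = 1 → ⟪a, b⟫ = 0 → ∀ {η : ℝ}, 0 < η →
      η < 2 * Real.pi / 3 → (∀ x ∈ K, rt a b η x ∈ K) →
      Sec (Submodule.span ℝ {a, b})ᗮ K D 3 ∧ Comp (Submodule.span ℝ {a, b})ᗮ K := by
    intro a b ha hb hab η hη0 hη hr
    refine ⟨sec_rot _ ha hb hab (zc_span ha hb hab) hK hD (φ := η / 2) (by positivity) (m := 3)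
      (by norm_num) (by push_cast; linarith) (by
        rw [mul_div_cancel₀ η two_ne_zero]
        exact hr) 0 ?_, comp_rot ha hb hab hη0 hη.le hr⟩
    intro h
    exfalso
    push_cast at h
    linarith
  rcases lt_or_gt_of_ne hθ' with h | h
  · exact slack h₁ h₂ h₁₂ hθ0 h hrot
  · have h21 : ⟪e₂, e₁⟫ = 0 := by rw [real_inner_comm]; exact h₁₂
    rw [Set.pair_comm]
    refine slack h₂ h₁ h21 (η := 2 * Real.pi - 2 * θ) (by linarith) (by linarith) ?_
    intro x hx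
    have h3 := hrot _ (hrot x hx)
    rw [rt_rt h₁ h₂ h₁₂] at h3
    have h4 : rt e₂ e₁ (2 * Real.pi - 2 * θ) x = rt e₁ e₂ (θ + θ) x := by
      rw [rt, rt, Real.cos_two_pi_sub, Real.sin_two_pi_sub, two_mul θ]
      match_scalars <;> ring
    rw [h4]
    exact h3

/-- A mirror component. -/
theorem mirror_component {K : Set V} {D : ℝ}
    (hD : ∀ x ∈ K, ∀ y ∈ K, dist x y ≤ D) {n : V} (hn : ‖n‖ = 1)
    (hmir : ∀ x ∈ K, x - (2 * ⟪n, x⟫) • n ∈ K) :
    Sec (Submodule.span ℝ {n})ᗮ K D 2 ∧ Comp (Submodule.span ℝ {n})ᗮ K := by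
  have hnn : ⟪n, n⟫ = 1 := by rw [real_inner_self_eq_norm_sq, hn, one_pow]
  have hzc : ∀ x, zc (Submodule.span ℝ {n})ᗮ x = ⟪n, x⟫ • n := by
    intro x
    have h3 : (Submodule.span ℝ {n})ᗮ.starProjection x = x - ⟪n, x⟫ • n := by
      refine Submodule.eq_starProjection_of_mem_of_inner_eq_zero ?_ ?_
      · rw [Submodule.mem_orthogonal_singleton_iff_inner_right, inner_sub_right,
          real_inner_smul_right, hnn]
        ring
      · intro w hw
        rw [Submodule.mem_orthogonal_singleton_iff_inner_right] at hw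
        rw [sub_sub_cancel, real_inner_smul_left, hw, mul_zero]
    rw [zc, h3, sub_sub_cancel]
  have hi : ∀ x y, ⟪zc (Submodule.span ℝ {n})ᗮ x, zc (Submodule.span ℝ {n})ᗮ y⟫
      = ⟪n, x⟫ * ⟪n, y⟫ := by
    intro x y
    rw [hzc, hzc, real_inner_smul_left, real_inner_smul_right, hnn]
    ring
  have hmr : ∀ y, ⟪n, y - (2 * ⟪n, y⟫) • n⟫ = -⟪n, y⟫ := by
    intro y
    rw [inner_sub_right, real_inner_smul_right, hnn]
    ring
  have hzn : ∀ x, ‖zc (Submodule.span ℝ {n})ᗮ x‖ = |⟪n, x⟫| := by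
    intro x
    rw [hzc, norm_smul, hn, mul_one, Real.norm_eq_abs]
  have hmem : ∀ y : V, y - (2 * ⟪n, y⟫) • n - y ∈ (Submodule.span ℝ {n})ᗮᗮ := by
    intro y
    rw [Submodule.orthogonal_orthogonal, Submodule.mem_span_singleton]
    exact ⟨-(2 * ⟪n, y⟫), by rw [neg_smul]; abel⟩
  have hdist : ∀ x ∈ K, ∀ y ∈ K, dist x y = D → ⟪n, x⟫ * ⟪n, y⟫ ≤ 0 := by
    intro x hx y hy hxy
    have h1 : dist x (y - (2 * ⟪n, y⟫) • n) ^ 2 ≤ D ^ 2 := by
      have := hD x hx _ (hmir y hy)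
      gcongr
    have h2 : x - (y - (2 * ⟪n, y⟫) • n) = (x - y) + (2 * ⟪n, y⟫) • n := by abel
    rw [dist_eq_norm, h2, norm_add_sq_real, ← dist_eq_norm, hxy, real_inner_smul_right,
      norm_smul, hn, inner_sub_left, real_inner_comm n x, real_inner_comm n y,
      Real.norm_eq_abs, mul_one, sq_abs] at h1
    nlinarith
  constructor
  · refine ⟨fun i => {x | if i = 0 then 0 ≤ ⟪n, x⟫ else ⟪n, x⟫ ≤ 0}, fun i => ?_, ?_, ?_, ?_⟩
    · by_cases h : i = 0
      · simp only [h, if_true]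
        exact isClosed_le continuous_const (by fun_prop)
      · simp only [h, if_false]
        exact isClosed_le (by fun_prop) continuous_const
    · intro x _
      rcases le_total 0 ⟪n, x⟫ with h | h
      · exact mem_iUnion.2 ⟨0, by simpa using h⟩
      · exact mem_iUnion.2 ⟨1, by simpa using h⟩
    · intro i x _ h0
      have h : ⟪n, x⟫ = 0 := by
        have := hzn x
        rw [h0, norm_zero] at this
        exact abs_eq_zero.1 this.symm
      by_cases hi : i = 0 <;> simp [hi, h]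
    · intro i x hx y hy hxi hyi hxy
      have h1 := hdist x hx y hy hxy
      have h2 : 0 ≤ ⟪n, x⟫ * ⟪n, y⟫ := by
        by_cases hi : i = 0
        · simp only [hi, if_true, mem_ofPred_eq] at hxi hyi
          exact mul_nonneg hxi hyi
        · simp only [hi, if_false, mem_ofPred_eq] at hxi hyi
          exact mul_nonneg_of_nonpos_of_nonpos hxi hyi
      rcases mul_eq_zero.1 (le_antisymm h1 h2) with h | h
      · left
        rw [hzc, h, zero_smul]
      · right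
        rw [hzc, h, zero_smul]
  · constructor
    · intro x hx y hy
      rcases le_total (⟪n, x⟫ * ⟪n, y⟫) 0 with h | h
      · exact ⟨y, hy, by simp, rfl, by rw [hi]; exact h⟩
      · refine ⟨_, hmir y hy, hmem y, ?_, ?_⟩
        · rw [hzn, hzn, hmr, abs_neg]
        · rw [hi, hmr]
          linarith
    · intro x hx y hy hxy
      have hyx : ⟪n, y⟫ = ⟪n, x⟫ := by
        rw [hzc, hzc] at hxy
        have h := congrArg (fun z => ⟪n, z⟫) hxy
        simp only [real_inner_smul_right, hnn] at h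
        linarith
      refine ⟨_, hmir y hy, hmem y, ?_, ?_⟩
      · rw [hzn, hzn, hmr, abs_neg]
      · rw [hi, hmr, hzn, sq_abs, hyx]
        nlinarith [sq_nonneg ⟪n, x⟫]

end

end Vale.Agent.P052.H487
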