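import Vale.Agent.P052.H487.CellsR
import Vale.Agent.P052.H487.Multi2

/-!
Borsuk's partition problem: rotations about a three dimensional flat of `ℝ⁵`, all orders at least
four.
-/

namespace Vale.Agent.P052.H487

open Metric Set
open scoped RealInnerProductSpace
open Vale.Agent.P052.H768 (zc zc_mem sp_mem sp_add_zc inner_zc inner_sp zc_sub norm_sq_split
  continuous_zc tr tr_compact tr_dist smallerCover_of)

/-- Steps from the left into a window. -/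
theorem exists_step {a δ lo hi : ℝ} (hδ : 0 < δ) (ha : a < lo) (hw : δ ≤ hi - lo) :
    ∃ m : ℕ, lo ≤ a + m * δ ∧ a + m * δ ≤ hi := by
  have h0 : 0 ≤ (lo - a) / δ := div_nonneg (by linarith) hδ.le
  have h1 := Nat.le_ceil ((lo - a) / δ)
  have h2 := Nat.ceil_lt_add_one h0
  rw [div_le_iff₀ hδ] at h1
  have h3 := mul_lt_mul_of_pos_right h2 hδ
  rw [add_mul, div_mul_cancel₀ _ hδ.ne', one_mul] at h3
  exact ⟨⌈(lo - a) / δ⌉₊, by linarith, by linarith⟩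

/-- `cos (4π/5) ≤ -161/200`. -/
theorem cos_four_fifths {η : ℝ} (h8 : |η - Real.pi| ≤ Real.pi / 5) :
    Real.cos η ≤ -(101 / 125) := by
  have h7 : Real.cos η = - Real.cos |η - Real.pi| := by
    rw [Real.cos_abs, Real.cos_sub_pi, neg_neg]
  have h9 : Real.cos (Real.pi / 5) ≤ Real.cos |η - Real.pi| :=
    Real.cos_le_cos_of_nonneg_of_le_pi (abs_nonneg _) (by linarith [Real.pi_pos]) h8
  have h10 : (101 / 125 : ℝ) ≤ Real.cos (Real.pi / 5) := by
    rw [Real.cos_pi_div_five]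
    have h5 : (2.233 : ℝ) ≤ √5 := Real.le_sqrt_of_sq_le (by norm_num)
    linarith
  rw [h7]
  linarith

/-- Rotations of order at least four have a power near the half-turn. -/
theorem exists_cos_le_five {θ : ℝ} (hθ0 : 0 < θ) (hθ : θ ≤ Real.pi) (h3 : θ ≠ 2 * Real.pi / 3) :
    ∃ n : ℕ, Real.cos (n * θ) ≤ -(101 / 125) := by
  have hπ := Real.pi_pos
  have key : ∀ η : ℝ, 4 * Real.pi / 5 ≤ η → η ≤ 6 * Real.pi / 5 → Real.cos η ≤ -(101 / 125) := by
    intro η ha hb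
    exact cos_four_fifths (by rw [abs_le]; constructor <;> linarith)
  have hper : ∀ (η : ℝ) (m : ℕ), Real.cos (η + m * (2 * Real.pi)) = Real.cos η :=
    fun η m => Real.cos_add_nat_mul_two_pi η m
  rcases le_or_gt (4 * Real.pi / 5) θ with h | h
  · exact ⟨1, by rw [Nat.cast_one, one_mul]; exact key θ h (by linarith)⟩
  rcases lt_or_gt_of_ne h3 with h' | h'
  · rcases le_or_gt θ (2 * Real.pi / 5) with h5 | h5
    · -- small steps
      obtain ⟨m, hm1, hm2⟩ := exists_step (a := 0) (δ := θ) (lo := 4 * Real.pi / 5)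
        (hi := 6 * Real.pi / 5) hθ0 (by linarith) (by linarith)
      rw [zero_add] at hm1 hm2
      exact ⟨m, key _ hm1 hm2⟩
    · rcases le_or_gt θ (3 * Real.pi / 5) with h6 | h6
      · refine ⟨2, key _ ?_ ?_⟩ <;> push_cast <;> linarith
      · -- `3θ = 2π - δ`, steps down from `2θ`
        obtain ⟨m, hm1, hm2⟩ := exists_step (a := -(2 * θ)) (δ := 2 * Real.pi - 3 * θ)
          (lo := -(6 * Real.pi / 5)) (hi := -(4 * Real.pi / 5)) (by linarith) (by linarith)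
          (by linarith)
        refine ⟨2 + 3 * m, ?_⟩
        have e : ((2 + 3 * m : ℕ) : ℝ) * θ
            = -(-(2 * θ) + m * (2 * Real.pi - 3 * θ)) + m * (2 * Real.pi) := by
          push_cast
          ring
        rw [e, hper]
        exact key _ (by linarith) (by linarith)
  · -- `3θ = 2π + δ`, steps up from `θ`
    obtain ⟨m, hm1, hm2⟩ := exists_step (a := θ) (δ := 3 * θ - 2 * Real.pi)
      (lo := 4 * Real.pi / 5) (hi := 6 * Real.pi / 5) (by linarith) (by linarith) (by linarith)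
    refine ⟨1 + 3 * m, ?_⟩
    have e : ((1 + 3 * m : ℕ) : ℝ) * θ
        = (θ + m * (3 * θ - 2 * Real.pi)) + m * (2 * Real.pi) := by
      push_cast
      ring
    rw [e, hper]
    exact key _ (by linarith) (by linarith)

section
variable {V : Type*} [NormedAddCommGroup V] [InnerProductSpace ℝ V] [FiniteDimensional ℝ V]

section
variable (U : Submodule ℝ V) {K : Set V} (hK : IsCompact K) (hne : K.Nonempty) {D : ℝ}
  (hD0 : 0 < D) (hD : ∀ x ∈ K, ∀ y ∈ K, dist x y ≤ D)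
  (hpair : ∀ x ∈ K, ∀ y ∈ K, ‖U.starProjection x - U.starProjection y‖ ^ 2 ≤
    D ^ 2 - ‖zc U x‖ ^ 2 - ‖zc U y‖ ^ 2)
include hK hne hD0 hD hpair

omit hD in
/-- The remainder over a three dimensional flat: four weighted classes. -/
theorem rem_three' (h3 : Module.finrank ℝ U = 3) (hhalf : ∀ x ∈ K, 1000 * ‖zc U x‖ ^ 2 ≤ 277 * D ^ 2)
    (R : Set V) (hRc : IsCompact R) (hRK : R ⊆ K)
    (hRfar : ∀ x ∈ R, ∀ y ∈ R, dist x y = D → zc U x = 0 ∨ zc U y = 0) :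
    ∃ C : Fin 4 → Set V, (∀ j, IsCompact (C j)) ∧ (∀ j, C j ⊆ R) ∧ R ⊆ ⋃ j, C j ∧
      ∀ j, ∀ x ∈ C j, ∀ y ∈ C j, dist x y ≠ D := by
  have hUU : Uᗮᗮ = U := Submodule.orthogonal_orthogonal U
  have hzU : ∀ x, zc Uᗮ x = U.starProjection x := by
    intro x
    rw [zc, Submodule.starProjection_orthogonal_val, sub_sub_cancel]
  set s : V → ℝ := fun x => ‖zc U x‖ with hs
  have hsc : Continuous s := (continuous_zc U).norm
  have hs0 : ∀ x, 0 ≤ s x := fun x => norm_nonneg _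
  have hsD : ∀ x ∈ K, 1000 * s x ^ 2 ≤ 277 * D ^ 2 := hhalf
  have h3' : √3 ^ 2 = 3 := Real.sq_sqrt (by norm_num)
  have h30 : 0 < √3 := Real.sqrt_pos.2 (by norm_num)
  obtain ⟨th, τ, μ, Ce, hth, hτ, hμ, hC⟩ : ∃ (th τ μ : ℝ) (Ce : Fin 4 → ℝ → ℝ → ℝ → Prop),
      0 < th ∧ 0 < τ ∧ 0 < μ ∧ Poly.CellsR (223 / 1000) th τ μ Ce :=
    ⟨111 / 200, 2079 / 2500, 1 / 5000, _, by norm_num, by norm_num, by norm_num, Poly.cells⟩
  have ht0 : 0 < √3 * th := mul_pos h30 hth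
  obtain ⟨z₁, z₂, z₃, hz₁, hz₂, hz₃, hz⟩ := H25.exists_coord_three Uᗮ (by rw [hUU]; exact h3)
  have hzd : ∀ x y, ‖U.starProjection x - U.starProjection y‖ ^ 2
      = (z₁ x - z₁ y) ^ 2 + (z₂ x - z₂ y) ^ 2 + (z₃ x - z₃ y) ^ 2 := by
    intro x y
    rw [← hz, hzU, hzU]
  have hpr : ∀ t : ℝ, 0 < t → ∀ x ∈ K, ∀ y ∈ K,
      (z₁ x - z₁ y) ^ 2 + (z₂ x - z₂ y) ^ 2 + (z₃ x - z₃ y) ^ 2
        ≤ (H25.rw D t (s x) + H25.rw D t (s y)) ^ 2 := by
    intro t ht x hx y hy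
    refine H25.rw_pair' hD0 ht ?_
    rw [← hzd]
    exact hpair x hx y hy
  have hnn : ∀ t : ℝ, 0 < t → ∀ x ∈ K, 0 ≤ H25.rw D t (s x) := by
    intro t ht x hx
    unfold H25.rw
    have : 0 ≤ D ^ 2 / 2 - s x ^ 2 := by nlinarith [hsD x hx, sq_nonneg D]
    positivity
  obtain ⟨q₁, q₂, q₃, hq₁, hq₂, hq₃, hqd, hO, hT⟩ := Vale.Agent.P052.H515.octa2 hK hne
    hz₁ hz₂ hz₃ (rd := fun x => H25.rw D (√3 * th) (s x)) (rd2 := fun x => H25.rw D τ (s x))
    (H25.continuous_rw.comp hsc)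
    (fun x hx => hnn _ ht0 x hx) (hpr _ ht0)
    (fun x hx => hnn _ hτ x hx) (hpr _ hτ)
  -- normalised coordinates
  set ρ : V → ℝ := fun x => 1 / 2 - s x ^ 2 / D ^ 2 with hρ
  have hρlo : ∀ x ∈ K, 223 / 1000 ≤ ρ x := by
    intro x hx
    have h1 := hsD x hx
    have h2 : s x ^ 2 / D ^ 2 ≤ 277 / 1000 := by
      rw [div_le_iff₀ (by positivity)]
      linarith
    simp only [hρ]; linarith
  have hρhi : ∀ x, ρ x ≤ 1 / 2 := by
    intro x
    have : 0 ≤ s x ^ 2 / D ^ 2 := by positivity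
    simp only [hρ]; linarith
  have hrwO : ∀ x, √3 * H25.rw D (√3 * th) (s x) / D = ρ x / (2 * th) + 3 * th / 4 := by
    intro x
    simp only [H25.rw, hρ]
    field_simp
    rw [h3']
    ring
  have hrwT : ∀ x, H25.rw D τ (s x) / D = ρ x / (2 * τ) + τ / 4 := by
    intro x
    simp only [H25.rw, hρ]
    field_simp
  have hIn : ∀ x ∈ K, H25.InW th τ (ρ x) (q₁ x / D) (q₂ x / D) (q₃ x / D) := by
    intro x hx
    refine ⟨?_, ?_, ?_, ?_⟩
    · rw [← hrwO, abs_div, abs_div, abs_div, abs_of_pos hD0, ← add_div, ← add_div]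
      exact div_le_div_of_nonneg_right (hO x hx) hD0.le
    · rw [← hrwT]; exact div_le_div_of_nonneg_right (hT x hx).1 hD0.le
    · rw [← hrwT]; exact div_le_div_of_nonneg_right (hT x hx).2.1 hD0.le
    · rw [← hrwT]; exact div_le_div_of_nonneg_right (hT x hx).2.2 hD0.le
  have hscale : ∀ x y : V, (q₁ x - q₁ y) ^ 2 + (q₂ x - q₂ y) ^ 2 + (q₃ x - q₃ y) ^ 2
      = D ^ 2 * ((q₁ x / D - q₁ y / D) ^ 2 + (q₂ x / D - q₂ y / D) ^ 2
        + (q₃ x / D - q₃ y / D) ^ 2) := by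
    intro x y
    field_simp
  -- the classes
  set C : Fin 4 → Set V := fun j => {x | x ∈ R ∧ Ce j (q₁ x / D) (q₂ x / D) (q₃ x / D)}
    with hCd
  have hCK : ∀ j, ∀ x ∈ C j, x ∈ K := fun j x hx => hRK hx.1
  -- a far pair, one of the two on the flat
  have key : ∀ j, ∀ x ∈ C j, ∀ y ∈ C j, zc U y = 0 → dist x y = D → False := by
    intro j x hx y hy hy0 hxy
    have h1 := dist_sq U x y
    have hsy : s y = 0 := by simp only [hs]; rw [hy0, norm_zero]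
    rw [hxy, hy0, sub_zero, hzd, ← hqd, hscale] at h1
    have hρy : ρ y = 1 / 2 := by simp only [hρ]; rw [hsy]; simp
    have hy' := hIn y (hCK j y hy)
    rw [hρy] at hy'
    have h2 := hC.pair j (ρ x) _ _ _ _ _ _ (hρlo x (hCK j x hx)) (hρhi x) hx.2 hy.2
      (hIn x (hCK j x hx)) hy'
    have h4 := mul_le_mul_of_nonneg_left h2 (sq_nonneg D)
    have h5 : D ^ 2 * (ρ x + 1 / 2 - μ) = D ^ 2 - s x ^ 2 - D ^ 2 * μ := by
      simp only [hρ]
      field_simp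
      ring
    rw [h5] at h4
    have h6 : 0 < D ^ 2 * μ := by positivity
    have h7 : ‖zc U x‖ ^ 2 = s x ^ 2 := rfl
    rw [h7] at h1
    nlinarith
  refine ⟨C, ?_, fun j x hx => hx.1, ?_, ?_⟩
  · intro j
    refine hRc.inter_right ?_
    exact (hC.closed j).preimage
      ((hq₁.div_const D).prodMk ((hq₂.div_const D).prodMk (hq₃.div_const D)))
  · intro x hx
    obtain ⟨j, hj⟩ := hC.cover (q₁ x / D) (q₂ x / D) (q₃ x / D)
    exact mem_iUnion.2 ⟨j, hx, hj⟩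
  · intro j x hx y hy hxy
    rcases hRfar x hx.1 y hy.1 hxy with h | h
    · rw [dist_comm] at hxy
      exact key j y hy x hx h hxy
    · exact key j x hx y hy h hxy

end

section
variable (U : Submodule ℝ V) {K : Set V} {D : ℝ} {e₁ e₂ : V} (h₁ : ‖e₁‖ = 1) (h₂ : ‖e₂‖ = 1)
  (h₁₂ : ⟪e₁, e₂⟫ = 0) (hzc : ∀ x, zc U x = ⟪e₁, x⟫ • e₁ + ⟪e₂, x⟫ • e₂)
include h₁ h₂ h₁₂ hzc

theorem small_five (hD : ∀ x ∈ K, ∀ y ∈ K, dist x y ≤ D) {θ : ℝ} (hθ0 : 0 < θ)
    (hθ : θ ≤ Real.pi) (h3 : θ ≠ 2 * Real.pi / 3) (hrot : ∀ x ∈ K, rt e₁ e₂ θ x ∈ K) :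
    ∀ x ∈ K, 1000 * ‖zc U x‖ ^ 2 ≤ 277 * D ^ 2 := by
  intro x hx
  obtain ⟨n, hn⟩ := exists_cos_le_five hθ0 hθ h3
  obtain ⟨r, α, hr0, hr2, hα0, hα1, hx1, hx2⟩ := exists_polar ⟪e₁, x⟫ ⟪e₂, x⟫
  have h4 : dist x (rt e₁ e₂ (n * θ) x) ^ 2 ≤ D ^ 2 := by
    have := hD x hx _ (iter_rot h₁ h₂ h₁₂ hrot n x hx)
    gcongr
  have h5 := dist_rt_polar U h₁ h₂ h₁₂ hzc hx1 hx2 hx1 hx2 (n * θ)
  have h6 := norm_zc_sq U h₁ h₂ h₁₂ hzc x
  rw [← hr2] at h6
  rw [sub_self, norm_zero, sub_self, zero_add] at h5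
  have h7 : r * r * Real.cos (n * θ) ≤ r * r * (-(101 / 125)) :=
    mul_le_mul_of_nonneg_left hn (by positivity)
  nlinarith [sq_nonneg r]

end

end

end Vale.Agent.P052.H487
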