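import Vale.Agent.P052.H487.Ball
import Vale.Agent.P052.H487.Five

/-!
Borsuk's partition problem: isometries which turn all vectors by the same angle.
-/

namespace Vale.Agent.P052.H487

open Metric Set
open scoped RealInnerProductSpace

section
variable {V : Type*} [NormedAddCommGroup V] [InnerProductSpace ℝ V]

theorem clifford_quad {g : V ≃ₗᵢ[ℝ] V} {θ : ℝ} (hg : ∀ u, ⟪u, g u⟫ = Real.cos θ * ‖u‖ ^ 2)
    (u : V) : g (g u) + u = (2 * Real.cos θ) • g u := by
  have pol : ∀ u v, ⟪u, g v⟫ + ⟪v, g u⟫ = 2 * Real.cos θ * ⟪u, v⟫ := by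
    intro u v
    have h := hg (u + v)
    rw [map_add, inner_add_left, inner_add_right, inner_add_right, hg u, hg v,
      norm_add_sq_real] at h
    linarith
  refine ext_inner_left ℝ fun w => ?_
  have h := pol w (g u)
  rw [g.inner_map_map, real_inner_comm w u] at h
  rw [inner_add_right, real_inner_smul_right]
  linarith

theorem clifford_pow {g : V ≃ₗᵢ[ℝ] V} {θ : ℝ} (hg : ∀ u, ⟪u, g u⟫ = Real.cos θ * ‖u‖ ^ 2)
    (n : ℕ) (u : V) : ⟪u, (g ^ n) u⟫ = Real.cos (n * θ) * ‖u‖ ^ 2 := by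
  induction n using Nat.twoStepInduction with
  | zero =>
    rw [pow_zero, Nat.cast_zero, zero_mul, Real.cos_zero, one_mul]
    exact real_inner_self_eq_norm_sq u
  | one => rw [pow_one, Nat.cast_one, one_mul, hg]
  | more n h1 h2 =>
    have h3 := clifford_quad hg ((g ^ n) u)
    have e1 : (g ^ (n + 2)) u = g (g ((g ^ n) u)) := by
      rw [add_comm, pow_add]
      rfl
    have e2 : (g ^ (n + 1)) u = g ((g ^ n) u) := by
      rw [add_comm, pow_add]
      rfl
    have h4 : ⟪u, (g ^ (n + 2)) u⟫ + ⟪u, (g ^ n) u⟫ = 2 * Real.cos θ * ⟪u, (g ^ (n + 1)) u⟫ := by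
      rw [e1, e2, ← inner_add_right, h3, real_inner_smul_right]
    rw [h1, h2] at h4
    have h5 : Real.cos (((n + 2 : ℕ) : ℝ) * θ) + Real.cos (n * θ)
        = 2 * Real.cos θ * Real.cos (((n + 1 : ℕ) : ℝ) * θ) := by
      have e3 : ((n + 2 : ℕ) : ℝ) * θ = ((n + 1 : ℕ) : ℝ) * θ + θ := by push_cast; ring
      have e4 : (n : ℝ) * θ = ((n + 1 : ℕ) : ℝ) * θ - θ := by push_cast; ring
      rw [e3, e4, Real.cos_add, Real.cos_sub]
      ring
    have h6 : ⟪u, (g ^ (n + 2)) u⟫ = 2 * Real.cos θ * (Real.cos (((n + 1 : ℕ) : ℝ) * θ) * ‖u‖ ^ 2)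
        - Real.cos (n * θ) * ‖u‖ ^ 2 := by linarith
    rw [h6]
    linear_combination (-‖u‖ ^ 2) * h5

end

/-- **Isometries turning all vectors by the same angle.** -/
theorem main_clifford {d : ℕ} (hd : d ≤ 8) {X : Set (EuclideanSpace ℝ (Fin d))}
    (hX : Bornology.IsBounded X) (hD : 0 < Metric.diam X) (p : EuclideanSpace ℝ (Fin d))
    (g : EuclideanSpace ℝ (Fin d) ≃ₗᵢ[ℝ] EuclideanSpace ℝ (Fin d)) {θ : ℝ} (hθ0 : 0 < θ)
    (hθ : θ ≤ Real.pi) (h3 : θ ≠ 2 * Real.pi / 3)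
    (hg : ∀ u, ⟪u, g u⟫ = Real.cos θ * ‖u‖ ^ 2)
    (hgX : ∀ x ∈ X, p + g (x - p) ∈ X) : IsSmallerCover X (d + 1) := by
  obtain ⟨n, hn⟩ := exists_cos_le_five hθ0 hθ h3
  have hd8 : (d : ℝ) ≤ 8 := by exact_mod_cast hd
  refine main_reversed hX hD p {g ^ n} (c := 101 / 125) (by linarith) (fun u => ⟨_, rfl, ?_⟩) ?_
  · rw [clifford_pow hg n u]
    nlinarith [sq_nonneg ‖u‖]
  · rintro _ rfl
    have : ∀ m : ℕ, ∀ x ∈ X, p + (g ^ m) (x - p) ∈ X := by
      intro m
      induction m with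
      | zero =>
        intro x hx
        rw [pow_zero]
        change p + (x - p) ∈ X
        rwa [add_sub_cancel]
      | succ m ih =>
        intro x hx
        have h1 := hgX _ (ih x hx)
        rw [add_sub_cancel_left] at h1
        rw [add_comm m 1, pow_add, pow_one]
        exact h1
    exact this n

end Vale.Agent.P052.H487
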