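import Vale.Agent.P052.H487.Multi3
import Mathlib.Algebra.Order.Chebyshev

/-!
Borsuk's partition problem: the cones of a regular simplex.
-/

namespace Vale.Agent.P052.H487

open Metric Set
open scoped RealInnerProductSpace

/-- The inequality behind the simplex cones. -/
theorem cone_base {m : ℕ} (y z : Fin (m + 1) → ℝ) (hy : ∑ i, y i = 0) (hz : ∑ i, z i = 0)
    (j : Fin (m + 1)) (hyj : ∀ i, y j ≤ y i) (hzj : ∀ i, z j ≤ z i) :
    0 ≤ 2 * (m + 2) * ∑ i, y i * z i + m * (∑ i, y i ^ 2 + ∑ i, z i ^ 2) := by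
  set a : Fin (m + 1) → ℝ := fun i => y i - y j with ha
  set b : Fin (m + 1) → ℝ := fun i => z i - z j with hb
  have ha0 : ∀ i, 0 ≤ a i := fun i => sub_nonneg.2 (hyj i)
  have hb0 : ∀ i, 0 ≤ b i := fun i => sub_nonneg.2 (hzj i)
  have hm1 : (0 : ℝ) < m + 1 := by positivity
  have hS : ∑ i, a i = -((m + 1) * y j) := by
    simp only [ha, Finset.sum_sub_distrib, hy, Finset.sum_const, Finset.card_univ,
      Fintype.card_fin, nsmul_eq_mul]
    push_cast
    ring
  have hT : ∑ i, b i = -((m + 1) * z j) := by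
    simp only [hb, Finset.sum_sub_distrib, hz, Finset.sum_const, Finset.card_univ,
      Fintype.card_fin, nsmul_eq_mul]
    push_cast
    ring
  have hyy : ∑ i, y i ^ 2 = ∑ i, a i ^ 2 - (m + 1) * y j ^ 2 := by
    have h : ∀ i, a i ^ 2 = y i ^ 2 - 2 * y j * y i + y j ^ 2 := fun i => by
      simp only [ha]; ring
    rw [Finset.sum_congr rfl fun i _ => h i, Finset.sum_add_distrib, Finset.sum_sub_distrib,
      ← Finset.mul_sum, hy, Finset.sum_const, Finset.card_univ, Fintype.card_fin, nsmul_eq_mul]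
    push_cast
    ring
  have hzz : ∑ i, z i ^ 2 = ∑ i, b i ^ 2 - (m + 1) * z j ^ 2 := by
    have h : ∀ i, b i ^ 2 = z i ^ 2 - 2 * z j * z i + z j ^ 2 := fun i => by
      simp only [hb]; ring
    rw [Finset.sum_congr rfl fun i _ => h i, Finset.sum_add_distrib, Finset.sum_sub_distrib,
      ← Finset.mul_sum, hz, Finset.sum_const, Finset.card_univ, Fintype.card_fin, nsmul_eq_mul]
    push_cast
    ring
  have hyz : ∑ i, y i * z i = ∑ i, a i * b i - (m + 1) * (y j * z j) := by
    have h : ∀ i, a i * b i = y i * z i - y j * z i - z j * y i + y j * z j := fun i => by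
      simp only [ha, hb]; ring
    rw [Finset.sum_congr rfl fun i _ => h i, Finset.sum_add_distrib, Finset.sum_sub_distrib,
      Finset.sum_sub_distrib, ← Finset.mul_sum, ← Finset.mul_sum, hy, hz, Finset.sum_const,
      Finset.card_univ, Fintype.card_fin, nsmul_eq_mul]
    push_cast
    ring
  -- Cauchy over the other indices
  have hC : (∑ i, a i + ∑ i, b i) ^ 2 ≤ m * ∑ i, (a i + b i) ^ 2 := by
    have h1 : ∀ f : Fin (m + 1) → ℝ, f j = 0 →
        ∑ i, f i = ∑ i ∈ Finset.univ.erase j, f i := by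
      intro f hf
      rw [← Finset.add_sum_erase _ _ (Finset.mem_univ j), hf, zero_add]
    have hj : a j + b j = 0 := by simp only [ha, hb]; ring
    rw [← Finset.sum_add_distrib, h1 (fun i => a i + b i) hj,
      h1 (fun i => (a i + b i) ^ 2) (by simp only [hj]; ring)]
    have h2 := sq_sum_le_card_mul_sum_sq (s := Finset.univ.erase j) (f := fun i => a i + b i)
    rw [Finset.card_erase_of_mem (Finset.mem_univ j), Finset.card_univ, Fintype.card_fin,
      Nat.add_sub_cancel] at h2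
    exact h2
  have hab : ∑ i, (a i + b i) ^ 2 = ∑ i, a i ^ 2 + ∑ i, b i ^ 2 + 2 * ∑ i, a i * b i := by
    rw [Finset.mul_sum, ← Finset.sum_add_distrib, ← Finset.sum_add_distrib]
    exact Finset.sum_congr rfl fun i _ => by ring
  have hab0 : 0 ≤ ∑ i, a i * b i := Finset.sum_nonneg fun i _ => mul_nonneg (ha0 i) (hb0 i)
  rw [hab, hS, hT] at hC
  rw [hyy, hzz, hyz]
  have key : 2 * (m + 2) * (∑ i, a i * b i - (m + 1) * (y j * z j)) +
      m * (∑ i, a i ^ 2 - (m + 1) * y j ^ 2 + (∑ i, b i ^ 2 - (m + 1) * z j ^ 2))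
      = (m * (∑ i, a i ^ 2 + ∑ i, b i ^ 2 + 2 * ∑ i, a i * b i) -
        (-((m + 1) * y j) + -((m + 1) * z j)) ^ 2) + 4 * ∑ i, a i * b i +
        (m + 1) * (y j - z j) ^ 2 := by
    ring
  rw [key]
  have : 0 ≤ (m + 1) * (y j - z j) ^ 2 := by positivity
  linarith

section
variable {V : Type*} [NormedAddCommGroup V] [InnerProductSpace ℝ V] [FiniteDimensional ℝ V]

/-- Simplex coordinates. -/
theorem exists_simplex_coord {m : ℕ} (hm : Module.finrank ℝ V = m) :
    ∃ y : Fin (m + 1) → V →ₗ[ℝ] ℝ, (∀ w, ∑ i, y i w = 0) ∧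
      ∀ w w', ∑ i, y i w * y i w' = ⟪w, w'⟫ := by
  set o : EuclideanSpace ℝ (Fin (m + 1)) := WithLp.toLp 2 (fun _ => 1) with ho
  have ho0 : o ≠ 0 := by
    intro h
    have := congrArg (fun v : EuclideanSpace ℝ (Fin (m + 1)) => v 0) h
    simp [ho] at this
  have : Fact (Module.finrank ℝ (EuclideanSpace ℝ (Fin (m + 1))) = m + 1) :=
    ⟨finrank_euclideanSpace_fin⟩
  have hH : Module.finrank ℝ (Submodule.span ℝ {o})ᗮ = m :=
    Submodule.finrank_orthogonal_span_singleton ho0
  set φ : V ≃ₗᵢ[ℝ] (Submodule.span ℝ {o})ᗮ :=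
    ((stdOrthonormalBasis ℝ V).reindex (finCongr hm)).equiv
      ((stdOrthonormalBasis ℝ (Submodule.span ℝ {o})ᗮ).reindex (finCongr hH))
      (Equiv.refl _) with hφ
  refine ⟨fun i => (EuclideanSpace.proj (𝕜 := ℝ) i : EuclideanSpace ℝ (Fin (m + 1)) →L[ℝ] ℝ).toLinearMap
    ∘ₗ (Submodule.span ℝ {o})ᗮ.subtype ∘ₗ φ.toLinearEquiv.toLinearMap, ?_, ?_⟩
  · intro w
    have h := (Submodule.mem_orthogonal_singleton_iff_inner_right).1 (φ w).2
    rw [PiLp.inner_apply] at h
    simpa [ho] using h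
  · intro w w'
    rw [← φ.inner_map_map w w', Submodule.coe_inner, PiLp.inner_apply]
    refine Finset.sum_congr rfl fun i _ => ?_
    rw [RCLike.inner_apply, conj_trivial, mul_comm]
    rfl

end

end Vale.Agent.P052.H487
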