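import Vale.Agent.P052.H487.Angle

/-!
Borsuk's partition problem for sets symmetric in a flat: the covers.
-/

namespace Vale.Agent.P052.H487

open Metric Set
open scoped RealInnerProductSpace
open Vale.Agent.P052.H768 (zc zc_mem sp_mem sp_add_zc inner_zc inner_sp zc_sub norm_sq_split
  continuous_zc tr tr_compact tr_dist smallerCover_of)

variable {V : Type*} [NormedAddCommGroup V] [InnerProductSpace ℝ V] [FiniteDimensional ℝ V]

/-- Thickening the classes on the flat. -/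
theorem thick (U : Submodule ℝ V) {K : Set V} (hK : IsCompact K) {D : ℝ} {N : ℕ}
    (P : Fin N → Set V) (hP : ∀ i, ∃ D' < D, ∀ x ∈ P i, ∀ y ∈ P i, dist x y ≤ D')
    (hcov : ∀ x ∈ K, zc U x = 0 → ∃ i, x ∈ P i) :
    ∃ B : Fin N → Set V, ∃ D₀ < D, ∃ δ > 0, (∀ i, IsOpen (B i)) ∧
      (∀ i, ∀ x ∈ B i, ∀ y ∈ B i, dist x y ≤ D₀) ∧
      ∀ x ∈ K, (∀ i, x ∉ B i) → δ ≤ ‖zc U x‖ := by
  choose D' hD' hPD using hP
  obtain ⟨D₁, hD₁, hD₁'⟩ : ∃ D₁ < D, ∀ i, D' i ≤ D₁ := by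
    rcases isEmpty_or_nonempty (Fin N) with h | h
    · exact ⟨D - 1, by linarith, fun i => (h.false i).elim⟩
    · obtain ⟨i, hi⟩ := Finite.exists_max D'
      exact ⟨D' i, hD' i, hi⟩
  set ρ : ℝ := (D - D₁) / 3 with hρ
  have hρ0 : 0 < ρ := by rw [hρ]; linarith
  have hopen : ∀ i, IsOpen (thickening ρ (P i)) := fun i => isOpen_thickening
  have hR : IsCompact (K \ ⋃ i, thickening ρ (P i)) := hK.diff (isOpen_iUnion hopen)
  have hRpos : ∀ x ∈ K \ ⋃ i, thickening ρ (P i), 0 < ‖zc U x‖ := by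
    rintro x ⟨hx, hx'⟩
    rw [norm_pos_iff]
    intro h0
    obtain ⟨i, hi⟩ := hcov x hx h0
    exact hx' (mem_iUnion.2 ⟨i, self_subset_thickening hρ0 _ hi⟩)
  obtain ⟨δ, hδ, hδ'⟩ : ∃ δ > 0, ∀ x ∈ K \ ⋃ i, thickening ρ (P i), δ ≤ ‖zc U x‖ := by
    rcases (K \ ⋃ i, thickening ρ (P i)).eq_empty_or_nonempty with he | hne
    · refine ⟨1, one_pos, fun x hx => ?_⟩
      rw [he] at hx
      exact absurd hx (notMem_empty x)
    · obtain ⟨z, hz, hmin⟩ := hR.exists_isMinOn hne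
        ((continuous_zc U).norm.continuousOn : ContinuousOn (fun x => ‖zc U x‖) _)
      exact ⟨‖zc U z‖, hRpos z hz, fun x hx => hmin hx⟩
  refine ⟨fun i => thickening ρ (P i), D₁ + 2 * ρ, by rw [hρ]; linarith, δ, hδ, hopen, ?_, ?_⟩
  · intro i x hx y hy
    obtain ⟨a, ha, ha'⟩ := mem_thickening_iff.1 hx
    obtain ⟨b, hb, hb'⟩ := mem_thickening_iff.1 hy
    have h3 := (hPD i a ha b hb).trans (hD₁' i)
    have h4 : dist x y ≤ dist x a + dist a b + dist b y := dist_triangle4 x a b y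
    rw [dist_comm b y] at h4
    linarith
  · intro x hx hxB
    refine hδ' x ⟨hx, fun h => ?_⟩
    obtain ⟨i, hi⟩ := mem_iUnion.1 h
    exact hxB i hi

section
variable (U : Submodule ℝ V) {K : Set V} (hK : IsCompact K) {D : ℝ} (hD0 : 0 < D)
  (hD : ∀ x ∈ K, ∀ y ∈ K, dist x y ≤ D)
  (hinv : ∀ x ∈ K, U.starProjection x - zc U x ∈ K) {N : ℕ}
  (P : Fin N → Set V) (hP : ∀ i, ∃ D' < D, ∀ x ∈ P i, ∀ y ∈ P i, dist x y ≤ D')
  (hcov : ∀ x ∈ K, zc U x = 0 → ∃ i, x ∈ P i)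
include hK hD0 hD hinv hP hcov

/-- A cover of the unit sphere of `Uᗮ` by sets of acute directions gives a cover. -/
theorem sphere_cover {κ : Type*} [Finite κ] (S : κ → Set V)
    (hS : ∀ j, ∃ c > 0, ∀ u ∈ S j, ∀ w ∈ S j, c ≤ ⟪u, w⟫)
    (hScov : ∀ u ∈ Uᗮ, ‖u‖ = 1 → ∃ j, u ∈ S j) :
    ∃ C : Fin N ⊕ κ → Set V, K ⊆ ⋃ i, C i ∧
      ∃ D' < D, ∀ i, ∀ x ∈ C i, ∀ y ∈ C i, dist x y ≤ D' := by
  obtain ⟨B, D₀, hD₀, δ, hδ, -, hBD, hBδ⟩ := thick U hK P hP hcov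
  choose c hc hSc using hS
  obtain ⟨c₀, hc₀, hc₀'⟩ : ∃ c₀ > 0, ∀ j, c₀ ≤ c j := by
    rcases isEmpty_or_nonempty κ with h | h
    · exact ⟨1, one_pos, fun i => (h.false i).elim⟩
    · obtain ⟨i, hi⟩ := Finite.exists_min c
      exact ⟨c i, hc i, hi⟩
  have hsq : D ^ 2 - 4 * (c₀ * δ ^ 2) < D ^ 2 := by
    have : 0 < c₀ * δ ^ 2 := by positivity
    linarith
  refine ⟨Sum.elim B fun j => {x | x ∈ K ∧ δ ≤ ‖zc U x‖ ∧ (‖zc U x‖)⁻¹ • zc U x ∈ S j}, ?_,
    max D₀ (Real.sqrt (D ^ 2 - 4 * (c₀ * δ ^ 2))), max_lt hD₀ ?_, ?_⟩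
  · intro x hx
    by_cases h : ∃ i, x ∈ B i
    · obtain ⟨i, hi⟩ := h
      exact mem_iUnion.2 ⟨Sum.inl i, hi⟩
    · push Not at h
      have h1 := hBδ x hx h
      have h2 : 0 < ‖zc U x‖ := lt_of_lt_of_le hδ h1
      obtain ⟨j, hj⟩ := hScov ((‖zc U x‖)⁻¹ • zc U x) (Uᗮ.smul_mem _ (zc_mem U x)) (by
        rw [norm_smul, norm_inv, norm_norm, inv_mul_cancel₀ h2.ne'])
      exact mem_iUnion.2 ⟨Sum.inr j, hx, h1, hj⟩
  · rw [Real.sqrt_lt' hD0]
    exact hsq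
  · rintro (i | j) x hx y hy
    · exact (hBD i x hx y hy).trans (le_max_left _ _)
    · obtain ⟨hxK, hxδ, hxS⟩ := hx
      obtain ⟨hyK, hyδ, hyS⟩ := hy
      refine le_trans ?_ (le_max_right _ _)
      refine Real.le_sqrt_of_sq_le ?_
      have h1 := dist_sq_le U hD hinv hxK hyK
      have h2 := (hc₀' j).trans (hSc j _ hxS _ hyS)
      have hx0 : 0 < ‖zc U x‖ := lt_of_lt_of_le hδ hxδ
      have hy0 : 0 < ‖zc U y‖ := lt_of_lt_of_le hδ hyδ
      rw [real_inner_smul_left, real_inner_smul_right] at h2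
      have h3 : ⟪zc U x, zc U y⟫ = ‖zc U x‖ * ‖zc U y‖ *
          ((‖zc U x‖)⁻¹ * ((‖zc U y‖)⁻¹ * ⟪zc U x, zc U y⟫)) := by
        field_simp
      have h4 : c₀ * δ ^ 2 ≤ ⟪zc U x, zc U y⟫ := by
        rw [h3]
        have h5 : δ ^ 2 ≤ ‖zc U x‖ * ‖zc U y‖ := by
          rw [sq]
          exact mul_le_mul hxδ hyδ hδ.le hx0.le
        calc c₀ * δ ^ 2 = δ ^ 2 * c₀ := mul_comm _ _
          _ ≤ ‖zc U x‖ * ‖zc U y‖ * c₀ := mul_le_mul_of_nonneg_right h5 hc₀.le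
          _ ≤ _ := mul_le_mul_of_nonneg_left h2 (by positivity)
      linarith

omit hD0 in
/-- Four closed quadrants. -/
theorem quadrant_cover {e₁ e₂ : V} (h₁ : ‖e₁‖ = 1) (h₂ : ‖e₂‖ = 1) (h₁₂ : ⟪e₁, e₂⟫ = 0)
    (he : ∀ v ∈ Uᗮ, v = ⟪e₁, v⟫ • e₁ + ⟪e₂, v⟫ • e₂)
    {f₁ f₂ : V} (hf : ∀ a ∈ U, ‖a‖ ^ 2 = ⟪f₁, a⟫ ^ 2 + ⟪f₂, a⟫ ^ 2) :
    ∃ C : Fin N ⊕ (Bool × Bool) → Set V, K ⊆ ⋃ i, C i ∧
      ∃ D' < D, ∀ i, ∀ x ∈ C i, ∀ y ∈ C i, dist x y ≤ D' := by
  obtain ⟨B, D₀, hD₀, δ, hδ, hBo, hBD, hBδ⟩ := thick U hK P hP hcov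
  obtain ⟨α, hα⟩ := exists_good_angle U hD hinv h₁ h₂ h₁₂ hf
  set E : V := ea e₁ e₂ α with hE
  set M : V := na e₁ e₂ α with hM
  have h21 : ⟪e₂, e₁⟫ = 0 := by rw [real_inner_comm]; exact h₁₂
  have h11 : ⟪e₁, e₁⟫ = 1 := by rw [real_inner_self_eq_norm_sq, h₁, one_pow]
  have h22 : ⟪e₂, e₂⟫ = 1 := by rw [real_inner_self_eq_norm_sq, h₂, one_pow]
  have hdec : ∀ v ∈ Uᗮ, v = ⟪E, v⟫ • E + ⟪M, v⟫ • M := by
    intro v hv
    have h := he v hv
    have hc := Real.sin_sq_add_cos_sq α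
    rw [hE, hM, ea, na, inner_add_left, inner_add_left, real_inner_smul_left,
      real_inner_smul_left, real_inner_smul_left, real_inner_smul_left]
    set a := ⟪e₁, v⟫
    set b := ⟪e₂, v⟫
    rw [h]
    match_scalars
    · linear_combination (-a) * hc
    · linear_combination (-b) * hc
  have hEE : ⟪E, E⟫ = 1 := by
    rw [hE, ea]
    simp only [inner_add_left, inner_add_right, real_inner_smul_left, real_inner_smul_right,
      h11, h22, h₁₂, h21]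
    linear_combination Real.sin_sq_add_cos_sq α
  have hMM : ⟪M, M⟫ = 1 := by
    rw [hM, na]
    simp only [inner_add_left, inner_add_right, real_inner_smul_left, real_inner_smul_right,
      h11, h22, h₁₂, h21]
    linear_combination Real.sin_sq_add_cos_sq α
  have hEM : ⟪E, M⟫ = 0 := by
    rw [hE, hM, inner_ea_na h₁ h₂ h₁₂, sub_self, Real.sin_zero]
  have hME : ⟪M, E⟫ = 0 := by rw [real_inner_comm]; exact hEM
  have hinner : ∀ x y : V, ⟪zc U x, zc U y⟫ = ⟪E, zc U x⟫ * ⟪E, zc U y⟫ +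
      ⟪M, zc U x⟫ * ⟪M, zc U y⟫ := by
    intro x y
    conv_lhs => rw [hdec _ (zc_mem U x), hdec _ (zc_mem U y)]
    simp only [inner_add_left, inner_add_right, real_inner_smul_left, real_inner_smul_right,
      hEE, hMM, hEM, hME]
    ring
  set sg : Bool → ℝ := fun b => if b then 1 else -1 with hsg
  have hsg2 : ∀ b, sg b * sg b = 1 := by intro b; cases b <;> simp [hsg]
  set R : Set V := K \ ⋃ i, B i with hR
  have hRc : IsCompact R := hK.diff (isOpen_iUnion hBo)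
  have hRK : ∀ x ∈ R, x ∈ K := fun x hx => hx.1
  have hRδ : ∀ x ∈ R, 0 < ‖zc U x‖ := fun x hx =>
    lt_of_lt_of_le hδ (hBδ x hx.1 fun i hi => hx.2 (mem_iUnion.2 ⟨i, hi⟩))
  set Q : Bool × Bool → Set V := fun p =>
    {x | 0 ≤ sg p.1 * ⟪E, zc U x⟫ ∧ 0 ≤ sg p.2 * ⟪M, zc U x⟫} with hQ
  have hQc : ∀ p, IsClosed (Q p) := by
    intro p
    have hc := continuous_zc U
    refine IsClosed.inter (s₁ := {x | 0 ≤ sg p.1 * ⟪E, zc U x⟫})
      (s₂ := {x | 0 ≤ sg p.2 * ⟪M, zc U x⟫}) ?_ ?_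
    · exact isClosed_le continuous_const (continuous_const.mul (continuous_const.inner hc))
    · exact isClosed_le continuous_const (continuous_const.mul (continuous_const.inner hc))
  have hfar : ∀ p, ∀ x ∈ R, ∀ y ∈ R, x ∈ Q p → y ∈ Q p → dist x y < D := by
    intro p x hx y hy hxp hyp
    refine lt_of_le_of_ne (hD x (hRK x hx) y (hRK y hy)) fun hd => ?_
    have h1 := dist_sq_le U hD hinv (hRK x hx) (hRK y hy)
    rw [hd, hinner] at h1
    set a := ⟪E, zc U x⟫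
    set b := ⟪M, zc U x⟫
    set a' := ⟪E, zc U y⟫
    set b' := ⟪M, zc U y⟫
    have h2 : 0 ≤ a * a' := by
      have := mul_nonneg hxp.1 hyp.1
      have h3 : sg p.1 * a * (sg p.1 * a') = (sg p.1 * sg p.1) * (a * a') := by ring
      rw [h3, hsg2, one_mul] at this
      exact this
    have h3 : 0 ≤ b * b' := by
      have := mul_nonneg hxp.2 hyp.2
      have h3 : sg p.2 * b * (sg p.2 * b') = (sg p.2 * sg p.2) * (b * b') := by ring
      rw [h3, hsg2, one_mul] at this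
      exact this
    have h4 : a * a' = 0 := by linarith
    have h5 : b * b' = 0 := by linarith
    have hvx : zc U x = a • E + b • M := hdec _ (zc_mem U x)
    have hvy : zc U y = a' • E + b' • M := hdec _ (zc_mem U y)
    have hx0 := hRδ x hx
    have hy0 := hRδ y hy
    rw [norm_pos_iff] at hx0 hy0
    rcases mul_eq_zero.1 h4 with ha | ha
    · have hb : b ≠ 0 := by
        intro hb
        rw [ha, hb, zero_smul, zero_smul, add_zero] at hvx
        exact hx0 hvx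
      have hb' : b' = 0 := (mul_eq_zero.1 h5).resolve_left hb
      have ha' : a' ≠ 0 := by
        intro ha'
        rw [ha', hb', zero_smul, zero_smul, add_zero] at hvy
        exact hy0 hvy
      rw [ha, zero_smul, zero_add] at hvx
      rw [hb', zero_smul, add_zero] at hvy
      rcases hα y (hRK y hy) x (hRK x hx) (by rw [dist_comm]; exact hd) a' b hvy hvx with h | h
      · exact ha' h
      · exact hb h
    · have hb' : b' ≠ 0 := by
        intro hb'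
        rw [ha, hb', zero_smul, zero_smul, add_zero] at hvy
        exact hy0 hvy
      have hb : b = 0 := (mul_eq_zero.1 h5).resolve_right hb'
      have ha' : a ≠ 0 := by
        intro ha'
        rw [ha', hb, zero_smul, zero_smul, add_zero] at hvx
        exact hx0 hvx
      rw [ha, zero_smul, zero_add] at hvy
      rw [hb, zero_smul, add_zero] at hvx
      rcases hα x (hRK x hx) y (hRK y hy) hd a b' hvx hvy with h | h
      · exact ha' h
      · exact hb' h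
  obtain ⟨D₂, hD₂, hD₂'⟩ : ∃ D₂ < D, ∀ p, ∀ x ∈ R ∩ Q p, ∀ y ∈ R ∩ Q p, dist x y ≤ D₂ := by
    set T : Set (V × V) := ⋃ p, (R ∩ Q p) ×ˢ (R ∩ Q p) with hT
    have hTc : IsCompact T := isCompact_iUnion fun p =>
      (hRc.inter_right (hQc p)).prod (hRc.inter_right (hQc p))
    rcases T.eq_empty_or_nonempty with hem | hne
    · refine ⟨D - 1, by linarith, fun p x hx y hy => ?_⟩
      have : (x, y) ∈ T := mem_iUnion.2 ⟨p, hx, hy⟩
      rw [hem] at this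
      exact absurd this (by simp)
    · obtain ⟨q, hq, hmax⟩ := hTc.exists_isMaxOn hne
        (continuous_dist.continuousOn : ContinuousOn (fun p : V × V => dist p.1 p.2) T)
      refine ⟨dist q.1 q.2, ?_, fun p x hx y hy => ?_⟩
      · obtain ⟨p, hp⟩ := mem_iUnion.1 hq
        exact hfar p q.1 hp.1.1 q.2 hp.2.1 hp.1.2 hp.2.2
      · have : (x, y) ∈ T := mem_iUnion.2 ⟨p, hx, hy⟩
        exact hmax this
  refine ⟨Sum.elim B fun p => R ∩ Q p, ?_, max D₀ D₂, max_lt hD₀ hD₂, ?_⟩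
  · intro x hx
    by_cases h : ∃ i, x ∈ B i
    · obtain ⟨i, hi⟩ := h
      exact mem_iUnion.2 ⟨Sum.inl i, hi⟩
    · have hxR : x ∈ R := ⟨hx, fun h' => h (mem_iUnion.1 h')⟩
      have hsgn : ∀ a : ℝ, ∃ b, 0 ≤ sg b * a := by
        intro a
        rcases le_total 0 a with ha | ha
        · exact ⟨true, by simpa [hsg] using ha⟩
        · exact ⟨false, by simpa [hsg] using ha⟩
      obtain ⟨s, hs⟩ := hsgn ⟪E, zc U x⟫
      obtain ⟨t, ht⟩ := hsgn ⟪M, zc U x⟫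
      exact mem_iUnion.2 ⟨Sum.inr (s, t), hxR, hs, ht⟩
  · rintro (i | p) x hx y hy
    · exact (hBD i x hx y hy).trans (le_max_left _ _)
    · exact (hD₂' p x hx y hy).trans (le_max_right _ _)

end

end Vale.Agent.P052.H487
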