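import Mathlib.Analysis.InnerProductSpace.PiL2
import Mathlib.Analysis.SpecialFunctions.Trigonometric.Basic

/-!
Borsuk's partition problem for sets with rotational symmetries: definitions.
-/

namespace Vale.Agent.P052.H487

open scoped RealInnerProductSpace

/-- The flat `⟪e₁, x⟫ = c₁`, `⟪e₂, x⟫ = c₂`. -/
def axis {d : ℕ} (e₁ e₂ : EuclideanSpace ℝ (Fin d)) (c₁ c₂ : ℝ) :
    Set (EuclideanSpace ℝ (Fin d)) :=
  {x | ⟪e₁, x⟫ = c₁ ∧ ⟪e₂, x⟫ = c₂}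

/-- The rotation by the angle `θ` about the flat `axis e₁ e₂ c₁ c₂`, for orthonormal vectors
`e₁`, `e₂`. -/
noncomputable def rotation {d : ℕ} (e₁ e₂ : EuclideanSpace ℝ (Fin d)) (c₁ c₂ θ : ℝ)
    (x : EuclideanSpace ℝ (Fin d)) : EuclideanSpace ℝ (Fin d) :=
  x + ((Real.cos θ - 1) * (⟪e₁, x⟫ - c₁) - Real.sin θ * (⟪e₂, x⟫ - c₂)) • e₁ +
    (Real.sin θ * (⟪e₁, x⟫ - c₁) + (Real.cos θ - 1) * (⟪e₂, x⟫ - c₂)) • e₂

/-- `Y` is covered by `N` bounded sets of diameter less than `D`. -/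
def CoveredBelow {d : ℕ} (Y : Set (EuclideanSpace ℝ (Fin d))) (D : ℝ) (N : ℕ) : Prop :=
  ∃ P : Fin N → Set (EuclideanSpace ℝ (Fin d)),
    (∀ i, Bornology.IsBounded (P i) ∧ Metric.diam (P i) < D) ∧ Y ⊆ ⋃ i, P i

end Vale.Agent.P052.H487
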