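import Mathlib.Analysis.Convex.Caratheodory
import Mathlib.Analysis.LocallyConvex.Separation
import Mathlib.Analysis.InnerProductSpace.Dual
import Mathlib.Analysis.InnerProductSpace.PiL2
import Mathlib.LinearAlgebra.AffineSpace.FiniteDimensional

/-!
The smallest ball around a compact set: the centre is in the closed hull of the contact points, and
two contact points form an obtuse angle.
-/

namespace Vale.Agent.P052.H487

open Metric Set
open scoped RealInnerProductSpace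

variable {V : Type*} [NormedAddCommGroup V] [InnerProductSpace ℝ V] [FiniteDimensional ℝ V]

/-- The smallest ball. -/
theorem exists_min_ball {K : Set V} (hK : IsCompact K) (hne : K.Nonempty) :
    ∃ (c : V) (R : ℝ), 0 ≤ R ∧ (∀ x ∈ K, ‖x - c‖ ≤ R) ∧
      ∀ (c' : V) (R' : ℝ), (∀ x ∈ K, ‖x - c'‖ ≤ R') → R ≤ R' := by
  obtain ⟨x₀, hx₀⟩ := hne
  obtain ⟨B, hB⟩ : ∃ B, ∀ x ∈ K, ‖x - x₀‖ ≤ B := by
    obtain ⟨z, hz, hmax⟩ := hK.exists_isMaxOn ⟨x₀, hx₀⟩
      ((by fun_prop : Continuous fun x : V => ‖x - x₀‖).continuousOn)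
    exact ⟨‖z - x₀‖, fun x hx => hmax hx⟩
  have hB0 : 0 ≤ B := (norm_nonneg _).trans (hB x₀ hx₀)
  set P : Set (V × ℝ) := (closedBall x₀ B ×ˢ Icc 0 B) ∩ ⋂ x ∈ K, {p | ‖x - p.1‖ ≤ p.2} with hP
  have hPc : IsCompact P := by
    refine ((isCompact_closedBall x₀ B).prod isCompact_Icc).inter_right ?_
    exact isClosed_biInter fun x _ => isClosed_le (by fun_prop) (by fun_prop)
  have hPne : P.Nonempty := by
    refine ⟨(x₀, B), ⟨⟨mem_closedBall_self hB0, ⟨hB0, le_rfl⟩⟩, ?_⟩⟩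
    exact mem_iInter₂.2 fun x hx => hB x hx
  obtain ⟨p, hp, hmin⟩ := hPc.exists_isMinOn hPne
    (continuous_snd (X := V) (Y := ℝ)).continuousOn
  refine ⟨p.1, p.2, hp.1.2.1, fun x hx => mem_iInter₂.1 hp.2 x hx, fun c' R' h => ?_⟩
  have hR0 : 0 ≤ R' := (norm_nonneg _).trans (h x₀ hx₀)
  rcases le_or_gt R' B with hR | hR
  · have hmem : (c', R') ∈ P := by
      refine ⟨⟨?_, ⟨hR0, hR⟩⟩, mem_iInter₂.2 fun x hx => h x hx⟩
      rw [mem_closedBall, dist_comm, dist_eq_norm]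
      exact (h x₀ hx₀).trans hR
    exact hmin hmem
  · exact hp.1.2.2.trans hR.le

/-- The centre is in the closed hull of the contact points. -/
theorem zero_mem_contact {K : Set V} (hK : IsCompact K) {R : ℝ} (hR0 : 0 < R)
    (hR : ∀ x ∈ K, ‖x‖ ≤ R) (hmin : ∀ (c' : V) (R' : ℝ), (∀ x ∈ K, ‖x - c'‖ ≤ R') → R ≤ R') :
    (0 : V) ∈ closure (convexHull ℝ {x ∈ K | ‖x‖ = R}) := by
  by_contra h
  obtain ⟨f, u, h1, h2⟩ := geometric_hahn_banach_closed_point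
    ((convex_convexHull ℝ {x ∈ K | ‖x‖ = R}).closure) isClosed_closure h
  rw [map_zero] at h2
  set w := -(InnerProductSpace.toDual ℝ V).symm f with hw
  have hf : ∀ a, ⟪w, a⟫ = - f a := fun a => by
    rw [hw, inner_neg_left, InnerProductSpace.toDual_symm_apply]
  have hM : ∀ a ∈ K, ‖a‖ = R → -u < ⟪w, a⟫ := by
    intro a ha haR
    have h3 := h1 _ (subset_closure (subset_convexHull ℝ _ ⟨ha, haR⟩))
    rw [hf]
    linarith
  set η : ℝ := -u with hη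
  have hη0 : 0 < η := by rw [hη]; linarith
  -- the points on the wrong side have smaller norm
  have hN : IsCompact (K ∩ {a | ⟪w, a⟫ ≤ η}) :=
    hK.inter_right (isClosed_le (by fun_prop) continuous_const)
  obtain ⟨R₁, hR₁, hR₁0, hN1⟩ : ∃ R₁ < R, 0 ≤ R₁ ∧ ∀ a ∈ K, ⟪w, a⟫ ≤ η → ‖a‖ ≤ R₁ := by
    rcases (K ∩ {a | ⟪w, a⟫ ≤ η}).eq_empty_or_nonempty with he | hne
    · refine ⟨0, hR0, le_rfl, fun a ha hwa => ?_⟩
      exact absurd (show a ∈ K ∩ {a | ⟪w, a⟫ ≤ η} from ⟨ha, hwa⟩) (by rw [he]; exact notMem_empty a)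
    · obtain ⟨z, hz, hmax⟩ := hN.exists_isMaxOn hne continuous_norm.continuousOn
      refine ⟨‖z‖, lt_of_le_of_ne (hR z hz.1) fun h => ?_, norm_nonneg _,
        fun a ha hwa => hmax (show a ∈ K ∩ {a | ⟪w, a⟫ ≤ η} from ⟨ha, hwa⟩)⟩
      have := hM z hz.1 h
      exact absurd hz.2 (not_le.2 this)
  obtain ⟨ε, hε0, hε1, hε2⟩ : ∃ ε : ℝ, 0 < ε ∧ ε * ‖w‖ ^ 2 ≤ η ∧ ε * ‖w‖ ≤ (R - R₁) / 2 := by
    have e1 : 0 < η / (‖w‖ ^ 2 + 1) := by positivity
    have e2 : 0 < (R - R₁) / 2 / (‖w‖ + 1) := by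
      have : 0 < R - R₁ := by linarith
      positivity
    refine ⟨min (η / (‖w‖ ^ 2 + 1)) ((R - R₁) / 2 / (‖w‖ + 1)), lt_min e1 e2, ?_, ?_⟩
    · calc min (η / (‖w‖ ^ 2 + 1)) ((R - R₁) / 2 / (‖w‖ + 1)) * ‖w‖ ^ 2
          ≤ η / (‖w‖ ^ 2 + 1) * (‖w‖ ^ 2 + 1) :=
            mul_le_mul (min_le_left _ _) (by linarith) (by positivity) e1.le
        _ = η := div_mul_cancel₀ _ (by positivity)
    · calc min (η / (‖w‖ ^ 2 + 1)) ((R - R₁) / 2 / (‖w‖ + 1)) * ‖w‖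
          ≤ (R - R₁) / 2 / (‖w‖ + 1) * (‖w‖ + 1) :=
            mul_le_mul (min_le_right _ _) (by linarith) (norm_nonneg _) e2.le
        _ = (R - R₁) / 2 := div_mul_cancel₀ _ (by positivity)
  set R₂ : ℝ := max (Real.sqrt (R ^ 2 - ε * η)) ((R + R₁) / 2) with hR₂
  have hεη : 0 < ε * η := mul_pos hε0 hη0
  have hlt : R₂ < R := by
    refine max_lt ?_ (by linarith)
    rw [Real.sqrt_lt' hR0]
    linarith
  have := hmin (ε • w) R₂ fun a ha => ?_
  · linarith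
  · rcases le_or_gt ⟪w, a⟫ η with h3 | h3
    · refine le_trans ?_ (le_max_right _ _)
      have h4 := hN1 a ha h3
      have h5 : ‖a - ε • w‖ ≤ ‖a‖ + ‖ε • w‖ := norm_sub_le _ _
      rw [norm_smul, Real.norm_of_nonneg hε0.le] at h5
      linarith
    · refine le_trans ?_ (le_max_left _ _)
      refine Real.le_sqrt_of_sq_le ?_
      rw [norm_sub_sq_real, inner_smul_right, real_inner_comm, norm_smul,
        Real.norm_of_nonneg hε0.le]
      have h4 : ‖a‖ ^ 2 ≤ R ^ 2 := pow_le_pow_left₀ (norm_nonneg _) (hR a ha) 2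
      have h5 : ε * η ≤ ε * ⟪w, a⟫ := mul_le_mul_of_nonneg_left h3.le hε0.le
      have h6 : (ε * ‖w‖) ^ 2 ≤ ε * η := by
        have : (ε * ‖w‖) ^ 2 = ε * (ε * ‖w‖ ^ 2) := by ring
        rw [this]
        exact mul_le_mul_of_nonneg_left hε1 hε0.le
      linarith

/-- Two contact points at an obtuse angle. -/
theorem pair_of_hull {n : ℕ} (hn : 1 ≤ n) (hV : Module.finrank ℝ V ≤ n) {M : Set V}
    (hM : IsCompact M) {r : ℝ} (hr : ∀ e ∈ M, ‖e‖ = r)
    (h0 : (0 : V) ∈ closure (convexHull ℝ M)) :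
    ∃ e ∈ M, ∃ e' ∈ M, ⟪e, e'⟫ ≤ -(r ^ 2) / n := by
  have hne : M.Nonempty := by
    by_contra hcon
    rw [Set.not_nonempty_iff_eq_empty] at hcon
    rw [hcon, convexHull_empty, closure_empty] at h0
    exact h0
  obtain ⟨e₀, he₀⟩ := hne
  have hr0 : 0 ≤ r := by rw [← hr e₀ he₀]; exact norm_nonneg _
  obtain ⟨q, hq, hmin⟩ := (hM.prod hM).exists_isMinOn ⟨(e₀, e₀), ⟨he₀, he₀⟩⟩
    ((by fun_prop : Continuous fun p : V × V => ⟪p.1, p.2⟫).continuousOn)
  have hm : ∀ e ∈ M, ∀ e' ∈ M, ⟪q.1, q.2⟫ ≤ ⟪e, e'⟫ := fun e he e' he' =>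
    hmin (show (e, e') ∈ M ×ˢ M from ⟨he, he'⟩)
  set m : ℝ := ⟪q.1, q.2⟫ with hmdef
  have hmr : m ≤ r ^ 2 := by
    have := hm e₀ he₀ e₀ he₀
    rwa [real_inner_self_eq_norm_sq, hr e₀ he₀] at this
  refine ⟨q.1, hq.1, q.2, hq.2, le_of_forall_pos_le_add fun ε hε => ?_⟩
  have hn0 : (0 : ℝ) < n := by exact_mod_cast hn
  set δ : ℝ := ε * n / (n + 1) with hδ
  have hδ0 : 0 < δ := by positivity
  have hε' : 0 < δ / (r + 1) := by positivity
  obtain ⟨p, hp, hp0⟩ := Metric.mem_closure_iff.1 h0 _ hε'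
  rw [dist_zero_left] at hp0
  obtain ⟨ι, hι, z, w, hz, haff, hw, hw1, hsum⟩ := eq_pos_convex_span_of_mem_convexHull hp
  have hcard : Fintype.card ι ≤ n + 1 := by
    have h1 := haff.card_le_finrank_succ
    have h4 := Submodule.finrank_le (vectorSpan ℝ (Set.range z))
    omega
  have hne' : Nonempty ι := by
    by_contra hcon
    rw [not_nonempty_iff] at hcon
    simp at hw1
  obtain ⟨i, hi⟩ : ∃ i, 1 / ((n : ℝ) + 1) ≤ w i := by
    by_contra hcon
    push Not at hcon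
    have h1 : ∑ i, w i < ∑ _i : ι, 1 / ((n : ℝ) + 1) :=
      Finset.sum_lt_sum_of_nonempty Finset.univ_nonempty fun i _ => hcon i
    rw [hw1, Finset.sum_const, Finset.card_univ, nsmul_eq_mul] at h1
    have h2 : (Fintype.card ι : ℝ) ≤ (n : ℝ) + 1 := by exact_mod_cast hcard
    have h3 : (Fintype.card ι : ℝ) * (1 / ((n : ℝ) + 1)) ≤ 1 := by
      rw [mul_one_div, div_le_one (by positivity)]
      exact h2
    linarith
  have hzM : ∀ j, z j ∈ M := fun j => hz ⟨j, rfl⟩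
  have h5 : ⟪z i, p⟫ = ∑ j, w j * ⟪z i, z j⟫ := by
    rw [← hsum, inner_sum]
    exact Finset.sum_congr rfl fun j _ => inner_smul_right _ _ _
  classical
  have h6 : m + w i * (r ^ 2 - m) ≤ ⟪z i, p⟫ := by
    have h7 : ∑ j, w j * (m + if j = i then r ^ 2 - m else 0)
        ≤ ∑ j, w j * ⟪z i, z j⟫ := by
      refine Finset.sum_le_sum fun j _ => mul_le_mul_of_nonneg_left ?_ (hw j).le
      by_cases hj : j = i
      · rw [if_pos hj, hj, real_inner_self_eq_norm_sq, hr _ (hzM i)]; linarith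
      · rw [if_neg hj, add_zero]; exact hm _ (hzM i) _ (hzM j)
    rw [← h5] at h7
    refine le_trans (le_of_eq ?_) h7
    simp only [mul_add, Finset.sum_add_distrib, mul_ite, mul_zero, Finset.sum_ite_eq',
      Finset.mem_univ, if_true]
    rw [← Finset.sum_mul, hw1, one_mul]
  have h8 : ⟪z i, p⟫ ≤ δ := by
    have h9 := real_inner_le_norm (z i) p
    rw [hr _ (hzM i)] at h9
    have h10 : r * ‖p‖ ≤ r * (δ / (r + 1)) := mul_le_mul_of_nonneg_left hp0.le hr0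
    have h11 : r * (δ / (r + 1)) ≤ δ := by
      rw [mul_div_assoc', div_le_iff₀ (by positivity)]
      nlinarith
    linarith
  have h12 : 1 / ((n : ℝ) + 1) * (r ^ 2 - m) ≤ w i * (r ^ 2 - m) :=
    mul_le_mul_of_nonneg_right hi (by linarith)
  have h13 : m + 1 / ((n : ℝ) + 1) * (r ^ 2 - m) ≤ ε * n / (n + 1) := by linarith
  have h14 : m * (n + 1) + (r ^ 2 - m) ≤ ε * n := by
    have e1 : m + 1 / ((n : ℝ) + 1) * (r ^ 2 - m) = (m * (n + 1) + (r ^ 2 - m)) / (n + 1) := by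
      field_simp
    rw [e1] at h13
    exact (div_le_div_iff_of_pos_right (by positivity)).1 h13
  rw [show -(r ^ 2) / (n : ℝ) + ε = (ε * n - r ^ 2) / n by field_simp; ring,
    le_div_iff₀ hn0]
  linarith

end Vale.Agent.P052.H487
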