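import Vale.Agent.P052.H487.Cover
import Mathlib.Analysis.SpecialFunctions.Complex.Arg

/-!
Borsuk's partition problem for sets with a rotation about a flat of codimension two.
-/

namespace Vale.Agent.P052.H487

open Metric Set
open scoped RealInnerProductSpace
open Vale.Agent.P052.H768 (zc zc_mem sp_mem sp_add_zc inner_zc inner_sp zc_sub norm_sq_split
  continuous_zc tr tr_compact tr_dist smallerCover_of)

/-- Polar coordinates with the angle in `[0, 2π)`. -/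
theorem exists_polar (a b : ℝ) : ∃ r θ : ℝ, 0 ≤ r ∧ r ^ 2 = a ^ 2 + b ^ 2 ∧ 0 ≤ θ ∧
    θ < 2 * Real.pi ∧ a = r * Real.cos θ ∧ b = r * Real.sin θ := by
  set z : ℂ := ⟨a, b⟩ with hz
  have h1 : ‖z‖ * Real.cos z.arg = a := Complex.norm_mul_cos_arg z
  have h2 : ‖z‖ * Real.sin z.arg = b := Complex.norm_mul_sin_arg z
  have h3 : ‖z‖ ^ 2 = a ^ 2 + b ^ 2 := by
    rw [← h1, ← h2]
    linear_combination (-‖z‖ ^ 2) * Real.sin_sq_add_cos_sq z.arg
  rcases le_or_gt 0 z.arg with h | h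
  · exact ⟨‖z‖, z.arg, norm_nonneg _, h3, h, by linarith [Complex.arg_le_pi z, Real.pi_pos],
      h1.symm, h2.symm⟩
  · refine ⟨‖z‖, z.arg + 2 * Real.pi, norm_nonneg _, h3, by linarith [Complex.neg_pi_lt_arg z],
      by linarith, ?_, ?_⟩
    · rw [Real.cos_add_two_pi, h1]
    · rw [Real.sin_add_two_pi, h2]

section
variable {V : Type*} [NormedAddCommGroup V] [InnerProductSpace ℝ V]

/-- The rotation by `θ` in the plane of the orthonormal vectors `e₁`, `e₂`. -/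
noncomputable def rt (e₁ e₂ : V) (θ : ℝ) (x : V) : V :=
  x + ((Real.cos θ - 1) * ⟪e₁, x⟫ - Real.sin θ * ⟪e₂, x⟫) • e₁ +
    (Real.sin θ * ⟪e₁, x⟫ + (Real.cos θ - 1) * ⟪e₂, x⟫) • e₂

variable {e₁ e₂ : V} (h₁ : ‖e₁‖ = 1) (h₂ : ‖e₂‖ = 1) (h₁₂ : ⟪e₁, e₂⟫ = 0)
include h₁ h₂ h₁₂

omit h₂ in
theorem inner_rt_left (θ : ℝ) (x : V) :
    ⟪e₁, rt e₁ e₂ θ x⟫ = Real.cos θ * ⟪e₁, x⟫ - Real.sin θ * ⟪e₂, x⟫ := by
  rw [rt, inner_add_right, inner_add_right, real_inner_smul_right, real_inner_smul_right,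
    real_inner_self_eq_norm_sq, h₁, h₁₂]
  ring

omit h₁ in
theorem inner_rt_right (θ : ℝ) (x : V) :
    ⟪e₂, rt e₁ e₂ θ x⟫ = Real.sin θ * ⟪e₁, x⟫ + Real.cos θ * ⟪e₂, x⟫ := by
  rw [rt, inner_add_right, inner_add_right, real_inner_smul_right, real_inner_smul_right,
    real_inner_self_eq_norm_sq, h₂, real_inner_comm e₁ e₂, h₁₂]
  ring

theorem rt_rt (θ η : ℝ) (x : V) : rt e₁ e₂ θ (rt e₁ e₂ η x) = rt e₁ e₂ (θ + η) x := by
  rw [rt, inner_rt_left h₁ h₁₂, inner_rt_right h₂ h₁₂, rt, rt, Real.cos_add, Real.sin_add]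
  match_scalars <;> ring

theorem dist_rt (θ : ℝ) (x y : V) :
    dist x (rt e₁ e₂ θ y) ^ 2 = dist x y ^ 2 + 2 * (⟪e₁, x⟫ * ⟪e₁, y⟫ + ⟪e₂, x⟫ * ⟪e₂, y⟫)
      - 2 * (⟪e₁, x⟫ * (Real.cos θ * ⟪e₁, y⟫ - Real.sin θ * ⟪e₂, y⟫) +
        ⟪e₂, x⟫ * (Real.sin θ * ⟪e₁, y⟫ + Real.cos θ * ⟪e₂, y⟫)) := by
  set a := ⟪e₁, x⟫ with ha
  set b := ⟪e₂, x⟫ with hb
  set a' := ⟪e₁, y⟫ with ha'
  set b' := ⟪e₂, y⟫ with hb'
  set p := (Real.cos θ - 1) * a' - Real.sin θ * b' with hp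
  set q := Real.sin θ * a' + (Real.cos θ - 1) * b' with hq
  have h21 : ⟪e₂, e₁⟫ = 0 := by rw [real_inner_comm]; exact h₁₂
  have h11 : ⟪e₁, e₁⟫ = 1 := by rw [real_inner_self_eq_norm_sq, h₁, one_pow]
  have h22 : ⟪e₂, e₂⟫ = 1 := by rw [real_inner_self_eq_norm_sq, h₂, one_pow]
  have h3 : x - rt e₁ e₂ θ y = (x - y) - (p • e₁ + q • e₂) := by
    rw [rt, hp, hq, ha', hb']
    abel
  have h4 : ⟪x - y, p • e₁ + q • e₂⟫ = p * (a - a') + q * (b - b') := by
    rw [inner_add_right, real_inner_smul_right, real_inner_smul_right, real_inner_comm,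
      real_inner_comm e₂, inner_sub_right, inner_sub_right]
  have h5 : ‖p • e₁ + q • e₂‖ ^ 2 = p ^ 2 + q ^ 2 := by
    rw [← real_inner_self_eq_norm_sq]
    simp only [inner_add_left, inner_add_right, real_inner_smul_left, real_inner_smul_right,
      h11, h22, h₁₂, h21]
    ring
  rw [dist_eq_norm, dist_eq_norm, h3, norm_sub_sq_real, h4, h5, hp, hq]
  have hc := Real.sin_sq_add_cos_sq θ
  linear_combination (a' ^ 2 + b' ^ 2) * hc

end

section
variable {V : Type*} [NormedAddCommGroup V] [InnerProductSpace ℝ V] [FiniteDimensional ℝ V]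

/-- Closed sectors. -/
theorem sector_cover (U : Submodule ℝ V) {K : Set V} (hK : IsCompact K) {D : ℝ}
    (hD : ∀ x ∈ K, ∀ y ∈ K, dist x y ≤ D) {N : ℕ}
    (P : Fin N → Set V) (hP : ∀ i, ∃ D' < D, ∀ x ∈ P i, ∀ y ∈ P i, dist x y ≤ D')
    (hcov : ∀ x ∈ K, zc U x = 0 → ∃ i, x ∈ P i)
    {e₁ e₂ : V} (h₁ : ‖e₁‖ = 1) (h₂ : ‖e₂‖ = 1) (h₁₂ : ⟪e₁, e₂⟫ = 0)
    (hzc : ∀ x, zc U x = ⟪e₁, x⟫ • e₁ + ⟪e₂, x⟫ • e₂)
    {φ : ℝ} (hφ0 : 0 < φ) {m : ℕ} (hm : 0 < m) (hφm : 2 * Real.pi / m + φ < Real.pi)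
    (hrot : ∀ x ∈ K, rt e₁ e₂ (2 * φ) x ∈ K) :
    ∃ C : Fin N ⊕ Fin m → Set V, K ⊆ ⋃ i, C i ∧
      ∃ D' < D, ∀ i, ∀ x ∈ C i, ∀ y ∈ C i, dist x y ≤ D' := by
  have hm0 : (0 : ℝ) < m := by exact_mod_cast hm
  have hpos : 0 < 2 * Real.pi / m := by positivity
  obtain ⟨B, D₀, hD₀, δ, hδ, hBo, hBD, hBδ⟩ := thick U hK P hP hcov
  obtain ⟨R₀, hR₀⟩ := hK.exists_bound_of_continuousOn (f := zc U) (continuous_zc U).continuousOn
  set R : Set V := K \ ⋃ i, B i with hR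
  have hRc : IsCompact R := hK.diff (isOpen_iUnion hBo)
  have hRK : ∀ x ∈ R, x ∈ K := fun x hx => hx.1
  have hRδ : ∀ x ∈ R, 0 < ‖zc U x‖ := fun x hx =>
    lt_of_lt_of_le hδ (hBδ x hx.1 fun i hi => hx.2 (mem_iUnion.2 ⟨i, hi⟩))
  set T : Fin m → Set V := fun k => (fun p : ℝ × ℝ => p.1 • ea e₁ e₂ p.2) ''
    (Icc 0 R₀ ×ˢ Icc (2 * Real.pi / m * (k : ℕ)) (2 * Real.pi / m * ((k : ℕ) + 1))) with hT
  have hTc : ∀ k, IsCompact (T k) := by
    intro k
    refine (isCompact_Icc.prod isCompact_Icc).image ?_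
    unfold ea
    fun_prop
  set Q : Fin m → Set V := fun k => {x | zc U x ∈ T k} with hQ
  have hQc : ∀ k, IsClosed (Q k) := fun k => (hTc k).isClosed.preimage (continuous_zc U)
  -- coordinates
  have hcoord : ∀ (x : V) (r α : ℝ), zc U x = r • ea e₁ e₂ α →
      ⟪e₁, x⟫ = r * Real.cos α ∧ ⟪e₂, x⟫ = r * Real.sin α := by
    intro x r α h
    have h21 : ⟪e₂, e₁⟫ = 0 := by rw [real_inner_comm]; exact h₁₂
    have h11 : ⟪e₁, e₁⟫ = 1 := by rw [real_inner_self_eq_norm_sq, h₁, one_pow]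
    have h22 : ⟪e₂, e₂⟫ = 1 := by rw [real_inner_self_eq_norm_sq, h₂, one_pow]
    rw [hzc, ea] at h
    constructor
    · have h3 := congrArg (fun z => ⟪e₁, z⟫) h
      simp only [inner_add_right, real_inner_smul_right, h11, h₁₂] at h3
      linarith
    · have h3 := congrArg (fun z => ⟪e₂, z⟫) h
      simp only [inner_add_right, real_inner_smul_right, h21, h22] at h3
      linarith
  have hfar1 : ∀ x ∈ R, ∀ y ∈ R, ∀ r s α β : ℝ, 0 < r → 0 < s → zc U x = r • ea e₁ e₂ α →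
      zc U y = s • ea e₁ e₂ β → α ≤ β → β - α ≤ 2 * Real.pi / m → dist x y = D → False := by
    intro x hx y hy r s α β hr hs hxe hye hαβ hβα hd
    obtain ⟨hx1, hx2⟩ := hcoord x r α hxe
    obtain ⟨hy1, hy2⟩ := hcoord y s β hye
    have h3 := dist_rt h₁ h₂ h₁₂ (2 * φ) x y
    have h4 : dist x (rt e₁ e₂ (2 * φ) y) ^ 2 ≤ D ^ 2 := by
      have := hD x (hRK x hx) _ (hrot y (hRK y hy))
      gcongr
    rw [h3, hd, hx1, hx2, hy1, hy2] at h4
    have h5 : r * s * (Real.cos (β - α) - Real.cos (β - α + 2 * φ)) ≤ 0 := by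
      have e1 : Real.cos (β - α) = Real.cos β * Real.cos α + Real.sin β * Real.sin α :=
        Real.cos_sub β α
      have e2 : Real.cos (β - α + 2 * φ) =
          (Real.cos β * Real.cos α + Real.sin β * Real.sin α) * Real.cos (2 * φ) -
          (Real.sin β * Real.cos α - Real.cos β * Real.sin α) * Real.sin (2 * φ) := by
        rw [Real.cos_add, Real.cos_sub, Real.sin_sub]
      rw [e1, e2]
      nlinarith
    have h6 : Real.cos (β - α) - Real.cos (β - α + 2 * φ) =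
        2 * Real.sin (β - α + φ) * Real.sin φ := by
      rw [Real.cos_sub_cos]
      have e1 : (β - α + (β - α + 2 * φ)) / 2 = β - α + φ := by ring
      have e2 : (β - α - (β - α + 2 * φ)) / 2 = -φ := by ring
      rw [e1, e2, Real.sin_neg]
      ring
    have h7 : 0 < Real.sin (β - α + φ) :=
      Real.sin_pos_of_pos_of_lt_pi (by linarith) (by linarith)
    have h8 : 0 < Real.sin φ := Real.sin_pos_of_pos_of_lt_pi hφ0 (by linarith)
    rw [h6] at h5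
    have h9 : 0 < r * s * (2 * Real.sin (β - α + φ) * Real.sin φ) := by positivity
    linarith
  have hfar : ∀ k, ∀ x ∈ R, ∀ y ∈ R, x ∈ Q k → y ∈ Q k → dist x y < D := by
    intro k x hx y hy hxk hyk
    refine lt_of_le_of_ne (hD x (hRK x hx) y (hRK y hy)) fun hd => ?_
    obtain ⟨⟨r, α⟩, ⟨hr, hα⟩, hxe⟩ := hxk
    obtain ⟨⟨s, β⟩, ⟨hs, hβ⟩, hye⟩ := hyk
    simp only at hr hα hxe hs hβ hye
    have hr0 : 0 < r := by
      refine lt_of_le_of_ne hr.1 fun h => ?_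
      have := hRδ x hx
      rw [← hxe, ← h, zero_smul, norm_zero] at this
      exact lt_irrefl _ this
    have hs0 : 0 < s := by
      refine lt_of_le_of_ne hs.1 fun h => ?_
      have := hRδ y hy
      rw [← hye, ← h, zero_smul, norm_zero] at this
      exact lt_irrefl _ this
    rcases le_total α β with h | h
    · exact hfar1 x hx y hy r s α β hr0 hs0 hxe.symm hye.symm h
        (by linarith [hα.1, hβ.2]) hd
    · exact hfar1 y hy x hx s r β α hs0 hr0 hye.symm hxe.symm h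
        (by linarith [hβ.1, hα.2]) (by rw [dist_comm]; exact hd)
  obtain ⟨D₂, hD₂, hD₂'⟩ : ∃ D₂ < D, ∀ p, ∀ x ∈ R ∩ Q p, ∀ y ∈ R ∩ Q p, dist x y ≤ D₂ := by
    set T' : Set (V × V) := ⋃ p, (R ∩ Q p) ×ˢ (R ∩ Q p) with hT'
    have hTc : IsCompact T' := isCompact_iUnion fun p =>
      (hRc.inter_right (hQc p)).prod (hRc.inter_right (hQc p))
    rcases T'.eq_empty_or_nonempty with hem | hne
    · refine ⟨D - 1, by linarith, fun p x hx y hy => ?_⟩
      have : (x, y) ∈ T' := mem_iUnion.2 ⟨p, hx, hy⟩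
      rw [hem] at this
      exact absurd this (by simp)
    · obtain ⟨q, hq, hmax⟩ := hTc.exists_isMaxOn hne
        (continuous_dist.continuousOn : ContinuousOn (fun p : V × V => dist p.1 p.2) T')
      refine ⟨dist q.1 q.2, ?_, fun p x hx y hy => ?_⟩
      · obtain ⟨p, hp⟩ := mem_iUnion.1 hq
        exact hfar p q.1 hp.1.1 q.2 hp.2.1 hp.1.2 hp.2.2
      · have : (x, y) ∈ T' := mem_iUnion.2 ⟨p, hx, hy⟩
        exact hmax this
  refine ⟨Sum.elim B fun p => R ∩ Q p, ?_, max D₀ D₂, max_lt hD₀ hD₂, ?_⟩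
  · intro x hx
    by_cases h : ∃ i, x ∈ B i
    · obtain ⟨i, hi⟩ := h
      exact mem_iUnion.2 ⟨Sum.inl i, hi⟩
    · have hxR : x ∈ R := ⟨hx, fun h' => h (mem_iUnion.1 h')⟩
      obtain ⟨r, θ, hr0, hr2, hθ0, hθ1, ha, hb⟩ := exists_polar ⟪e₁, x⟫ ⟪e₂, x⟫
      set k : ℕ := ⌊θ / (2 * Real.pi / m)⌋₊ with hk
      have hk1 : (k : ℝ) ≤ θ / (2 * Real.pi / m) := Nat.floor_le (by positivity)
      have hk2 : θ / (2 * Real.pi / m) < k + 1 := Nat.lt_floor_add_one _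
      rw [le_div_iff₀ hpos] at hk1
      rw [div_lt_iff₀ hpos] at hk2
      have hkm : k < m := by
        have h1 : (k : ℝ) * (2 * Real.pi / m) < m * (2 * Real.pi / m) := by
          have : (m : ℝ) * (2 * Real.pi / m) = 2 * Real.pi := by field_simp
          linarith
        have h2 : (k : ℝ) < m := lt_of_mul_lt_mul_right h1 hpos.le
        exact_mod_cast h2
      have hzx : zc U x = r • ea e₁ e₂ θ := by
        rw [hzc, ha, hb, ea, smul_add, smul_smul, smul_smul]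
      have hrn : ‖zc U x‖ = r := by
        have h21 : ⟪e₂, e₁⟫ = 0 := by rw [real_inner_comm]; exact h₁₂
        have h11 : ⟪e₁, e₁⟫ = 1 := by rw [real_inner_self_eq_norm_sq, h₁, one_pow]
        have h22 : ⟪e₂, e₂⟫ = 1 := by rw [real_inner_self_eq_norm_sq, h₂, one_pow]
        have h3 : ‖zc U x‖ ^ 2 = r ^ 2 := by
          rw [hzc, ← real_inner_self_eq_norm_sq, hr2]
          simp only [inner_add_left, inner_add_right, real_inner_smul_left, real_inner_smul_right,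
            h11, h22, h₁₂, h21]
          ring
        exact (pow_left_inj₀ (norm_nonneg _) hr0 two_ne_zero).1 h3
      have hrR : r ≤ R₀ := by
        rw [← hrn]
        exact hR₀ x hx
      refine mem_iUnion.2 ⟨Sum.inr ⟨k, hkm⟩, hxR, (r, θ), ⟨⟨hr0, hrR⟩, ?_, ?_⟩, hzx.symm⟩
      · simpa [mul_comm] using hk1
      · simp only
        linarith
  · rintro (i | p) x hx y hy
    · exact (hBD i x hx y hy).trans (le_max_left _ _)
    · exact (hD₂' p x hx y hy).trans (le_max_right _ _)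

end

end Vale.Agent.P052.H487
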