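import Vale.Agent.P052.H487.Main
import Vale.Agent.P052.H487.Rot
import Vale.Agent.P052.H487.Hull
import Mathlib.Analysis.SpecialFunctions.Trigonometric.Bounds

/-!
Eight parts in dimension four: two contact points of the smallest ball, three caps and five
sectors.
-/

namespace Vale.Agent.P052.H487

open Metric Set
open scoped RealInnerProductSpace

/-- The polynomial inequality for a pair of points in a sector, outside the caps. -/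
def Good (hi k tm tl m₀ wc ws H hb : ℝ) : Prop :=
  ∀ a b s a' b' s' : ℝ, s ≤ hi → wc * a + ws * b ≤ H → wc * a - ws * b ≤ H → -hb ≤ a →
    (a ≤ m₀ → s ≤ k + tm * a - tl * b ∧ s ≤ k + tm * a + tl * b) → a ^ 2 + b ^ 2 ≤ s →
    s' ≤ hi → wc * a' + ws * b' ≤ H → wc * a' - ws * b' ≤ H → -hb ≤ a' →
    (a' ≤ m₀ → s' ≤ k + tm * a' - tl * b' ∧ s' ≤ k + tm * a' + tl * b') → a' ^ 2 + b' ^ 2 ≤ s' →
    s + 2 / 5 * s' + 3 / 5 * (a' ^ 2 + b' ^ 2) - 2 * (a * a') - 2 * (b * b') ≤ 1 - 1 / 1000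

theorem cos_two_pi_div_five : 3 / 10 ≤ Real.cos (2 * Real.pi / 5) := by
  have h : Real.cos (2 * Real.pi / 5) = 2 * Real.cos (Real.pi / 5) ^ 2 - 1 := by
    rw [← Real.cos_two_mul]
    congr 1
    ring
  rw [h, Real.cos_pi_div_five]
  have h5 : (11 / 5 : ℝ) ≤ √5 := Real.le_sqrt_of_sq_le (by norm_num)
  have h6 : √5 ^ 2 = (5 : ℝ) := Real.sq_sqrt (by norm_num)
  nlinarith

variable {V : Type*} [NormedAddCommGroup V] [InnerProductSpace ℝ V] [FiniteDimensional ℝ V]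

/-- Coordinates. -/
theorem exists_frame (hV : Module.finrank ℝ V = 4) {e₁ e₂ : V} (h₁ : ‖e₁‖ = 1) (h₂ : ‖e₂‖ = 1)
    (h₁₂ : ⟪e₁, e₂⟫ = 0) : ∃ f₁ f₂ : V, ∀ y z : V, ⟪y, z⟫ =
      ⟪e₁, y⟫ * ⟪e₁, z⟫ + ⟪e₂, y⟫ * ⟪e₂, z⟫ + (⟪f₁, y⟫ * ⟪f₁, z⟫ + ⟪f₂, y⟫ * ⟪f₂, z⟫) := by
  set U : Submodule ℝ V := Submodule.span ℝ {e₁, e₂} with hU
  have h21 : ⟪e₂, e₁⟫ = 0 := by rw [real_inner_comm]; exact h₁₂
  have h11 : ⟪e₁, e₁⟫ = 1 := by rw [real_inner_self_eq_norm_sq, h₁, one_pow]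
  have h22 : ⟪e₂, e₂⟫ = 1 := by rw [real_inner_self_eq_norm_sq, h₂, one_pow]
  have hind : LinearIndependent ℝ ![e₁, e₂] := by
    rw [LinearIndependent.pair_iff]
    intro s t hst
    have e1 := congrArg (fun v => ⟪e₁, v⟫) hst
    have e2 := congrArg (fun v => ⟪e₂, v⟫) hst
    simp only [inner_add_right, inner_smul_right, h11, h22, h₁₂, h21, inner_zero_right, mul_one,
      mul_zero, add_zero, zero_add] at e1 e2
    exact ⟨e1, e2⟩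
  have hfr : Module.finrank ℝ U = 2 := by
    have h := finrank_span_eq_card hind
    rw [Matrix.range_cons, Matrix.range_cons, Matrix.range_empty, union_empty] at h
    rw [hU, show ({e₁, e₂} : Set V) = {e₁} ∪ {e₂} from rfl, h]
    simp
  have hW : Module.finrank ℝ Uᗮ = 2 := by
    have h6 := Submodule.finrank_add_finrank_orthogonal U
    rw [hfr, hV] at h6
    omega
  obtain ⟨f, hfW, -, -, -, hfi⟩ := exists_basis Uᗮ hW
  have hmem : ∀ y : V, y - ⟪e₁, y⟫ • e₁ - ⟪e₂, y⟫ • e₂ ∈ Uᗮ := by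
    intro y
    rw [Submodule.mem_orthogonal]
    intro u hu
    obtain ⟨s, t, rfl⟩ := Submodule.mem_span_pair.1 hu
    simp only [inner_sub_right, inner_add_left, real_inner_smul_left, inner_smul_right, h11, h22,
      h₁₂, h21]
    ring
  have hf1 : ∀ i, ⟪f i, e₁⟫ = 0 := fun i => by
    rw [real_inner_comm]
    exact (Submodule.mem_orthogonal _ _).1 (hfW i) _ (Submodule.subset_span (by simp))
  have hf2 : ∀ i, ⟪f i, e₂⟫ = 0 := fun i => by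
    rw [real_inner_comm]
    exact (Submodule.mem_orthogonal _ _).1 (hfW i) _ (Submodule.subset_span (by simp))
  have hfy : ∀ i y, ⟪f i, y - ⟪e₁, y⟫ • e₁ - ⟪e₂, y⟫ • e₂⟫ = ⟪f i, y⟫ := fun i y => by
    rw [inner_sub_right, inner_sub_right, inner_smul_right, inner_smul_right, hf1, hf2]
    ring
  refine ⟨f 0, f 1, fun y z => ?_⟩
  have h := hfi _ (hmem y) _ (hmem z)
  rw [Fin.sum_univ_two, hfy, hfy, hfy, hfy] at h
  rw [← h]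
  simp only [inner_sub_left, inner_sub_right, real_inner_smul_left, inner_smul_right, h11, h22,
    h₁₂, h21, real_inner_comm e₁ y, real_inner_comm e₂ y]
  rw [real_inner_comm y e₁, real_inner_comm y e₂] 
  ring

/-- The constraint given by the contact points, relaxed to the corner of the box. -/
theorem con_scalar {m l m₀ l₀ a b s : ℝ} (hl0 : 0 < l₀) (hmm : m₀ ≤ m) (hll : l₀ ≤ l)
    (ha : a ≤ m₀) (h1 : s - 2 * (m * a + l * b) + (m ^ 2 + l ^ 2) ≤ 1)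
    (h2 : s - 2 * (m * a - l * b) + (m ^ 2 + l ^ 2) ≤ 1) :
    s ≤ 1 - m₀ ^ 2 - l₀ ^ 2 + 2 * m₀ * a - 2 * l₀ * b ∧
      s ≤ 1 - m₀ ^ 2 - l₀ ^ 2 + 2 * m₀ * a + 2 * l₀ * b := by
  have h3 : 0 ≤ (m - m₀) * (m + m₀ - 2 * a) := mul_nonneg (by linarith) (by linarith)
  rcases le_total 0 b with h | h
  · have h5 : 0 ≤ (l - l₀) * (l + l₀ + 2 * b) := mul_nonneg (by linarith) (by linarith)
    have h6 : 0 ≤ l₀ * b := mul_nonneg hl0.le h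
    constructor <;> linarith
  · have h5 : 0 ≤ (l - l₀) * (l + l₀ - 2 * b) := mul_nonneg (by linarith) (by linarith)
    have h6 : 0 ≤ l₀ * -b := mul_nonneg hl0.le (by linarith)
    constructor <;> linarith

/-- The last step for a pair in a sector. -/
theorem pair_scalar {s s' a b a' b' z₁ z₂ r r' c q : ℝ} (hr' : 0 ≤ r') (hrr : r' ≤ r)
    (hc : 3 / 10 ≤ c) (hr2' : r' ^ 2 = z₁ ^ 2 + z₂ ^ 2)
    (hs' : s' = a' * a' + b' * b' + (z₁ * z₁ + z₂ * z₂)) (hq : q = r * r' * c)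
    (g : s + 2 / 5 * s' + 3 / 5 * (a' ^ 2 + b' ^ 2) - 2 * (a * a') - 2 * (b * b')
      ≤ 1 - 1 / 1000) : s - 2 * (a * a' + b * b' + q) + s' ≤ 1 - 1 / 1000 := by
  have h3 : r' * r' ≤ r * r' := mul_le_mul_of_nonneg_right hrr hr'
  have h4 : 0 ≤ r' * r' := mul_nonneg hr' hr'
  have h5 : r * r' * (3 / 10) ≤ r * r' * c := mul_le_mul_of_nonneg_left hc (by linarith)
  have h6 : r' * r' = z₁ ^ 2 + z₂ ^ 2 := by rw [← hr2']; ring
  linarith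

omit [FiniteDimensional ℝ V] in
/-- Points in a half-space beyond the radius of a cap. -/
theorem cap_pair {hi N H : ℝ} (hN : 0 < N) (hH : 0 ≤ H)
    (hcap : 4 * hi * N - 4 * H ^ 2 ≤ (1 - 1 / 1000) * N) {w y z : V} (hw : ‖w‖ ^ 2 = N)
    (hy : ‖y‖ ^ 2 ≤ hi) (hz : ‖z‖ ^ 2 ≤ hi) (hwy : H ≤ ⟪w, y⟫) (hwz : H ≤ ⟪w, z⟫) :
    ‖y - z‖ ^ 2 ≤ 1 - 1 / 1000 := by
  have h1 : ‖y - z‖ ^ 2 = 2 * ‖y‖ ^ 2 + 2 * ‖z‖ ^ 2 - ‖y + z‖ ^ 2 := by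
    rw [norm_sub_sq_real, norm_add_sq_real]
    ring
  have h2 : 2 * H ≤ ⟪w, y + z⟫ := by
    rw [inner_add_right]
    linarith
  have h3 : (2 * H) ^ 2 ≤ N * ‖y + z‖ ^ 2 := by
    have h4 := real_inner_mul_inner_self_le w (y + z)
    rw [real_inner_self_eq_norm_sq, real_inner_self_eq_norm_sq, hw] at h4
    have h5 : (2 * H) ^ 2 ≤ ⟪w, y + z⟫ ^ 2 := pow_le_pow_left₀ (by positivity) h2 2
    nlinarith
  have h6 : N * ‖y - z‖ ^ 2 ≤ N * (1 - 1 / 1000) := by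
    rw [h1]
    nlinarith
  exact le_of_mul_le_mul_left h6 hN

/-- **Eight parts**, normalised. -/
theorem eight_norm (hV : Module.finrank ℝ V = 4) {lo hi k tm tl m₀ l₀ wc ws H hb ρ : ℝ}
    (hG : Good hi k tm tl m₀ wc ws H hb) (hm0 : 0 < m₀) (hl0 : 0 < l₀)
    (hml : m₀ ^ 2 ≤ lo - 1 / 4) (hll : l₀ ^ 2 ≤ 5 * lo / 8) (hk : k = 1 - m₀ ^ 2 - l₀ ^ 2)
    (htm : tm = 2 * m₀) (htl : tl = 2 * l₀) (hN : 0 < wc ^ 2 + ws ^ 2) (hH : 0 ≤ H)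
    (hcap : 4 * hi * (wc ^ 2 + ws ^ 2) - 4 * H ^ 2 ≤ (1 - 1 / 1000) * (wc ^ 2 + ws ^ 2))
    (hb0 : 0 ≤ hb) (hcap3 : 4 * hi * 1 - 4 * hb ^ 2 ≤ (1 - 1 / 1000) * 1)
    (hlo : lo ≤ ρ) (hhi : ρ ≤ hi) {S : Set V} {P₁ P₂ : V} (hP1 : ‖P₁‖ ^ 2 = ρ)
    (hP2 : ‖P₂‖ ^ 2 = ρ) (hP : ⟪P₁, P₂⟫ ≤ -ρ / 4) (hP12 : ‖P₁ - P₂‖ ≤ 1)
    (hS : ∀ y ∈ S, ‖y‖ ^ 2 ≤ ρ) (hS1 : ∀ y ∈ S, ‖y - P₁‖ ≤ 1) (hS2 : ∀ y ∈ S, ‖y - P₂‖ ≤ 1) :
    ∃ C : Fin 3 ⊕ Fin 5 → Set V, (∀ y ∈ S, ∃ i, y ∈ C i) ∧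
      ∀ i, ∀ y ∈ C i, ∀ z ∈ C i, ‖y - z‖ ^ 2 ≤ 1 - 1 / 1000 := by
  -- the frame
  set M : V := (1 / 2 : ℝ) • (P₁ + P₂) with hM
  set L : V := (1 / 2 : ℝ) • (P₁ - P₂) with hL
  have hMn : ‖M‖ ^ 2 = (ρ + ⟪P₁, P₂⟫) / 2 := by
    rw [hM, norm_smul, mul_pow, norm_add_sq_real, hP1, hP2]
    norm_num
    ring
  have hLn : ‖L‖ ^ 2 = (ρ - ⟪P₁, P₂⟫) / 2 := by
    rw [hL, norm_smul, mul_pow, norm_sub_sq_real, hP1, hP2]
    norm_num
    ring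
  have hML : ⟪M, L⟫ = 0 := by
    rw [hM, hL, real_inner_smul_left, inner_smul_right, inner_add_left, inner_sub_right,
      inner_sub_right, real_inner_self_eq_norm_sq, real_inner_self_eq_norm_sq, hP1, hP2,
      real_inner_comm P₁ P₂]
    ring
  set m : ℝ := ‖M‖ with hm
  set l : ℝ := ‖L‖ with hl
  have hl1 : l ≤ 1 / 2 := by
    rw [hl, hL, norm_smul]
    norm_num
    linarith
  have hl2 : l ^ 2 ≤ 1 / 4 := by nlinarith [norm_nonneg L]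
  have hll' : l₀ ≤ l := by
    refine le_of_sq_le_sq ?_ (norm_nonneg _)
    rw [hLn]
    linarith
  have hmm : m₀ ≤ m := by
    refine le_of_sq_le_sq ?_ (norm_nonneg _)
    have : m ^ 2 = ρ - l ^ 2 := by rw [hMn, hLn]; ring
    rw [this]
    linarith
  have hmpos : 0 < m := lt_of_lt_of_le hm0 hmm
  have hlpos : 0 < l := lt_of_lt_of_le hl0 hll'
  have hρ : m ^ 2 + l ^ 2 = ρ := by rw [hMn, hLn]; ring
  obtain ⟨e₁, he1⟩ : ∃ e : V, e = m⁻¹ • M := ⟨_, rfl⟩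
  obtain ⟨e₂, he2⟩ : ∃ e : V, e = l⁻¹ • L := ⟨_, rfl⟩
  have h₁ : ‖e₁‖ = 1 := by
    rw [he1, norm_smul, norm_inv, Real.norm_of_nonneg hmpos.le, ← hm, inv_mul_cancel₀ hmpos.ne']
  have h₂ : ‖e₂‖ = 1 := by
    rw [he2, norm_smul, norm_inv, Real.norm_of_nonneg hlpos.le, ← hl, inv_mul_cancel₀ hlpos.ne']
  have h₁₂ : ⟪e₁, e₂⟫ = 0 := by
    rw [he1, he2, real_inner_smul_left, inner_smul_right, hML]
    ring
  have hMe : M = m • e₁ := by rw [he1, smul_smul, mul_inv_cancel₀ hmpos.ne', one_smul]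
  have hLe : L = l • e₂ := by rw [he2, smul_smul, mul_inv_cancel₀ hlpos.ne', one_smul]
  have hP1e : P₁ = m • e₁ + l • e₂ := by
    rw [← hMe, ← hLe, hM, hL]
    module
  have hP2e : P₂ = m • e₁ - l • e₂ := by
    rw [← hMe, ← hLe, hM, hL]
    module
  obtain ⟨f₁, f₂, hf⟩ := exists_frame hV h₁ h₂ h₁₂
  -- the constraints
  have hcon : ∀ y ∈ S, ⟪e₁, y⟫ ≤ m₀ → ‖y‖ ^ 2 ≤ k + tm * ⟪e₁, y⟫ - tl * ⟪e₂, y⟫ ∧
      ‖y‖ ^ 2 ≤ k + tm * ⟪e₁, y⟫ + tl * ⟪e₂, y⟫ := by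
    intro y hy ha
    have h1 : ‖y - P₁‖ ^ 2 ≤ 1 := by
      have := pow_le_pow_left₀ (norm_nonneg _) (hS1 y hy) 2
      simpa using this
    have h2 : ‖y - P₂‖ ^ 2 ≤ 1 := by
      have := pow_le_pow_left₀ (norm_nonneg _) (hS2 y hy) 2
      simpa using this
    have i1 : ⟪y, P₁⟫ = m * ⟪e₁, y⟫ + l * ⟪e₂, y⟫ := by
      rw [hP1e, inner_add_right, inner_smul_right, inner_smul_right, real_inner_comm e₁ y,
        real_inner_comm e₂ y]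
    have i2 : ⟪y, P₂⟫ = m * ⟪e₁, y⟫ - l * ⟪e₂, y⟫ := by
      rw [hP2e, inner_sub_right, inner_smul_right, inner_smul_right, real_inner_comm e₁ y,
        real_inner_comm e₂ y]
    rw [norm_sub_sq_real, hP1, i1, ← hρ] at h1
    rw [norm_sub_sq_real, hP2, i2, ← hρ] at h2
    have h3 := con_scalar hl0 hmm hll' ha h1 h2
    rw [hk, htm, htl]
    exact h3
  -- the pieces
  let T : Set V := {y | y ∈ S ∧ wc * ⟪e₁, y⟫ + ws * ⟪e₂, y⟫ ≤ H ∧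
    wc * ⟪e₁, y⟫ - ws * ⟪e₂, y⟫ ≤ H ∧ -hb ≤ ⟪e₁, y⟫}
  let w : Fin 3 → V := ![wc • e₁ + ws • e₂, wc • e₁ - ws • e₂, -e₁]
  let h : Fin 3 → ℝ := ![H, H, hb]
  refine ⟨Sum.elim (fun i => {y | y ∈ S ∧ h i ≤ ⟪w i, y⟫}) (fun j => {y | y ∈ T ∧ ∃ r θ : ℝ,
    0 ≤ r ∧ r ^ 2 = ⟪f₁, y⟫ ^ 2 + ⟪f₂, y⟫ ^ 2 ∧ 2 * Real.pi / 5 * (j : ℕ) ≤ θ ∧
    θ ≤ 2 * Real.pi / 5 * ((j : ℕ) + 1) ∧ ⟪f₁, y⟫ = r * Real.cos θ ∧
    ⟪f₂, y⟫ = r * Real.sin θ}), fun y hy => ?_, ?_⟩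
  · by_cases hT : y ∈ T
    · obtain ⟨r, θ, hr0, hr2, hθ0, hθ1, hc, hs⟩ := exists_polar ⟪f₁, y⟫ ⟪f₂, y⟫
      have hpos : 0 < 2 * Real.pi / 5 := by positivity
      set j : ℕ := ⌊θ / (2 * Real.pi / 5)⌋₊ with hj
      have hk1 : (j : ℝ) ≤ θ / (2 * Real.pi / 5) := Nat.floor_le (by positivity)
      have hk2 : θ / (2 * Real.pi / 5) < j + 1 := Nat.lt_floor_add_one _
      rw [le_div_iff₀ hpos] at hk1
      rw [div_lt_iff₀ hpos] at hk2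
      have hk5 : j < 5 := by
        have h1 : (j : ℝ) * (2 * Real.pi / 5) < 5 * (2 * Real.pi / 5) := by linarith
        have h2 : (j : ℝ) < 5 := lt_of_mul_lt_mul_right h1 hpos.le
        exact_mod_cast h2
      refine ⟨Sum.inr ⟨j, hk5⟩, hT, r, θ, hr0, hr2, ?_, ?_, hc, hs⟩
      · simp only
        linarith
      · simp only
        linarith
    · have hT' : ¬(wc * ⟪e₁, y⟫ + ws * ⟪e₂, y⟫ ≤ H ∧
          wc * ⟪e₁, y⟫ - ws * ⟪e₂, y⟫ ≤ H ∧ -hb ≤ ⟪e₁, y⟫) := fun h => hT ⟨hy, h⟩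
      by_cases c1 : wc * ⟪e₁, y⟫ + ws * ⟪e₂, y⟫ ≤ H
      · by_cases c2 : wc * ⟪e₁, y⟫ - ws * ⟪e₂, y⟫ ≤ H
        · have c3 : ¬ -hb ≤ ⟪e₁, y⟫ := fun c3 => hT' ⟨c1, c2, c3⟩
          refine ⟨Sum.inl 2, hy, ?_⟩
          show hb ≤ ⟪-e₁, y⟫
          rw [inner_neg_left]
          have := not_le.1 c3
          linarith
        · refine ⟨Sum.inl 1, hy, ?_⟩
          show H ≤ ⟪wc • e₁ - ws • e₂, y⟫
          rw [inner_sub_left, real_inner_smul_left e₁ y wc, real_inner_smul_left e₂ y ws]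
          exact (not_le.1 c2).le
      · refine ⟨Sum.inl 0, hy, ?_⟩
        show H ≤ ⟪wc • e₁ + ws • e₂, y⟫
        rw [inner_add_left, real_inner_smul_left e₁ y wc, real_inner_smul_left e₂ y ws]
        exact (not_le.1 c1).le
  · rintro (i | j)
    · have hw12 : ‖wc • e₁ + ws • e₂‖ ^ 2 = wc ^ 2 + ws ^ 2 := by
        rw [norm_add_sq_real, norm_smul, norm_smul, h₁, h₂, real_inner_smul_left,
          inner_smul_right, h₁₂]
        simp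
      have hw12' : ‖wc • e₁ - ws • e₂‖ ^ 2 = wc ^ 2 + ws ^ 2 := by
        rw [norm_sub_sq_real, norm_smul, norm_smul, h₁, h₂, real_inner_smul_left,
          inner_smul_right, h₁₂]
        simp
      rintro y ⟨hy, hyw⟩ z ⟨hz, hzw⟩
      have hy2 := (hS y hy).trans hhi
      have hz2 := (hS z hz).trans hhi
      fin_cases i
      · exact cap_pair hN hH hcap hw12 hy2 hz2 hyw hzw
      · exact cap_pair hN hH hcap hw12' hy2 hz2 hyw hzw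
      · exact cap_pair one_pos hb0 hcap3 (w := -e₁) (by rw [norm_neg, h₁, one_pow]) hy2 hz2
          hyw hzw
    · -- a pair in a sector, ordered by the distance to the plane
      have key : ∀ y ∈ T, ∀ z ∈ T, ∀ r θ r' θ' : ℝ, 0 ≤ r' → r' ≤ r →
          r ^ 2 = ⟪f₁, y⟫ ^ 2 + ⟪f₂, y⟫ ^ 2 → r' ^ 2 = ⟪f₁, z⟫ ^ 2 + ⟪f₂, z⟫ ^ 2 →
          |θ - θ'| ≤ 2 * Real.pi / 5 → ⟪f₁, y⟫ = r * Real.cos θ → ⟪f₂, y⟫ = r * Real.sin θ →
          ⟪f₁, z⟫ = r' * Real.cos θ' → ⟪f₂, z⟫ = r' * Real.sin θ' →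
          ‖y - z‖ ^ 2 ≤ 1 - 1 / 1000 := by
        intro y hy z hz r θ r' θ' hr'0 hrr hr2 hr2' hθ hc hs hc' hs'
        have g := hG ⟪e₁, y⟫ ⟪e₂, y⟫ (‖y‖ ^ 2) ⟪e₁, z⟫ ⟪e₂, z⟫ (‖z‖ ^ 2)
          ((hS y hy.1).trans hhi) hy.2.1 hy.2.2.1 hy.2.2.2 (hcon y hy.1) ?_
          ((hS z hz.1).trans hhi) hz.2.1 hz.2.2.1 hz.2.2.2 (hcon z hz.1) ?_
        · have hyy := hf y z
          have hzz := hf z z
          rw [real_inner_self_eq_norm_sq] at hzz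
          have hcos : 3 / 10 ≤ Real.cos (θ - θ') := by
            rw [← Real.cos_abs]
            exact cos_two_pi_div_five.trans
              (Real.cos_le_cos_of_nonneg_of_le_pi (abs_nonneg _) (by linarith [Real.pi_pos]) hθ)
          have h1 : ⟪f₁, y⟫ * ⟪f₁, z⟫ + ⟪f₂, y⟫ * ⟪f₂, z⟫ = r * r' * Real.cos (θ - θ') := by
            rw [hc, hs, hc', hs', Real.cos_sub]
            ring
          rw [norm_sub_sq_real, hyy]
          exact pair_scalar hr'0 hrr hcos hr2' hzz h1 g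
        · have hyy := hf y y
          rw [real_inner_self_eq_norm_sq] at hyy
          linarith [mul_self_nonneg ⟪f₁, y⟫, mul_self_nonneg ⟪f₂, y⟫]
        · have hzz := hf z z
          rw [real_inner_self_eq_norm_sq] at hzz
          linarith [mul_self_nonneg ⟪f₁, z⟫, mul_self_nonneg ⟪f₂, z⟫]
      rintro y ⟨hy, r, θ, hr0, hr2, ht1, ht2, hc, hs⟩ z ⟨hz, r', θ', hr0', hr2', ht1', ht2', hc', hs'⟩
      have hθ : |θ - θ'| ≤ 2 * Real.pi / 5 := by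
        rw [abs_le]
        constructor <;> linarith
      rcases le_total r' r with hrr | hrr
      · exact key y hy z hz r θ r' θ' hr0' hrr hr2 hr2' hθ hc hs hc' hs'
      · rw [norm_sub_rev]
        exact key z hz y hy r' θ' r θ hr0 hrr hr2' hr2 (by rwa [abs_sub_comm]) hc' hs' hc hs

end Vale.Agent.P052.H487
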