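import Vale.Agent.P052.H487.Eight
import Vale.Agent.P052.H487.Box1
import Vale.Agent.P052.H487.Box2
import Vale.Agent.P052.H487.Box3
import Vale.Agent.P052.H487.Box4
import Vale.Agent.P052.R4.H373.Plain
import Vale.Agent.P052.H487.Ball

/-!
Eight parts in dimension four: the theorem.
-/

namespace Vale.Agent.P052.H487

open Metric Set
open scoped RealInnerProductSpace

theorem good1 :
    Good (17 / 50) (381391 / 500000) (223 / 500) (433 / 500) (223 / 1000) 2 3 (1089 / 1000) (151 / 500) := by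
  have key : ∀ a b s a' b' s' : ℝ, 0 ≤ b → s ≤ 17 / 50 → 2 * a + 3 * b ≤ 1089 / 1000 →
      2 * a - 3 * b ≤ 1089 / 1000 → -(151 / 500) ≤ a →
      (a ≤ 223 / 1000 → s ≤ 381391 / 500000 + 223 / 500 * a - 433 / 500 * b ∧
        s ≤ 381391 / 500000 + 223 / 500 * a + 433 / 500 * b) → a ^ 2 + b ^ 2 ≤ s →
      s' ≤ 17 / 50 → 2 * a' + 3 * b' ≤ 1089 / 1000 → 2 * a' - 3 * b' ≤ 1089 / 1000 → -(151 / 500) ≤ a' →
      (a' ≤ 223 / 1000 → s' ≤ 381391 / 500000 + 223 / 500 * a' - 433 / 500 * b' ∧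
        s' ≤ 381391 / 500000 + 223 / 500 * a' + 433 / 500 * b') → a' ^ 2 + b' ^ 2 ≤ s' →
      s + 2 / 5 * s' + 3 / 5 * (a' ^ 2 + b' ^ 2) - 2 * (a * a') - 2 * (b * b')
        ≤ 1 - 1 / 1000 := by
    intro a b s a' b' s' hb h1 h2 h3 h4 h5 h6 g1 g2 g3 g4 g5 g6
    rcases le_total a (223 / 1000) with ha | ha <;> rcases le_total a' (223 / 1000) with ha' | ha'
    · obtain ⟨e1, e2⟩ := h5 ha
      obtain ⟨d1, d2⟩ := g5 ha'
      refine Box1.box1r0 a b s a' b' s' ?_ ?_ ?_ ?_ ?_ ?_ ?_ ?_ hb ?_ ?_ ?_ ?_ ?_ ?_ ?_ ?_ <;> linarith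
    · obtain ⟨e1, e2⟩ := h5 ha
      refine Box1.box1r2 a b s a' b' s' ?_ ?_ ?_ ?_ ?_ ?_ ?_ ?_ hb ?_ ?_ ?_ ?_ ?_ ?_ <;> linarith
    · obtain ⟨d1, d2⟩ := g5 ha'
      refine Box1.box1r1 a b s a' b' s' ?_ ?_ ?_ ?_ ?_ ?_ ?_ ?_ hb ?_ ?_ ?_ ?_ ?_ ?_ <;> linarith
    · refine Box1.box1r3 a b s a' b' s' ?_ ?_ ?_ ?_ ?_ ?_ ?_ ?_ hb ?_ ?_ ?_ ?_ <;> linarith
  intro a b s a' b' s' h1 h2 h3 h4 h5 h6 g1 g2 g3 g4 g5 g6
  rcases le_total 0 b with hb | hb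
  · exact key a b s a' b' s' hb h1 h2 h3 h4 h5 h6 g1 g2 g3 g4 g5 g6
  · have h := key a (-b) s a' (-b') s' (by linarith) h1 (by linarith) (by linarith) h4
      (fun ha => by obtain ⟨p, q⟩ := h5 ha; constructor <;> linarith) (by linarith) g1
      (by linarith) (by linarith) g4
      (fun ha => by obtain ⟨p, q⟩ := g5 ha; constructor <;> linarith) (by linarith)
    linarith

theorem good2 :
    Good (179 / 500) (873 / 1250) (3 / 5) (23 / 25) (3 / 10) 1 1 (117 / 250) (331 / 1000) := by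
  have key : ∀ a b s a' b' s' : ℝ, 0 ≤ b → s ≤ 179 / 500 → 1 * a + 1 * b ≤ 117 / 250 →
      1 * a - 1 * b ≤ 117 / 250 → -(331 / 1000) ≤ a →
      (a ≤ 3 / 10 → s ≤ 873 / 1250 + 3 / 5 * a - 23 / 25 * b ∧
        s ≤ 873 / 1250 + 3 / 5 * a + 23 / 25 * b) → a ^ 2 + b ^ 2 ≤ s →
      s' ≤ 179 / 500 → 1 * a' + 1 * b' ≤ 117 / 250 → 1 * a' - 1 * b' ≤ 117 / 250 → -(331 / 1000) ≤ a' →
      (a' ≤ 3 / 10 → s' ≤ 873 / 1250 + 3 / 5 * a' - 23 / 25 * b' ∧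
        s' ≤ 873 / 1250 + 3 / 5 * a' + 23 / 25 * b') → a' ^ 2 + b' ^ 2 ≤ s' →
      s + 2 / 5 * s' + 3 / 5 * (a' ^ 2 + b' ^ 2) - 2 * (a * a') - 2 * (b * b')
        ≤ 1 - 1 / 1000 := by
    intro a b s a' b' s' hb h1 h2 h3 h4 h5 h6 g1 g2 g3 g4 g5 g6
    rcases le_total a (3 / 10) with ha | ha <;> rcases le_total a' (3 / 10) with ha' | ha'
    · obtain ⟨e1, e2⟩ := h5 ha
      obtain ⟨d1, d2⟩ := g5 ha'
      refine Box2.box2r0 a b s a' b' s' ?_ ?_ ?_ ?_ ?_ ?_ ?_ ?_ hb ?_ ?_ ?_ ?_ ?_ ?_ ?_ ?_ <;> linarith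
    · obtain ⟨e1, e2⟩ := h5 ha
      refine Box2.box2r2 a b s a' b' s' ?_ ?_ ?_ ?_ ?_ ?_ ?_ ?_ hb ?_ ?_ ?_ ?_ ?_ ?_ <;> linarith
    · obtain ⟨d1, d2⟩ := g5 ha'
      refine Box2.box2r1 a b s a' b' s' ?_ ?_ ?_ ?_ ?_ ?_ ?_ ?_ hb ?_ ?_ ?_ ?_ ?_ ?_ <;> linarith
    · refine Box2.box2r3 a b s a' b' s' ?_ ?_ ?_ ?_ ?_ ?_ ?_ ?_ hb ?_ ?_ ?_ ?_ <;> linarith
  intro a b s a' b' s' h1 h2 h3 h4 h5 h6 g1 g2 g3 g4 g5 g6
  rcases le_total 0 b with hb | hb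
  · exact key a b s a' b' s' hb h1 h2 h3 h4 h5 h6 g1 g2 g3 g4 g5 g6
  · have h := key a (-b) s a' (-b') s' (by linarith) h1 (by linarith) (by linarith) h4
      (fun ha => by obtain ⟨p, q⟩ := h5 ha; constructor <;> linarith) (by linarith) g1
      (by linarith) (by linarith) g4
      (fun ha => by obtain ⟨p, q⟩ := g5 ha; constructor <;> linarith) (by linarith)
    linarith

theorem good3 :
    Good (3 / 8) (668687 / 1000000) (82 / 125) (473 / 500) (41 / 125) 7 6 (819 / 250) (89 / 250) := by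
  have key : ∀ a b s a' b' s' : ℝ, 0 ≤ b → s ≤ 3 / 8 → 7 * a + 6 * b ≤ 819 / 250 →
      7 * a - 6 * b ≤ 819 / 250 → -(89 / 250) ≤ a →
      (a ≤ 41 / 125 → s ≤ 668687 / 1000000 + 82 / 125 * a - 473 / 500 * b ∧
        s ≤ 668687 / 1000000 + 82 / 125 * a + 473 / 500 * b) → a ^ 2 + b ^ 2 ≤ s →
      s' ≤ 3 / 8 → 7 * a' + 6 * b' ≤ 819 / 250 → 7 * a' - 6 * b' ≤ 819 / 250 → -(89 / 250) ≤ a' →
      (a' ≤ 41 / 125 → s' ≤ 668687 / 1000000 + 82 / 125 * a' - 473 / 500 * b' ∧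
        s' ≤ 668687 / 1000000 + 82 / 125 * a' + 473 / 500 * b') → a' ^ 2 + b' ^ 2 ≤ s' →
      s + 2 / 5 * s' + 3 / 5 * (a' ^ 2 + b' ^ 2) - 2 * (a * a') - 2 * (b * b')
        ≤ 1 - 1 / 1000 := by
    intro a b s a' b' s' hb h1 h2 h3 h4 h5 h6 g1 g2 g3 g4 g5 g6
    rcases le_total a (41 / 125) with ha | ha <;> rcases le_total a' (41 / 125) with ha' | ha'
    · obtain ⟨e1, e2⟩ := h5 ha
      obtain ⟨d1, d2⟩ := g5 ha'
      refine Box3.box3r0 a b s a' b' s' ?_ ?_ ?_ ?_ ?_ ?_ ?_ ?_ hb ?_ ?_ ?_ ?_ ?_ ?_ ?_ ?_ <;> linarith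
    · obtain ⟨e1, e2⟩ := h5 ha
      refine Box3.box3r2 a b s a' b' s' ?_ ?_ ?_ ?_ ?_ ?_ ?_ ?_ hb ?_ ?_ ?_ ?_ ?_ ?_ <;> linarith
    · obtain ⟨d1, d2⟩ := g5 ha'
      refine Box3.box3r1 a b s a' b' s' ?_ ?_ ?_ ?_ ?_ ?_ ?_ ?_ hb ?_ ?_ ?_ ?_ ?_ ?_ <;> linarith
    · refine Box3.box3r3 a b s a' b' s' ?_ ?_ ?_ ?_ ?_ ?_ ?_ ?_ hb ?_ ?_ ?_ ?_ <;> linarith
  intro a b s a' b' s' h1 h2 h3 h4 h5 h6 g1 g2 g3 g4 g5 g6
  rcases le_total 0 b with hb | hb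
  · exact key a b s a' b' s' hb h1 h2 h3 h4 h5 h6 g1 g2 g3 g4 g5 g6
  · have h := key a (-b) s a' (-b') s' (by linarith) h1 (by linarith) (by linarith) h4
      (fun ha => by obtain ⟨p, q⟩ := h5 ha; constructor <;> linarith) (by linarith) g1
      (by linarith) (by linarith) g4
      (fun ha => by obtain ⟨p, q⟩ := g5 ha; constructor <;> linarith) (by linarith)
    linarith

theorem good4 :
    Good (39 / 100) (128227 / 200000) (353 / 500) (121 / 125) (353 / 1000) 3 2 (271 / 200) (47 / 125) := by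
  have key : ∀ a b s a' b' s' : ℝ, 0 ≤ b → s ≤ 39 / 100 → 3 * a + 2 * b ≤ 271 / 200 →
      3 * a - 2 * b ≤ 271 / 200 → -(47 / 125) ≤ a →
      (a ≤ 353 / 1000 → s ≤ 128227 / 200000 + 353 / 500 * a - 121 / 125 * b ∧
        s ≤ 128227 / 200000 + 353 / 500 * a + 121 / 125 * b) → a ^ 2 + b ^ 2 ≤ s →
      s' ≤ 39 / 100 → 3 * a' + 2 * b' ≤ 271 / 200 → 3 * a' - 2 * b' ≤ 271 / 200 → -(47 / 125) ≤ a' →
      (a' ≤ 353 / 1000 → s' ≤ 128227 / 200000 + 353 / 500 * a' - 121 / 125 * b' ∧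
        s' ≤ 128227 / 200000 + 353 / 500 * a' + 121 / 125 * b') → a' ^ 2 + b' ^ 2 ≤ s' →
      s + 2 / 5 * s' + 3 / 5 * (a' ^ 2 + b' ^ 2) - 2 * (a * a') - 2 * (b * b')
        ≤ 1 - 1 / 1000 := by
    intro a b s a' b' s' hb h1 h2 h3 h4 h5 h6 g1 g2 g3 g4 g5 g6
    rcases le_total a (353 / 1000) with ha | ha <;> rcases le_total a' (353 / 1000) with ha' | ha'
    · obtain ⟨e1, e2⟩ := h5 ha
      obtain ⟨d1, d2⟩ := g5 ha'
      refine Box4.box4r0 a b s a' b' s' ?_ ?_ ?_ ?_ ?_ ?_ ?_ ?_ hb ?_ ?_ ?_ ?_ ?_ ?_ ?_ ?_ <;> linarith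
    · obtain ⟨e1, e2⟩ := h5 ha
      refine Box4.box4r2 a b s a' b' s' ?_ ?_ ?_ ?_ ?_ ?_ ?_ ?_ hb ?_ ?_ ?_ ?_ ?_ ?_ <;> linarith
    · obtain ⟨d1, d2⟩ := g5 ha'
      refine Box4.box4r1 a b s a' b' s' ?_ ?_ ?_ ?_ ?_ ?_ ?_ ?_ hb ?_ ?_ ?_ ?_ ?_ ?_ <;> linarith
    · refine Box4.box4r3 a b s a' b' s' ?_ ?_ ?_ ?_ ?_ ?_ ?_ ?_ hb ?_ ?_ ?_ ?_ <;> linarith
  intro a b s a' b' s' h1 h2 h3 h4 h5 h6 g1 g2 g3 g4 g5 g6
  rcases le_total 0 b with hb | hb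
  · exact key a b s a' b' s' hb h1 h2 h3 h4 h5 h6 g1 g2 g3 g4 g5 g6
  · have h := key a (-b) s a' (-b') s' (by linarith) h1 (by linarith) (by linarith) h4
      (fun ha => by obtain ⟨p, q⟩ := h5 ha; constructor <;> linarith) (by linarith) g1
      (by linarith) (by linarith) g4
      (fun ha => by obtain ⟨p, q⟩ := g5 ha; constructor <;> linarith) (by linarith)
    linarith


variable {V : Type*} [NormedAddCommGroup V] [InnerProductSpace ℝ V] [FiniteDimensional ℝ V]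

/-- **Eight parts**, normalised, for all circumradii in question. -/
theorem eight_all (hV : Module.finrank ℝ V = 4) {ρ : ℝ} (hlo : 3 / 10 ≤ ρ) (hhi : ρ ≤ 39 / 100)
    {S : Set V} {P₁ P₂ : V} (hP1 : ‖P₁‖ ^ 2 = ρ)
    (hP2 : ‖P₂‖ ^ 2 = ρ) (hP : ⟪P₁, P₂⟫ ≤ -ρ / 4) (hP12 : ‖P₁ - P₂‖ ≤ 1)
    (hS : ∀ y ∈ S, ‖y‖ ^ 2 ≤ ρ) (hS1 : ∀ y ∈ S, ‖y - P₁‖ ≤ 1) (hS2 : ∀ y ∈ S, ‖y - P₂‖ ≤ 1) :
    ∃ C : Fin 3 ⊕ Fin 5 → Set V, (∀ y ∈ S, ∃ i, y ∈ C i) ∧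
      ∀ i, ∀ y ∈ C i, ∀ z ∈ C i, ‖y - z‖ ^ 2 ≤ 1 - 1 / 1000 := by
  rcases le_total ρ (17 / 50) with c1 | c1
  · exact eight_norm hV (lo := 3 / 10) (l₀ := 433 / 1000) good1 (by norm_num) (by norm_num) (by norm_num)
      (by norm_num) (by norm_num) (by norm_num) (by norm_num) (by norm_num) (by norm_num)
      (by norm_num) (by norm_num) (by norm_num) hlo c1 hP1 hP2 hP hP12 hS hS1 hS2
  rcases le_total ρ (179 / 500) with c2 | c2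
  · exact eight_norm hV (lo := 17 / 50) (l₀ := 23 / 50) good2 (by norm_num) (by norm_num) (by norm_num)
      (by norm_num) (by norm_num) (by norm_num) (by norm_num) (by norm_num) (by norm_num)
      (by norm_num) (by norm_num) (by norm_num) c1 c2 hP1 hP2 hP hP12 hS hS1 hS2
  rcases le_total ρ (3 / 8) with c3 | c3
  · exact eight_norm hV (lo := 179 / 500) (l₀ := 473 / 1000) good3 (by norm_num) (by norm_num) (by norm_num)
      (by norm_num) (by norm_num) (by norm_num) (by norm_num) (by norm_num) (by norm_num)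
      (by norm_num) (by norm_num) (by norm_num) c2 c3 hP1 hP2 hP hP12 hS hS1 hS2
  · exact eight_norm hV (lo := 3 / 8) (l₀ := 121 / 250) good4 (by norm_num) (by norm_num) (by norm_num)
      (by norm_num) (by norm_num) (by norm_num) (by norm_num) (by norm_num) (by norm_num)
      (by norm_num) (by norm_num) (by norm_num) c3 hhi hP1 hP2 hP hP12 hS hS1 hS2

end Vale.Agent.P052.H487
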