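import Vale.Agent.P052.H487.EightAll

/-!
Every bounded set in dimension four is a union of eight sets of smaller diameter.
-/

namespace Vale.Agent.P052.H487

open Metric Set
open scoped RealInnerProductSpace
open Vale.Agent.P052.H768 (tr tr_compact tr_dist smallerCover_of)

theorem main_eight {X : Set (EuclideanSpace ℝ (Fin 4))} (hX : Bornology.IsBounded X)
    (hD : 0 < Metric.diam X) : IsSmallerCover X 8 := by
  by_cases hno : ∀ c, ¬ X ⊆ Metric.closedBall c (Real.sqrt (39 / 100) * Metric.diam X)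
  · exact cover_mono hD (by norm_num)
      (J373.explicit_plain 4 (39 / 100) (Or.inl ⟨rfl, rfl⟩) X hX hD hno)
  push Not at hno
  obtain ⟨c', hc'⟩ := hno
  have hne : (closure X).Nonempty := by
    rw [closure_nonempty_iff]
    by_contra h
    rw [Set.not_nonempty_iff_eq_empty] at h
    rw [h, Metric.diam_empty] at hD
    exact lt_irrefl _ hD
  obtain ⟨c, R, hR0, hR, hmin⟩ := exists_min_ball hX.isCompact_closure hne
  set D : ℝ := Metric.diam X with hDdef
  have hR1 : R ≤ Real.sqrt (39 / 100) * D := by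
    refine hmin c' _ fun x hx => ?_
    have h := closure_minimal hc' isClosed_closedBall hx
    rwa [mem_closedBall, dist_eq_norm] at h
  have hRD : D ≤ 2 * R := by
    refine Metric.diam_le_of_forall_dist_le (by positivity) fun x hx y hy => ?_
    have h1 := hR x (subset_closure hx)
    have h2 := hR y (subset_closure hy)
    have h3 : dist x y ≤ dist x c + dist y c := dist_triangle_right x y c
    rw [dist_eq_norm x c, dist_eq_norm y c] at h3
    linarith
  have hRpos : 0 < R := by linarith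
  have hR2 : R ^ 2 ≤ 39 / 100 * D ^ 2 := by
    have h := pow_le_pow_left₀ hR0 hR1 2
    rwa [mul_pow, Real.sq_sqrt (by norm_num)] at h
  by_cases h3 : R ^ 2 < 3 / 10 * D ^ 2
  · refine cover_mono hD (by norm_num) (main_ball hX hD c (r := R) (fun x hx => ?_) ?_)
    · rw [dist_eq_norm]
      exact hR x (subset_closure hx)
    · push_cast
      linarith
  have h3' : 3 / 10 * D ^ 2 ≤ R ^ 2 := not_lt.1 h3
  -- the contact points
  have hK := tr_compact hX c
  have hKR : ∀ y ∈ tr X c, ‖y‖ ≤ R := by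
    rintro _ ⟨x, hx, rfl⟩
    exact hR x hx
  have hKmin : ∀ (c'' : EuclideanSpace ℝ (Fin 4)) (R' : ℝ),
      (∀ y ∈ tr X c, ‖y - c''‖ ≤ R') → R ≤ R' := by
    intro c'' R' h
    refine hmin (c + c'') R' fun x hx => ?_
    have h4 := h (x - c) ⟨x, hx, rfl⟩
    rwa [sub_sub] at h4
  have hM : IsCompact {y ∈ tr X c | ‖y‖ = R} :=
    hK.inter_right (isClosed_eq continuous_norm continuous_const)
  obtain ⟨p, ⟨hpK, hpR⟩, q, ⟨hqK, hqR⟩, hpq⟩ := pair_of_hull (n := 4) (by norm_num)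
    (by rw [finrank_euclideanSpace_fin]) hM (fun e he => he.2)
    (zero_mem_contact hK hRpos hKR hKmin)
  have hDi : D⁻¹ * D = 1 := inv_mul_cancel₀ hD.ne'
  have hDi0 : 0 < D⁻¹ := inv_pos.2 hD
  have hscale : ∀ y : EuclideanSpace ℝ (Fin 4), ‖D⁻¹ • y‖ ^ 2 = ‖y‖ ^ 2 / D ^ 2 := by
    intro y
    rw [norm_smul, mul_pow, norm_inv, Real.norm_of_nonneg hD.le, inv_pow]
    ring
  have hD2 : 0 < D ^ 2 := by positivity
  have hpair : ∀ y ∈ tr X c, ∀ z ∈ tr X c, ‖D⁻¹ • y - D⁻¹ • z‖ ≤ 1 := by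
    intro y hy z hz
    rw [← smul_sub, norm_smul, norm_inv, Real.norm_of_nonneg hD.le]
    have h4 := tr_dist hX c y hy z hz
    rw [dist_eq_norm] at h4
    calc D⁻¹ * ‖y - z‖ ≤ D⁻¹ * D := mul_le_mul_of_nonneg_left h4 hDi0.le
      _ = 1 := hDi
  obtain ⟨C, hC, hCd⟩ := eight_all (V := EuclideanSpace ℝ (Fin 4)) (ρ := R ^ 2 / D ^ 2)
    (S := (fun v => D⁻¹ • v) '' tr X c) (P₁ := D⁻¹ • p) (P₂ := D⁻¹ • q)
    (by rw [finrank_euclideanSpace_fin])
    (by rw [le_div_iff₀ hD2]; exact h3') (by rw [div_le_iff₀ hD2]; exact hR2)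
    (by rw [hscale, hpR]) (by rw [hscale, hqR])
    (by
      rw [real_inner_smul_left, inner_smul_right]
      have h5 : D⁻¹ * (D⁻¹ * ⟪p, q⟫) = ⟪p, q⟫ / D ^ 2 := by
        field_simp
      rw [h5, div_le_iff₀ hD2]
      have h6 : -(R ^ 2 / D ^ 2) / 4 * D ^ 2 = -(R ^ 2) / 4 := by
        field_simp
      rw [h6]
      exact_mod_cast hpq)
    (hpair p hpK q hqK)
    (by
      rintro _ ⟨v, hv, rfl⟩
      dsimp only
      rw [hscale]
      have h7 : ‖v‖ ^ 2 ≤ R ^ 2 := pow_le_pow_left₀ (norm_nonneg _) (hKR v hv) 2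
      gcongr)
    (by
      rintro _ ⟨v, hv, rfl⟩
      exact hpair v hv p hpK)
    (by
      rintro _ ⟨v, hv, rfl⟩
      exact hpair v hv q hqK)
  have hs1 : Real.sqrt (999 / 1000) < 1 := by
    rw [Real.sqrt_lt' one_pos]
    norm_num
  refine smallerCover_of hD c (ι := Fin 3 ⊕ Fin 5) (by simp) (fun i => {v | D⁻¹ • v ∈ C i})
    (fun x hx => hC _ ⟨x - c, ⟨x, subset_closure hx, rfl⟩, rfl⟩)
    (D' := Real.sqrt (999 / 1000) * D) (by nlinarith) fun i v hv w hw => ?_
  have h8 := hCd i _ hv _ hw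
  rw [← smul_sub, hscale, div_le_iff₀ hD2] at h8
  rw [dist_eq_norm]
  refine le_of_sq_le_sq ?_ (by positivity)
  rw [mul_pow, Real.sq_sqrt (by norm_num)]
  linarith

end Vale.Agent.P052.H487
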