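import Vale.Agent.P052.H487.Five

/-!
Borsuk's partition problem: rotations of `ℝ⁵` of order at least four, bounded sets.
-/

namespace Vale.Agent.P052.H487

open Metric Set
open scoped RealInnerProductSpace
open Vale.Agent.P052.H768 (zc tr tr_compact tr_dist smallerCover_of)

/-- **Dimension five, all rotations of order at least four.** -/
theorem main_dim_five' {d : ℕ} {X : Set (EuclideanSpace ℝ (Fin d))} (hX : Bornology.IsBounded X)
    (hD : 0 < Metric.diam X) {e₁ e₂ : EuclideanSpace ℝ (Fin d)} {c₁ c₂ θ : ℝ}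
    (h₁ : ‖e₁‖ = 1) (h₂ : ‖e₂‖ = 1) (h₁₂ : ⟪e₁, e₂⟫ = 0) (hd : d = 5)
    (hθ0 : 0 < θ) (hθ : θ < Real.pi) (h3 : θ ≠ 2 * Real.pi / 3)
    (hK : ∀ x ∈ tr X (c₁ • e₁ + c₂ • e₂), rt e₁ e₂ θ x ∈ tr X (c₁ • e₁ + c₂ • e₂)) :
    IsSmallerCover X 6 := by
  have hfr : Module.finrank ℝ (Submodule.span ℝ {e₁, e₂})ᗮ = 3 := by
    have h6 := Submodule.finrank_add_finrank_orthogonal (Submodule.span ℝ {e₁, e₂})
    rw [finrank_pair h₁ h₂ h₁₂, finrank_euclideanSpace_fin] at h6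
    omega
  have hzc := zc_span (V := EuclideanSpace ℝ (Fin d)) h₁ h₂ h₁₂
  have hne : (tr X (c₁ • e₁ + c₂ • e₂)).Nonempty :=
    (nonempty_of_diam hD).closure.image _
  obtain ⟨C, hC, D', hD', hCd⟩ := sec_glue _ (tr_compact hX _) (tr_dist hX _)
    (rot_component (tr_compact hX _) (tr_dist hX _) h₁ h₂ h₁₂ hθ0 hθ h3 hK).1
    (rem_three' _ (tr_compact hX _) hne hD
      (pair_rot _ h₁ h₂ h₁₂ hzc (tr_dist hX _) hθ0 hθ.le hK) hfr
      (small_five _ h₁ h₂ h₁₂ hzc (tr_dist hX _) hθ0 hθ.le h3 hK))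
  exact smallerCover_of hD _ (by simp) C
    (fun x hx => mem_iUnion.1 (hC ⟨x, subset_closure hx, rfl⟩)) hD' hCd

end Vale.Agent.P052.H487
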