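import Vale.Agent.P052.H487.Cone
import Vale.Agent.P052.H487.Defs2

/-!
Borsuk's partition problem: groups whose orbits are dense.
-/

namespace Vale.Agent.P052.H487

open Metric Set
open scoped RealInnerProductSpace
open Vale.Agent.P052.H768 (zc zc_mem sp_mem sp_add_zc inner_zc inner_sp zc_sub norm_sq_split
  continuous_zc tr tr_compact tr_dist smallerCover_of)

section
variable {V : Type*} [NormedAddCommGroup V] [InnerProductSpace ℝ V] [FiniteDimensional ℝ V]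

/-- `G` fixes the orthogonal complement of `W` pointwise, and all orbits of `G` on the unit sphere
of `W` are dense enough. -/
def DenseOrbitsV (W : Submodule ℝ V) (G : Set (V ≃ₗᵢ[ℝ] V)) : Prop :=
  (∀ g ∈ G, ∀ v ∈ Wᗮ, g v = v) ∧
  ∃ c : ℝ, 1 / 2 ≤ c ∧ (Module.finrank ℝ W : ℝ) < c * (Module.finrank ℝ W + 2) ∧
    ∀ u ∈ W, ∀ v ∈ W, ∃ g ∈ G, ⟪u, g v⟫ ≤ -(c * (‖u‖ * ‖v‖))

theorem zc_orth (W : Submodule ℝ V) (x : V) : zc Wᗮ x = W.starProjection x := by
  rw [zc, Submodule.starProjection_orthogonal_val, sub_sub_cancel]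

/-- How a symmetry acts. -/
theorem grp_act (W : Submodule ℝ V) {g : V ≃ₗᵢ[ℝ] V} (hg : ∀ v ∈ Wᗮ, g v = v) (y : V) :
    g y - y ∈ W ∧ zc Wᗮ (g y) = g (zc Wᗮ y) := by
  have hW : ∀ v ∈ W, g v ∈ W := by
    intro v hv
    rw [← Submodule.orthogonal_orthogonal W, Submodule.mem_orthogonal]
    intro u hu
    rw [← hg u hu, g.inner_map_map]
    exact (Submodule.mem_orthogonal' W u).1 hu v hv
  have hp : zc Wᗮ y ∈ W := by rw [zc_orth]; exact W.starProjection_apply_mem y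
  have hq : y - zc Wᗮ y ∈ Wᗮ := by
    rw [zc, sub_sub_cancel]
    exact Wᗮ.starProjection_apply_mem y
  have hy : g y = g (zc Wᗮ y) + (y - zc Wᗮ y) := by
    rw [← hg _ hq, ← map_add, add_sub_cancel]
  constructor
  · have : g y - y = g (zc Wᗮ y) - zc Wᗮ y := by rw [hy]; abel
    rw [this]
    exact W.sub_mem (hW _ hp) hp
  · rw [zc_orth]
    refine Submodule.eq_starProjection_of_mem_of_inner_eq_zero (hW _ hp) ?_
    intro w hw
    have : g y - g (zc Wᗮ y) = y - zc Wᗮ y := by rw [hy]; abel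
    rw [this]
    exact (Submodule.mem_orthogonal' W _).1 hq w hw

variable {K : Set V} {D : ℝ} (hD : ∀ x ∈ K, ∀ y ∈ K, dist x y ≤ D)

include hD in
/-- Far pairs. -/
theorem grp_far (W : Submodule ℝ V) {g : V ≃ₗᵢ[ℝ] V} (hg : ∀ v ∈ Wᗮ, g v = v)
    (hgK : ∀ x ∈ K, g x ∈ K) {x y : V} (hx : x ∈ K) (hy : y ∈ K) (hxy : dist x y = D) :
    ⟪zc Wᗮ x, zc Wᗮ y⟫ ≤ ⟪zc Wᗮ x, g (zc Wᗮ y)⟫ := by
  have h1 : dist x (g y) ^ 2 ≤ D ^ 2 := by
    have := hD x hx _ (hgK y hy)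
    gcongr
  obtain ⟨h2, h3⟩ := grp_act W hg y
  have h4 : Wᗮ.starProjection (g y) = Wᗮ.starProjection y := by
    have h5 : Wᗮ.starProjection (g y - y) = 0 := by
      rw [Submodule.starProjection_apply_eq_zero_iff, Submodule.orthogonal_orthogonal]
      exact h2
    rw [map_sub] at h5
    exact sub_eq_zero.1 h5
  have h5 := dist_sq Wᗮ x (g y)
  have h6 := dist_sq Wᗮ x y
  rw [h4, h3, norm_sub_sq_real (zc Wᗮ x), g.norm_map] at h5
  rw [hxy, norm_sub_sq_real (zc Wᗮ x)] at h6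
  linarith

include hD in
/-- The simplex cones. -/
theorem sec_grp (W : Submodule ℝ V) {G : Set (V ≃ₗᵢ[ℝ] V)} (hG : DenseOrbitsV W G)
    (hGK : ∀ g ∈ G, ∀ x ∈ K, g x ∈ K) : Sec Wᗮ K D (Module.finrank ℝ W + 1) := by
  obtain ⟨hfix, c, hc1, hc2, hc⟩ := hG
  obtain ⟨m, hm⟩ : ∃ m, Module.finrank ℝ W = m := ⟨_, rfl⟩
  rw [hm] at hc2 ⊢
  obtain ⟨y, hy0, hyi⟩ := exists_simplex_coord (V := W) hm
  have hmem : ∀ x, zc Wᗮ x ∈ W := fun x => by rw [zc_orth]; exact W.starProjection_apply_mem x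
  set Y : Fin (m + 1) → V → ℝ := fun i x => y i (W.orthogonalProjection x) with hY
  have hYc : ∀ i, Continuous (Y i) := fun i =>
    (LinearMap.continuous_of_finiteDimensional (y i)).comp (W.orthogonalProjection).continuous
  have hY0 : ∀ x, ∑ i, Y i x = 0 := fun x => hy0 (W.orthogonalProjection x)
  have hYi : ∀ x x', ∑ i, Y i x * Y i x' = ⟪zc Wᗮ x, zc Wᗮ x'⟫ := by
    intro x x'
    rw [zc_orth, zc_orth]
    exact hyi (W.orthogonalProjection x) (W.orthogonalProjection x')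
  have hYn : ∀ x, ∑ i, Y i x ^ 2 = ‖zc Wᗮ x‖ ^ 2 := by
    intro x
    rw [← real_inner_self_eq_norm_sq, ← hYi]
    exact Finset.sum_congr rfl fun i _ => pow_two _
  refine ⟨fun j => {x | ∀ i, Y j x ≤ Y i x}, fun j => ?_, ?_, ?_, ?_⟩
  · have : {x | ∀ i, Y j x ≤ Y i x} = ⋂ i, {x | Y j x ≤ Y i x} := by
      ext x; simp
    change IsClosed {x | ∀ i, Y j x ≤ Y i x}
    rw [this]
    exact isClosed_iInter fun i => isClosed_le (hYc j) (hYc i)
  · intro x _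
    obtain ⟨j, hj⟩ := Finite.exists_min (fun i => Y i x)
    exact mem_iUnion.2 ⟨j, hj⟩
  · intro j x _ h0 i
    have h1 : ∀ i, Y i x = 0 := by
      intro i
      have h2 := hYn x
      rw [h0, norm_zero, zero_pow two_ne_zero] at h2
      have h3 := (Finset.sum_eq_zero_iff_of_nonneg fun i _ => sq_nonneg (Y i x)).1 h2 i
        (Finset.mem_univ i)
      exact pow_eq_zero_iff two_ne_zero |>.1 h3
    rw [h1, h1]
  · intro j x hx z hz hxj hzj hd
    by_contra hcon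
    push Not at hcon
    obtain ⟨hx0, hz0⟩ := hcon
    have hxp : 0 < ‖zc Wᗮ x‖ := norm_pos_iff.2 hx0
    have hzp : 0 < ‖zc Wᗮ z‖ := norm_pos_iff.2 hz0
    set A := ‖zc Wᗮ x‖ with hA
    set B := ‖zc Wᗮ z‖ with hB
    -- the cone inequality, rescaled
    have h1 := cone_base (m := m) (fun i => B * Y i x) (fun i => A * Y i z)
      (by rw [← Finset.mul_sum, hY0, mul_zero]) (by rw [← Finset.mul_sum, hY0, mul_zero]) j
      (fun i => mul_le_mul_of_nonneg_left (hxj i) hzp.le)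
      (fun i => mul_le_mul_of_nonneg_left (hzj i) hxp.le)
    have e1 : ∑ i, B * Y i x * (A * Y i z) = A * B * ⟪zc Wᗮ x, zc Wᗮ z⟫ := by
      rw [← hYi, Finset.mul_sum]
      exact Finset.sum_congr rfl fun i _ => by ring
    have e2 : ∑ i, (B * Y i x) ^ 2 = B ^ 2 * A ^ 2 := by
      rw [show A ^ 2 = ∑ i, Y i x ^ 2 from (hYn x).symm, Finset.mul_sum]
      exact Finset.sum_congr rfl fun i _ => by ring
    have e3 : ∑ i, (A * Y i z) ^ 2 = A ^ 2 * B ^ 2 := by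
      rw [show B ^ 2 = ∑ i, Y i z ^ 2 from (hYn z).symm, Finset.mul_sum]
      exact Finset.sum_congr rfl fun i _ => by ring
    rw [e1, e2, e3] at h1
    obtain ⟨g, hgG, hg⟩ := hc _ (hmem x) _ (hmem z)
    have h2 := grp_far hD W (hfix g hgG) (hGK g hgG) hx hz hd
    have h3 : ⟪zc Wᗮ x, zc Wᗮ z⟫ ≤ -(c * (A * B)) := h2.trans hg
    have hAB : 0 < A * B := mul_pos hxp hzp
    have h4 : A * B * ⟪zc Wᗮ x, zc Wᗮ z⟫ ≤ A * B * (-(c * (A * B))) :=
      mul_le_mul_of_nonneg_left h3 hAB.le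
    have h5 : 0 ≤ 2 * ((m : ℝ) + 2) * (A * B * (-(c * (A * B)))) + m * (B ^ 2 * A ^ 2 + A ^ 2 * B ^ 2) :=
      h1.trans (by
        have : (0 : ℝ) ≤ 2 * ((m : ℝ) + 2) := by positivity
        linarith [mul_le_mul_of_nonneg_left h4 this])
    have h6 : 2 * ((m : ℝ) + 2) * (A * B * (-(c * (A * B)))) + m * (B ^ 2 * A ^ 2 + A ^ 2 * B ^ 2)
        = 2 * (A * B) ^ 2 * (m - c * (m + 2)) := by ring
    rw [h6] at h5
    have h7 : 2 * (A * B) ^ 2 * ((m : ℝ) - c * (m + 2)) < 0 :=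
      mul_neg_of_pos_of_neg (by positivity) (by linarith)
    linarith

/-- The symmetries of a component. -/
theorem comp_grp (W : Submodule ℝ V) {G : Set (V ≃ₗᵢ[ℝ] V)} (hG : DenseOrbitsV W G)
    (hGK : ∀ g ∈ G, ∀ x ∈ K, g x ∈ K) : Comp Wᗮ K := by
  obtain ⟨hfix, c, hc1, hc2, hc⟩ := hG
  have hmem : ∀ x, zc Wᗮ x ∈ W := fun x => by rw [zc_orth]; exact W.starProjection_apply_mem x
  constructor
  · intro x hx y hy
    obtain ⟨g, hgG, hg⟩ := hc _ (hmem x) _ (hmem y)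
    obtain ⟨h1, h2⟩ := grp_act W (hfix g hgG) y
    refine ⟨g y, hGK g hgG y hy, by rw [Submodule.orthogonal_orthogonal]; exact h1, ?_, ?_⟩
    · rw [h2, g.norm_map]
    · rw [h2]
      refine hg.trans (neg_nonpos.2 ?_)
      positivity
  · intro x hx y hy hxy
    obtain ⟨g, hgG, hg⟩ := hc _ (hmem x) _ (hmem y)
    obtain ⟨h1, h2⟩ := grp_act W (hfix g hgG) y
    refine ⟨g y, hGK g hgG y hy, by rw [Submodule.orthogonal_orthogonal]; exact h1, ?_, ?_⟩
    · rw [h2, g.norm_map]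
    · rw [h2]
      rw [hxy] at hg ⊢
      nlinarith [mul_self_nonneg ‖zc Wᗮ x‖]

end

end Vale.Agent.P052.H487
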