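import Vale.Agent.P052.H487.Multi3
import Vale.Agent.P052.H487.Defs2

/-!
Borsuk's partition problem: several orthogonal rotations and mirrors, all angles.
-/

namespace Vale.Agent.P052.H487

open Metric Set
open scoped RealInnerProductSpace
open Vale.Agent.P052.H768 (zc zc_mem sp_mem sp_add_zc inner_zc inner_sp zc_sub norm_sq_split
  continuous_zc tr tr_compact tr_dist smallerCover_of)

section
variable {V : Type*} [NormedAddCommGroup V] [InnerProductSpace ℝ V] [FiniteDimensional ℝ V]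

theorem exists_cos_le {θ : ℝ} (hθ0 : 0 < θ) (hθ : θ ≤ Real.pi) :
    ∃ n : ℕ, Real.cos (n * θ) ≤ -(1 / 2) := by
  have key : ∀ η : ℝ, |η - Real.pi| ≤ Real.pi / 3 → Real.cos η ≤ -(1 / 2) := by
    intro η h8
    have h7 : Real.cos η = - Real.cos |η - Real.pi| := by
      rw [Real.cos_abs, Real.cos_sub_pi, neg_neg]
    have h9 : Real.cos (Real.pi / 3) ≤ Real.cos |η - Real.pi| :=
      Real.cos_le_cos_of_nonneg_of_le_pi (abs_nonneg _) (by linarith [Real.pi_pos]) h8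
    rw [Real.cos_pi_div_three] at h9
    rw [h7]
    linarith
  rcases le_total θ (2 * Real.pi / 3) with h | h
  · have h0 : 0 ≤ (2 * Real.pi / 3) / θ := by positivity
    have h1 := Nat.le_ceil ((2 * Real.pi / 3) / θ)
    have h2 := Nat.ceil_lt_add_one h0
    rw [div_le_iff₀ hθ0] at h1
    have h3 := mul_lt_mul_of_pos_right h2 hθ0
    rw [add_mul, div_mul_cancel₀ _ hθ0.ne', one_mul] at h3
    refine ⟨⌈(2 * Real.pi / 3) / θ⌉₊, key _ ?_⟩
    rw [abs_le]
    constructor <;> linarith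
  · refine ⟨1, key _ ?_⟩
    rw [Nat.cast_one, one_mul, abs_le]
    constructor <;> linarith [Real.pi_pos]

/-- The rotations give the symmetries of a component, all angles. -/
theorem comp_rot' {K : Set V} {e₁ e₂ : V} (h₁ : ‖e₁‖ = 1) (h₂ : ‖e₂‖ = 1) (h₁₂ : ⟪e₁, e₂⟫ = 0)
    {θ : ℝ} (hθ0 : 0 < θ) (hθ : θ ≤ Real.pi) (hrot : ∀ x ∈ K, rt e₁ e₂ θ x ∈ K) :
    Comp (Submodule.span ℝ {e₁, e₂})ᗮ K := by
  have hzc := zc_span h₁ h₂ h₁₂
  set U := (Submodule.span ℝ {e₁, e₂})ᗮ with hU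
  have hmem : ∀ (η : ℝ) (y : V), rt e₁ e₂ η y - y ∈ Uᗮ := by
    intro η y
    rw [hU, Submodule.orthogonal_orthogonal, Submodule.mem_span_pair]
    exact ⟨_, _, by rw [rt, add_assoc, add_sub_cancel_left]⟩
  have hnorm : ∀ (η : ℝ) (y : V), ‖zc U (rt e₁ e₂ η y)‖ = ‖zc U y‖ := by
    intro η y
    have h : ‖zc U (rt e₁ e₂ η y)‖ ^ 2 = ‖zc U y‖ ^ 2 := by
      rw [norm_zc_sq U h₁ h₂ h₁₂ hzc, norm_zc_sq U h₁ h₂ h₁₂ hzc, inner_rt_left h₁ h₁₂,
        inner_rt_right h₂ h₁₂]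
      linear_combination (⟪e₁, y⟫ ^ 2 + ⟪e₂, y⟫ ^ 2) * Real.sin_sq_add_cos_sq η
    exact (pow_left_inj₀ (norm_nonneg _) (norm_nonneg _) two_ne_zero).1 h
  have hinner : ∀ (η : ℝ) (x y : V) (r s α β : ℝ), ⟪e₁, x⟫ = r * Real.cos α →
      ⟪e₂, x⟫ = r * Real.sin α → ⟪e₁, y⟫ = s * Real.cos β → ⟪e₂, y⟫ = s * Real.sin β →
      ⟪zc U x, zc U (rt e₁ e₂ η y)⟫ = r * s * Real.cos (β - α + η) := by
    intro η x y r s α β a1 a2 b1 b2
    rw [inner_zc_zc U h₁ h₂ h₁₂ hzc, inner_rt_left h₁ h₁₂, inner_rt_right h₂ h₁₂, a1, a2, b1,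
      b2, Real.cos_add, Real.cos_sub, Real.sin_sub]
    ring
  constructor
  · intro x hx y hy
    obtain ⟨r, α, hr0, -, hα0, hα1, hx1, hx2⟩ := exists_polar ⟪e₁, x⟫ ⟪e₂, x⟫
    obtain ⟨s, β, hs0, -, hβ0, hβ1, hy1, hy2⟩ := exists_polar ⟪e₁, y⟫ ⟪e₂, y⟫
    obtain ⟨k, hk⟩ := exists_turn (δ := β - α) hθ0 hθ (by linarith)
    refine ⟨rt e₁ e₂ (k * θ) y, iter_rot h₁ h₂ h₁₂ hrot k y hy, hmem _ _, hnorm _ _, ?_⟩
    rw [hinner _ x y r s α β hx1 hx2 hy1 hy2]
    exact mul_nonpos_of_nonneg_of_nonpos (by positivity) hk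
  · intro x hx y hy hxy
    obtain ⟨r, α, hr0, hr2, hα0, hα1, hx1, hx2⟩ := exists_polar ⟪e₁, x⟫ ⟪e₂, x⟫
    obtain ⟨n, h6⟩ := exists_cos_le hθ0 hθ
    refine ⟨rt e₁ e₂ (n * θ) y, iter_rot h₁ h₂ h₁₂ hrot n y hy, hmem _ _, hnorm _ _, ?_⟩
    have h21 : ⟪e₂, e₁⟫ = 0 := by rw [real_inner_comm]; exact h₁₂
    have h11 : ⟪e₁, e₁⟫ = 1 := by rw [real_inner_self_eq_norm_sq, h₁, one_pow]
    have h22 : ⟪e₂, e₂⟫ = 1 := by rw [real_inner_self_eq_norm_sq, h₂, one_pow]
    have hxy1 : ⟪e₁, y⟫ = ⟪e₁, x⟫ := by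
      have h := congrArg (fun z => ⟪e₁, z⟫) hxy
      simp only [hzc, inner_add_right, real_inner_smul_right, h11, h₁₂] at h
      linarith
    have hxy2 : ⟪e₂, y⟫ = ⟪e₂, x⟫ := by
      have h := congrArg (fun z => ⟪e₂, z⟫) hxy
      simp only [hzc, inner_add_right, real_inner_smul_right, h21, h22] at h
      linarith
    rw [hinner _ x y r r α α hx1 hx2 (by rw [hxy1, hx1]) (by rw [hxy2, hx2]), sub_self, zero_add,
      norm_zc_sq U h₁ h₂ h₁₂ hzc, ← hr2]
    have h11 : r * r * Real.cos (n * θ) ≤ r * r * (-(1 / 2)) :=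
      mul_le_mul_of_nonneg_left h6 (by positivity)
    nlinarith

/-- A rotation component, all angles. -/
theorem rot_component' {K : Set V} (hK : IsCompact K) {D : ℝ}
    (hD : ∀ x ∈ K, ∀ y ∈ K, dist x y ≤ D) {e₁ e₂ : V} (h₁ : ‖e₁‖ = 1) (h₂ : ‖e₂‖ = 1)
    (h₁₂ : ⟪e₁, e₂⟫ = 0) {θ : ℝ} (hθ0 : 0 < θ) (hθ : θ ≤ Real.pi)
    (hrot : ∀ x ∈ K, rt e₁ e₂ θ x ∈ K) :
    Sec (Submodule.span ℝ {e₁, e₂})ᗮ K D (2 + excess θ + 1) ∧
      Comp (Submodule.span ℝ {e₁, e₂})ᗮ K := by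
  refine ⟨?_, comp_rot' h₁ h₂ h₁₂ hθ0 hθ hrot⟩
  by_cases hp : θ = Real.pi
  · have he : excess θ = 2 := by rw [excess, if_pos hp]
    rw [he]
    refine sec_rot _ h₁ h₂ h₁₂ (zc_span h₁ h₂ h₁₂) hK hD (φ := θ / 2) (by positivity) (m := 5)
      (by norm_num) (by rw [hp]; push_cast; linarith [Real.pi_pos]) (by
        rw [mul_div_cancel₀ θ two_ne_zero]
        exact hrot) 0 ?_
    intro h
    exfalso
    rw [hp] at h
    push_cast at h
    linarith [Real.pi_pos]
  · by_cases h3 : θ = 2 * Real.pi / 3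
    · have he : excess θ = 1 := by rw [excess, if_neg hp, if_pos h3]
      rw [he]
      refine sec_rot _ h₁ h₂ h₁₂ (zc_span h₁ h₂ h₁₂) hK hD (φ := θ / 2) (by positivity) (m := 4)
        (by norm_num) (by rw [h3]; push_cast; linarith [Real.pi_pos]) (by
          rw [mul_div_cancel₀ θ two_ne_zero]
          exact hrot) 0 ?_
      intro h
      exfalso
      rw [h3] at h
      push_cast at h
      linarith [Real.pi_pos]
    · have he : excess θ = 0 := by rw [excess, if_neg hp, if_neg h3]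
      rw [he]
      exact (rot_component hK hD h₁ h₂ h₁₂ hθ0 (lt_of_le_of_ne hθ hp) h3 hrot).1

/-- Sectors of all components, and classes on the common flat. -/
theorem cov_flat {ι : Type*} [Fintype ι] (U : ι → Submodule ℝ V) (F : Submodule ℝ V)
    (hsum : ∀ x, zc F x = ∑ i, zc (U i) x) {K : Set V} (hK : IsCompact K) {D : ℝ}
    (hD : ∀ x ∈ K, ∀ y ∈ K, dist x y ≤ D) {n : ι → ℕ} (hsec : ∀ i, Sec (U i) K D (n i)) {N : ℕ}
    (P : Fin N → Set V) (hP : ∀ i, ∃ D' < D, ∀ x ∈ P i, ∀ y ∈ P i, dist x y ≤ D')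
    (hcov : ∀ x ∈ K, zc F x = 0 → ∃ i, x ∈ P i) : Cov K D (N + ∑ i, n i) := by
  obtain ⟨B, D₀, hD₀, δ, hδ, hBo, hBD, hBδ⟩ := thick F hK P hP hcov
  choose Q hQc hQK hQ0 hQfar using hsec
  set δ' : ℝ := δ / (Fintype.card ι + 1) with hδ'
  have hδ0 : 0 < δ' := by positivity
  have hex : ∀ x, δ ≤ ‖zc F x‖ → ∃ i, δ' ≤ ‖zc (U i) x‖ := by
    intro x hx
    by_contra hcon
    push Not at hcon
    have h1 : ‖zc F x‖ ≤ ∑ i, ‖zc (U i) x‖ := by
      rw [hsum]
      exact norm_sum_le _ _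
    have h2 : ∑ i, ‖zc (U i) x‖ ≤ ∑ _i : ι, δ' := Finset.sum_le_sum fun i _ => (hcon i).le
    rw [Finset.sum_const, Finset.card_univ, nsmul_eq_mul] at h2
    have h3 : (Fintype.card ι + 1 : ℝ) * δ' = δ := by
      rw [hδ', mul_div_cancel₀]
      positivity
    linarith
  set K' : Set V := K \ ⋃ i, B i with hK'
  have hK'c : IsCompact K' := hK.diff (isOpen_iUnion hBo)
  choose O hO1 hO2 hO3 using fun p : (Σ i, Fin (n i)) => H25.exists_open_nofar
    (C := (K' ∩ Q p.1 p.2) ∩ {x | δ' ≤ ‖zc (U p.1) x‖})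
    ((hK'c.inter_right (hQc _ _)).inter_right
      (isClosed_le continuous_const (continuous_zc (U p.1)).norm))
    (D := D) (fun x hx y hy => hD x hx.1.1.1 y hy.1.1.1) (by
      intro x hx y hy h
      have hx2 : δ' ≤ ‖zc (U p.1) x‖ := hx.2
      have hy2 : δ' ≤ ‖zc (U p.1) y‖ := hy.2
      rcases hQfar p.1 p.2 x hx.1.1.1 y hy.1.1.1 hx.1.2 hy.1.2 h with h0 | h0
      · rw [h0, norm_zero] at hx2
        linarith
      · rw [h0, norm_zero] at hy2
        linarith)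
  refine cov_shrink (ι := Fin N ⊕ (Σ i, Fin (n i))) hK hD (by simp) (Sum.elim B O) ?_ ?_ ?_
  · rintro (i | j)
    · exact hBo i
    · exact hO1 j
  · intro x hx
    by_cases h : x ∈ ⋃ j, B j
    · obtain ⟨j, hj⟩ := mem_iUnion.1 h
      exact mem_iUnion.2 ⟨Sum.inl j, hj⟩
    · have hx' : x ∈ K' := ⟨hx, h⟩
      obtain ⟨i, hi⟩ := hex x (hBδ x hx fun i hi => h (mem_iUnion.2 ⟨i, hi⟩))
      obtain ⟨j, hj⟩ := mem_iUnion.1 (hQK i hx)
      exact mem_iUnion.2 ⟨Sum.inr ⟨i, j⟩, hO2 ⟨i, j⟩ ⟨⟨hx', hj⟩, hi⟩⟩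
  · rintro (i | j) x _ y _ h1 h2
    · exact ne_of_lt (lt_of_le_of_lt (hBD i x h1 y h2) hD₀)
    · exact hO3 j x h1 y h2

end

section
variable {d k l : ℕ} {X : Set (EuclideanSpace ℝ (Fin d))}

/-- **Orthogonal rotations and mirrors.** -/
theorem main_multi_all (hX : Bornology.IsBounded X) (hD : 0 < Metric.diam X)
    (e : (Fin k × Fin 2) ⊕ Fin l → EuclideanSpace ℝ (Fin d)) (he : Orthonormal ℝ e)
    (c : (Fin k × Fin 2) ⊕ Fin l → ℝ) (θ : Fin k → ℝ)
    (hθ : ∀ i, 0 < θ i ∧ θ i ≤ Real.pi)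
    (hrot : ∀ i, ∀ x ∈ X, rotation (e (Sum.inl (i, 0))) (e (Sum.inl (i, 1)))
      (c (Sum.inl (i, 0))) (c (Sum.inl (i, 1))) (θ i) x ∈ X)
    (hmir : ∀ j, ∀ x ∈ X, x - (2 * (⟪e (Sum.inr j), x⟫ - c (Sum.inr j))) • e (Sum.inr j) ∈ X) :
    (d ≤ 2 * k + l + 2 → IsSmallerCover X (d + 1 + ∑ i, excess (θ i))) ∧
    ∀ N : ℕ, CoveredBelow (closure X ∩ {x | ∀ v, ⟪e v, x⟫ = c v}) (Metric.diam X) N →
      IsSmallerCover X (N + (3 * k + 2 * l) + ∑ i, excess (θ i)) := by
  set p := ∑ v, c v • e v with hp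
  have hep : ∀ v, ⟪e v, p⟫ = c v := fun v => by rw [hp, he.inner_right_fintype]
  set K := tr X p with hK
  have hKc : IsCompact K := tr_compact hX p
  have hKD : ∀ x ∈ K, ∀ y ∈ K, dist x y ≤ Metric.diam X := tr_dist hX p
  have hKne : K.Nonempty := (nonempty_of_diam hD).closure.image _
  have hn : ∀ v, ‖e v‖ = 1 := he.1
  have ho : ∀ v w, v ≠ w → ⟪e v, e w⟫ = 0 := fun v w h => he.2 h
  have ho2 : ∀ i : Fin k, ⟪e (Sum.inl (i, 0)), e (Sum.inl (i, 1))⟫ = 0 :=
    fun i => ho _ _ (by simp)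
  -- the symmetries of `K`
  have hKrot : ∀ i, ∀ x ∈ K, rt (e (Sum.inl (i, 0))) (e (Sum.inl (i, 1))) (θ i) x ∈ K := by
    rintro i _ ⟨x, hx, rfl⟩
    refine ⟨rotation (e (Sum.inl (i, 0))) (e (Sum.inl (i, 1)))
      (c (Sum.inl (i, 0))) (c (Sum.inl (i, 1))) (θ i) x, ?_, ?_⟩
    · exact map_mem_closure (f := rotation (e (Sum.inl (i, 0))) (e (Sum.inl (i, 1)))
        (c (Sum.inl (i, 0))) (c (Sum.inl (i, 1))) (θ i)) (by unfold rotation; fun_prop) hx
        (fun y hy => hrot i y hy)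
    · simp only [rt, rotation, inner_sub_right, hep]
      abel
  have hKmir : ∀ j, ∀ x ∈ K, x - (2 * ⟪e (Sum.inr j), x⟫) • e (Sum.inr j) ∈ K := by
    rintro j _ ⟨x, hx, rfl⟩
    refine ⟨x - (2 * (⟪e (Sum.inr j), x⟫ - c (Sum.inr j))) • e (Sum.inr j), ?_, ?_⟩
    · exact map_mem_closure (f := fun x => x - (2 * (⟪e (Sum.inr j), x⟫ - c (Sum.inr j))) •
        e (Sum.inr j)) (by fun_prop) hx (fun y hy => hmir j y hy)
    · simp only [inner_sub_right, hep]
      abel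
  -- the components
  set UR : Fin k → Submodule ℝ (EuclideanSpace ℝ (Fin d)) :=
    fun i => (Submodule.span ℝ {e (Sum.inl (i, 0)), e (Sum.inl (i, 1))})ᗮ with hUR
  set UM : Fin l → Submodule ℝ (EuclideanSpace ℝ (Fin d)) :=
    fun j => (Submodule.span ℝ {e (Sum.inr j)})ᗮ with hUM
  have hR : ∀ i, Sec (UR i) K (Metric.diam X) (2 + excess (θ i) + 1) ∧ Comp (UR i) K := fun i =>
    rot_component' hKc hKD (hn _) (hn _) (ho2 i) (hθ i).1 (hθ i).2 (hKrot i)
  have hM : ∀ j, Sec (UM j) K (Metric.diam X) 2 ∧ Comp (UM j) K := fun j =>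
    mirror_component hKD (hn _) (hKmir j)
  set U : Fin k ⊕ Fin l → Submodule ℝ (EuclideanSpace ℝ (Fin d)) := Sum.elim UR UM with hU
  have hcomp : ∀ i, Comp (U i) K := by
    rintro (i | j)
    · exact (hR i).2
    · exact (hM j).2
  set S : Fin k ⊕ Fin l → Set (EuclideanSpace ℝ (Fin d)) :=
    Sum.elim (fun i => {e (Sum.inl (i, 0)), e (Sum.inl (i, 1))}) (fun j => {e (Sum.inr j)})
    with hS
  have hUS : ∀ i, U i = (Submodule.span ℝ (S i))ᗮ := by
    rintro (i | j) <;> rfl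
  have hor : ∀ i j, i ≠ j → (U i)ᗮ ≤ U j := by
    intro i j hij
    rw [hUS, hUS, Submodule.orthogonal_orthogonal]
    change Submodule.IsOrtho _ _
    rw [Submodule.isOrtho_span]
    intro u hu w hw
    rcases i with i | i <;> rcases j with j | j
    · have hij' : i ≠ j := fun h => hij (by rw [h])
      simp only [hS, Sum.elim_inl, mem_insert_iff, mem_singleton_iff] at hu hw
      rcases hu with rfl | rfl <;> rcases hw with rfl | rfl <;> exact ho _ _ (by simp [hij'])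
    · simp only [hS, Sum.elim_inl, Sum.elim_inr, mem_insert_iff, mem_singleton_iff] at hu hw
      subst hw
      rcases hu with rfl | rfl <;> exact ho _ _ (by simp)
    · simp only [hS, Sum.elim_inl, Sum.elim_inr, mem_insert_iff, mem_singleton_iff] at hu hw
      subst hu
      rcases hw with rfl | rfl <;> exact ho _ _ (by simp)
    · have hij' : i ≠ j := fun h => hij (by rw [h])
      simp only [hS, Sum.elim_inr, mem_singleton_iff] at hu hw
      subst hu hw
      exact ho _ _ (by simp [hij'])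
  set F : Submodule ℝ (EuclideanSpace ℝ (Fin d)) := (Submodule.span ℝ (Set.range e))ᗮ with hF
  have hFU : ∀ i, F ≤ U i := by
    intro i
    rw [hUS, hF]
    refine Submodule.orthogonal_le (Submodule.span_mono ?_)
    rcases i with i | j
    · rintro w hw
      simp only [hS, Sum.elim_inl, mem_insert_iff, mem_singleton_iff] at hw
      rcases hw with rfl | rfl <;> exact ⟨_, rfl⟩
    · rintro w hw
      simp only [hS, Sum.elim_inr, mem_singleton_iff] at hw
      exact ⟨_, hw.symm⟩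
  have hsum : ∀ x, zc F x = ∑ i, zc (U i) x := by
    intro x
    rw [hF, zc_range he, Fintype.sum_sum_type, Fintype.sum_sum_type, Fintype.sum_prod_type]
    congr 1
    · refine Finset.sum_congr rfl fun i _ => ?_
      rw [Fin.sum_univ_two]
      exact (zc_span (hn _) (hn _) (ho2 i) x).symm
    · refine Finset.sum_congr rfl fun j _ => ?_
      exact (zc_single (hn _) x).symm
  constructor
  · intro hd
    have hfr : 2 * k + l + Module.finrank ℝ F = d := by
      have h6 := Submodule.finrank_add_finrank_orthogonal (Submodule.span ℝ (Set.range e))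
      rw [finrank_span_eq_card he.linearIndependent, finrank_euclideanSpace_fin] at h6
      have h7 : Fintype.card ((Fin k × Fin 2) ⊕ Fin l) = 2 * k + l := by
        simp [mul_comm]
      rw [h7] at h6
      exact h6
    have hpair := pair_multi U hor hcomp F hFU hsum hKD
    have hsmall := small_multi U hor hcomp F hFU hsum hKD
    have hcov : Cov K (Metric.diam X) (∑ i : Fin k, (2 + excess (θ i)) +
        (∑ _j : Fin l, 1 + (Module.finrank ℝ F + 1))) := by
      refine cov_multi UR (fun i => 2 + excess (θ i)) hKc hKD (fun i => (hR i).1)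
        fun R hRc hRK hRfar => ?_
      refine cov_multi UM (fun _ => 1) hRc (fun x hx y hy => hKD x (hRK hx) y (hRK hy))
        (fun j => (hM j).1.mono hRK) fun R' hRc' hRR' hRfar' => ?_
      refine rem_small F hKc hKne hD hpair hsmall R' hRc' (hRR'.trans hRK) ?_ rfl (by omega)
      intro x hx y hy hxy
      rw [inner_zc_sum U hor F hsum]
      refine Finset.sum_eq_zero fun i _ => ?_
      have h0 : zc (U i) x = 0 ∨ zc (U i) y = 0 := by
        rcases i with i | j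
        · exact hRfar x (hRR' hx) y (hRR' hy) hxy i
        · exact hRfar' x hx y hy hxy j
      rcases h0 with h | h
      · rw [h, inner_zero_left]
      · rw [h, inner_zero_right]
    have hcard : (∑ i : Fin k, (2 + excess (θ i)) + (∑ _j : Fin l, 1 + (Module.finrank ℝ F + 1)))
        = d + 1 + ∑ i, excess (θ i) := by
      rw [Finset.sum_add_distrib, Finset.sum_const, Finset.sum_const, Finset.card_univ,
        Finset.card_univ, Fintype.card_fin, Fintype.card_fin, smul_eq_mul, smul_eq_mul]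
      omega
    rw [hcard] at hcov
    exact cov_final hX hD p hcov
  · rintro N ⟨P, hP1, hP2⟩
    have hcov : Cov K (Metric.diam X)
        (N + ∑ i : Fin k ⊕ Fin l, (Sum.elim (fun i => 2 + excess (θ i) + 1) (fun _ => 2) i)) := by
      refine cov_flat U F hsum hKc hKD (n := Sum.elim (fun i => 2 + excess (θ i) + 1) fun _ => 2)
        ?_ (fun i => (fun x => x - p) '' P i) ?_ ?_
      · rintro (i | j)
        · exact (hR i).1
        · exact (hM j).1
      · refine fun i => ⟨Metric.diam (P i), (hP1 i).2, ?_⟩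
        rintro _ ⟨x, hx, rfl⟩ _ ⟨y, hy, rfl⟩
        dsimp only
        rw [dist_sub_right]
        exact Metric.dist_le_diam_of_mem (hP1 i).1 hx hy
      · rintro _ ⟨x, hx, rfl⟩ h0
        have h1 := zc_eq_zero _ h0
        rw [hF, mem_orth_range] at h1
        have h2 : x ∈ closure X ∩ {x | ∀ v, ⟪e v, x⟫ = c v} := by
          refine ⟨hx, fun v => ?_⟩
          have := h1 v
          rw [inner_sub_right, hep, sub_eq_zero] at this
          exact this
        obtain ⟨i, hi⟩ := mem_iUnion.1 (hP2 h2)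
        exact ⟨i, x, hi, rfl⟩
    have hcard : (N + ∑ i : Fin k ⊕ Fin l,
        (Sum.elim (fun i => 2 + excess (θ i) + 1) (fun _ => 2) i : ℕ))
        = N + (3 * k + 2 * l) + ∑ i, excess (θ i) := by
      rw [Fintype.sum_sum_type]
      simp only [Sum.elim_inl, Sum.elim_inr, Finset.sum_add_distrib, Finset.sum_const,
        Finset.card_univ, Fintype.card_fin, smul_eq_mul]
      ring
    rw [hcard] at hcov
    exact cov_final hX hD p hcov

end

end Vale.Agent.P052.H487
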