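import Vale.Agent.P052.H487.Grp
import Vale.Agent.P052.H487.Multi4

/-!
Borsuk's partition problem: orthogonal components with symmetries, bounded sets.
-/

namespace Vale.Agent.P052.H487

open Metric Set
open scoped RealInnerProductSpace
open Vale.Agent.P052.H768 (zc zc_mem sp_mem sp_add_zc inner_zc inner_sp zc_sub norm_sq_split
  continuous_zc tr tr_compact tr_dist smallerCover_of)

section
variable {V : Type*} [NormedAddCommGroup V] [InnerProductSpace ℝ V] [FiniteDimensional ℝ V]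
variable {ι : Type*} [Fintype ι] [DecidableEq ι] (W : ι → Submodule ℝ V)
  (hW : ∀ i j, i ≠ j → W i ≤ (W j)ᗮ)
include hW

theorem zc_sum (x : V) : zc (⨆ i, W i)ᗮ x = ∑ i, zc (W i)ᗮ x := by
  have hmem : ∀ i, zc (W i)ᗮ x ∈ W i := fun i => by
    rw [zc_orth]; exact (W i).starProjection_apply_mem x
  have h3 : (⨆ i, W i)ᗮ.starProjection x = x - ∑ i, zc (W i)ᗮ x := by
    refine Submodule.eq_starProjection_of_mem_of_inner_eq_zero ?_ ?_
    · rw [← Submodule.iInf_orthogonal, Submodule.mem_iInf]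
      intro j
      have h4 : x - ∑ i, zc (W i)ᗮ x
          = (x - zc (W j)ᗮ x) - ∑ i ∈ Finset.univ.erase j, zc (W i)ᗮ x := by
        rw [← Finset.add_sum_erase _ _ (Finset.mem_univ j)]
        abel
      rw [h4]
      refine Submodule.sub_mem _ ?_ (Submodule.sum_mem _ fun i hi => ?_)
      · rw [zc, sub_sub_cancel]
        exact (W j)ᗮ.starProjection_apply_mem x
      · exact hW i j (Finset.ne_of_mem_erase hi) (hmem i)
    · intro w hw
      rw [sub_sub_cancel, sum_inner]
      refine Finset.sum_eq_zero fun i _ => ?_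
      exact (Submodule.mem_orthogonal _ w).1 hw _ (Submodule.mem_iSup_of_mem i (hmem i))
  rw [zc, h3, sub_sub_cancel]

theorem finrank_sum : Module.finrank ℝ (⨆ i, W i : Submodule ℝ V) =
    ∑ i, Module.finrank ℝ (W i) := by
  have key : ∀ s : Finset ι, Module.finrank ℝ (⨆ i ∈ s, W i : Submodule ℝ V) =
      ∑ i ∈ s, Module.finrank ℝ (W i) := by
    intro s
    induction s using Finset.induction_on with
    | empty => simp
    | insert j s hj ih =>
      have h1 := Submodule.finrank_sup_add_finrank_inf_eq (W j) (⨆ i ∈ s, W i)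
      have h2 : W j ⊓ (⨆ i ∈ s, W i) = ⊥ := by
        rw [← disjoint_iff]
        refine Submodule.IsOrtho.disjoint ?_
        rw [Submodule.isOrtho_iSup_right]
        intro i
        rw [Submodule.isOrtho_iSup_right]
        intro hi
        exact hW j i (fun h => hj (h ▸ hi))
      rw [h2, finrank_bot, add_zero, ih] at h1
      rw [Finset.iSup_insert, Finset.sum_insert hj, h1]
  have h : (⨆ i, W i) = ⨆ i ∈ (Finset.univ : Finset ι), W i := by simp
  rw [h]
  exact key Finset.univ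

end

section
variable {d : ℕ} {X : Set (EuclideanSpace ℝ (Fin d))}
variable {ι : Type*} [Fintype ι] [DecidableEq ι]

theorem main_comps (hX : Bornology.IsBounded X) (hD : 0 < Metric.diam X)
    (p : EuclideanSpace ℝ (Fin d)) (W : ι → Submodule ℝ (EuclideanSpace ℝ (Fin d)))
    (hW : ∀ i j, i ≠ j → W i ≤ (W j)ᗮ) (n : ι → ℕ)
    (hsec : ∀ i, Sec (W i)ᗮ (tr X p) (Metric.diam X) (n i + 1))
    (hcomp : ∀ i, Comp (W i)ᗮ (tr X p)) :
    (d ≤ ∑ i, Module.finrank ℝ (W i) + 2 → ∀ M : ℕ,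
      ∑ i, n i + d = M + ∑ i, Module.finrank ℝ (W i) → IsSmallerCover X (M + 1)) ∧
    ∀ N : ℕ, CoveredBelow (closure X ∩ {x | ∀ i, x - p ∈ (W i)ᗮ}) (Metric.diam X) N →
      IsSmallerCover X (N + ∑ i, (n i + 1)) := by
  set K := tr X p with hK
  have hKc : IsCompact K := tr_compact hX p
  have hKD : ∀ x ∈ K, ∀ y ∈ K, dist x y ≤ Metric.diam X := tr_dist hX p
  have hKne : K.Nonempty := (nonempty_of_diam hD).closure.image _
  set U : ι → Submodule ℝ (EuclideanSpace ℝ (Fin d)) := fun i => (W i)ᗮ with hU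
  set F : Submodule ℝ (EuclideanSpace ℝ (Fin d)) := (⨆ i, W i)ᗮ with hF
  have hor : ∀ i j, i ≠ j → (U i)ᗮ ≤ U j := by
    intro i j hij
    rw [hU, Submodule.orthogonal_orthogonal]
    exact hW i j hij
  have hFU : ∀ i, F ≤ U i := fun i => Submodule.orthogonal_le (le_iSup W i)
  have hsum : ∀ x, zc F x = ∑ i, zc (U i) x := zc_sum W hW
  constructor
  · intro hd M hM
    have hfr : ∑ i, Module.finrank ℝ (W i) + Module.finrank ℝ F = d := by
      have h6 := Submodule.finrank_add_finrank_orthogonal (⨆ i, W i)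
      rw [finrank_sum W hW, finrank_euclideanSpace_fin] at h6
      exact h6
    have hpair := pair_multi U hor hcomp F hFU hsum hKD
    have hsmall := small_multi U hor hcomp F hFU hsum hKD
    set e : ι ≃ Fin (Fintype.card ι) := Fintype.equivFin ι with he
    have hcov : Cov K (Metric.diam X) (∑ j, n (e.symm j) + (Module.finrank ℝ F + 1)) := by
      refine cov_multi (fun j => U (e.symm j)) (fun j => n (e.symm j)) hKc hKD
        (fun j => hsec (e.symm j)) fun R hRc hRK hRfar => ?_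
      refine rem_small F hKc hKne hD hpair hsmall R hRc hRK ?_ rfl (by omega)
      intro x hx y hy hxy
      rw [inner_zc_sum U hor F hsum]
      refine Finset.sum_eq_zero fun i _ => ?_
      have h0 : zc (U i) x = 0 ∨ zc (U i) y = 0 := by
        have := hRfar x hx y hy hxy (e i)
        rwa [Equiv.symm_apply_apply] at this
      rcases h0 with h | h
      · rw [h, inner_zero_left]
      · rw [h, inner_zero_right]
    rw [Equiv.sum_comp e.symm n] at hcov
    have hcard : ∑ i, n i + (Module.finrank ℝ F + 1) = M + 1 := by omega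
    rw [hcard] at hcov
    exact cov_final hX hD p hcov
  · rintro N ⟨P, hP1, hP2⟩
    refine cov_final hX hD p (cov_flat U F hsum hKc hKD hsec (fun i => (fun x => x - p) '' P i)
      ?_ ?_)
    · refine fun i => ⟨Metric.diam (P i), (hP1 i).2, ?_⟩
      rintro _ ⟨x, hx, rfl⟩ _ ⟨y, hy, rfl⟩
      dsimp only
      rw [dist_sub_right]
      exact Metric.dist_le_diam_of_mem (hP1 i).1 hx hy
    · rintro _ ⟨x, hx, rfl⟩ h0
      have h1 := zc_eq_zero _ h0
      rw [hF, ← Submodule.iInf_orthogonal, Submodule.mem_iInf] at h1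
      obtain ⟨i, hi⟩ := mem_iUnion.1 (hP2 ⟨hx, h1⟩)
      exact ⟨i, x, hi, rfl⟩

/-- **Orthogonal components: rotations and groups with dense orbits.** -/
theorem main_groups {k r : ℕ} (hX : Bornology.IsBounded X) (hD : 0 < Metric.diam X)
    (p : EuclideanSpace ℝ (Fin d))
    (e : Fin k × Fin 2 → EuclideanSpace ℝ (Fin d)) (he : Orthonormal ℝ e) (θ : Fin k → ℝ)
    (hθ : ∀ i, 0 < θ i ∧ θ i ≤ Real.pi)
    (W : Fin r → Submodule ℝ (EuclideanSpace ℝ (Fin d)))
    (G : Fin r → Set (EuclideanSpace ℝ (Fin d) ≃ₗᵢ[ℝ] EuclideanSpace ℝ (Fin d)))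
    (hG : ∀ j, DenseOrbitsV (W j) (G j)) (hW : ∀ i j, i ≠ j → W i ⟂ W j)
    (heW : ∀ v j, e v ∈ (W j)ᗮ)
    (hrot : ∀ i, ∀ x ∈ X,
      rotation (e (i, 0)) (e (i, 1)) ⟪e (i, 0), p⟫ ⟪e (i, 1), p⟫ (θ i) x ∈ X)
    (hgrp : ∀ j, ∀ g ∈ G j, ∀ x ∈ X, p + g (x - p) ∈ X) :
    (d ≤ 2 * k + ∑ j, Module.finrank ℝ (W j) + 2 →
      IsSmallerCover X (d + 1 + ∑ i, excess (θ i))) ∧
    ∀ N : ℕ, CoveredBelow (closure X ∩ {x | (∀ v, ⟪e v, x - p⟫ = 0) ∧ ∀ j, x - p ∈ (W j)ᗮ})
        (Metric.diam X) N →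
      IsSmallerCover X (N + (3 * k + ∑ j, (Module.finrank ℝ (W j) + 1)) +
        ∑ i, excess (θ i)) := by
  set K := tr X p with hK
  have hKc : IsCompact K := tr_compact hX p
  have hKD : ∀ x ∈ K, ∀ y ∈ K, dist x y ≤ Metric.diam X := tr_dist hX p
  have hn : ∀ v, ‖e v‖ = 1 := he.1
  have ho : ∀ v w, v ≠ w → ⟪e v, e w⟫ = 0 := fun v w h => he.2 h
  have ho2 : ∀ i : Fin k, ⟪e (i, 0), e (i, 1)⟫ = 0 := fun i => ho _ _ (by simp)
  have hKrot : ∀ i, ∀ x ∈ K, rt (e (i, 0)) (e (i, 1)) (θ i) x ∈ K := by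
    rintro i _ ⟨x, hx, rfl⟩
    refine ⟨rotation (e (i, 0)) (e (i, 1)) ⟪e (i, 0), p⟫ ⟪e (i, 1), p⟫ (θ i) x, ?_, ?_⟩
    · exact map_mem_closure (f := rotation (e (i, 0)) (e (i, 1)) ⟪e (i, 0), p⟫ ⟪e (i, 1), p⟫ (θ i))
        (by unfold rotation; fun_prop) hx (fun y hy => hrot i y hy)
    · simp only [rt, rotation, inner_sub_right]
      abel
  have hKgrp : ∀ j, ∀ g ∈ G j, ∀ x ∈ K, g x ∈ K := by
    rintro j g hg _ ⟨x, hx, rfl⟩
    refine ⟨p + g (x - p), ?_, add_sub_cancel_left _ _⟩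
    exact map_mem_closure (f := fun x => p + g (x - p))
      (by have := g.continuous; fun_prop) hx (fun y hy => hgrp j g hg y hy)
  set WR : Fin k → Submodule ℝ (EuclideanSpace ℝ (Fin d)) :=
    fun i => Submodule.span ℝ {e (i, 0), e (i, 1)} with hWR
  have hR := fun i => rot_component' hKc hKD (hn (i, 0)) (hn (i, 1)) (ho2 i) (hθ i).1 (hθ i).2
    (hKrot i)
  have hRW : ∀ i j, WR i ≤ (W j)ᗮ := by
    intro i j
    rw [hWR, Submodule.span_le]
    rintro w hw
    simp only [mem_insert_iff, mem_singleton_iff] at hw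
    rcases hw with rfl | rfl <;> exact heW _ j
  set WW : Fin k ⊕ Fin r → Submodule ℝ (EuclideanSpace ℝ (Fin d)) := Sum.elim WR W with hWW
  set n : Fin k ⊕ Fin r → ℕ :=
    Sum.elim (fun i => 2 + excess (θ i)) (fun j => Module.finrank ℝ (W j)) with hnn
  have hort : ∀ i j, i ≠ j → WW i ≤ (WW j)ᗮ := by
    rintro (i | i) (j | j) hij
    · have hij' : i ≠ j := fun h => hij (by rw [h])
      change Submodule.IsOrtho _ _
      rw [hWW, Sum.elim_inl, Sum.elim_inl, hWR, Submodule.isOrtho_span]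
      intro u hu w hw
      simp only [mem_insert_iff, mem_singleton_iff] at hu hw
      rcases hu with rfl | rfl <;> rcases hw with rfl | rfl <;> exact ho _ _ (by simp [hij'])
    · exact hRW i j
    · exact (Submodule.le_orthogonal_iff_le_orthogonal).1 (hRW j i)
    · exact hW i j (fun h => hij (by rw [h]))
  have hsec : ∀ i, Sec (WW i)ᗮ K (Metric.diam X) (n i + 1) := by
    rintro (i | j)
    · exact (hR i).1
    · exact sec_grp hKD (W j) (hG j) (hKgrp j)
  have hcomp : ∀ i, Comp (WW i)ᗮ K := by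
    rintro (i | j)
    · exact (hR i).2
    · exact comp_grp (W j) (hG j) (hKgrp j)
  obtain ⟨h1, h2⟩ := main_comps hX hD p WW hort n hsec hcomp
  have hf2 : ∀ i, Module.finrank ℝ (WR i) = 2 := fun i => finrank_pair (hn _) (hn _) (ho2 i)
  have hfin : ∑ i, Module.finrank ℝ (WW i) = 2 * k + ∑ j, Module.finrank ℝ (W j) := by
    have e3 : ∀ i, Module.finrank ℝ (WW (Sum.inl i)) = 2 := hf2
    have e4 : ∀ j, Module.finrank ℝ (WW (Sum.inr j)) = Module.finrank ℝ (W j) := fun _ => rfl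
    rw [Fintype.sum_sum_type]
    simp only [e3, e4, Finset.sum_const, Finset.card_univ, Fintype.card_fin, smul_eq_mul]
    ring
  have hnsum : ∑ i, n i = 2 * k + ∑ i, excess (θ i) + ∑ j, Module.finrank ℝ (W j) := by
    rw [Fintype.sum_sum_type]
    simp only [hnn, Sum.elim_inl, Sum.elim_inr, Finset.sum_add_distrib, Finset.sum_const,
      Finset.card_univ, Fintype.card_fin, smul_eq_mul]
    ring
  constructor
  · intro hd
    have h3 := h1 (by rw [hfin]; exact hd) (d + ∑ i, excess (θ i)) (by rw [hfin, hnsum]; ring)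
    have e1 : d + ∑ i, excess (θ i) + 1 = d + 1 + ∑ i, excess (θ i) := by ring
    rwa [e1] at h3
  · intro N hN
    have hsub : closure X ∩ {x | ∀ i, x - p ∈ (WW i)ᗮ} ⊆
        closure X ∩ {x | (∀ v, ⟪e v, x - p⟫ = 0) ∧ ∀ j, x - p ∈ (W j)ᗮ} := by
      rintro x ⟨hx, hx'⟩
      refine ⟨hx, ?_, fun j => hx' (Sum.inr j)⟩
      rintro ⟨i, t⟩
      have h4 := (Submodule.mem_orthogonal _ _).1 (hx' (Sum.inl i)) (e (i, t))
        (Submodule.subset_span (by
          fin_cases t
          · exact Or.inl rfl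
          · exact Or.inr rfl))
      exact h4
    obtain ⟨P, hP1, hP2⟩ := hN
    have h3 := h2 N ⟨P, hP1, hsub.trans hP2⟩
    have e1 : ∑ i, (n i + 1) = 3 * k + ∑ j, (Module.finrank ℝ (W j) + 1) +
        ∑ i, excess (θ i) := by
      rw [Finset.sum_add_distrib, hnsum, Finset.sum_add_distrib]
      simp only [Finset.sum_const, Finset.card_univ, Fintype.card_sum, Fintype.card_fin,
        smul_eq_mul]
      ring
    rw [e1, ← add_assoc] at h3
    exact h3

end

end Vale.Agent.P052.H487
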