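import Vale.Agent.P052.H487.Grp2

/-!
Borsuk's partition problem: a mirror as a group with dense orbits on a line.
-/

namespace Vale.Agent.P052.H487

open Metric Set
open scoped RealInnerProductSpace

/-- A mirror. -/
theorem dense_mirror {V : Type*} [NormedAddCommGroup V] [InnerProductSpace ℝ V]
    [FiniteDimensional ℝ V] {n : V} (hn : ‖n‖ = 1) :
    DenseOrbitsV (Submodule.span ℝ {n})
      {LinearIsometryEquiv.refl ℝ V, (Submodule.span ℝ {n})ᗮ.reflection} := by
  have hn0 : n ≠ 0 := by
    intro h
    rw [h, norm_zero] at hn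
    exact zero_ne_one hn
  have hnn : ⟪n, n⟫ = 1 := by rw [real_inner_self_eq_norm_sq, hn, one_pow]
  refine ⟨?_, 1, by norm_num, ?_, ?_⟩
  · rintro g (rfl | rfl) v hv
    · rfl
    · exact Submodule.reflection_mem_subspace_eq_self hv
  · rw [finrank_span_singleton hn0]
    norm_num
  · intro u hu v hv
    obtain ⟨a, rfl⟩ := Submodule.mem_span_singleton.1 hu
    obtain ⟨b, rfl⟩ := Submodule.mem_span_singleton.1 hv
    rcases le_total (a * b) 0 with h | h
    · refine ⟨_, Or.inl rfl, ?_⟩
      rw [LinearIsometryEquiv.coe_refl, id_eq, real_inner_smul_left, real_inner_smul_right, hnn,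
        norm_smul, norm_smul, hn, Real.norm_eq_abs, Real.norm_eq_abs, mul_one, mul_one, one_mul,
        mul_one, ← abs_mul, abs_of_nonpos h]
      linarith
    · refine ⟨_, Or.inr rfl, ?_⟩
      have h1 : (Submodule.span ℝ {n})ᗮ.reflection (b • n) = -(b • n) := by
        refine Submodule.reflection_mem_subspace_orthogonalComplement_eq_neg ?_
        rw [Submodule.orthogonal_orthogonal]
        exact hv
      rw [h1, inner_neg_right, real_inner_smul_left, real_inner_smul_right, hnn,
        norm_smul, norm_smul, hn, Real.norm_eq_abs, Real.norm_eq_abs, mul_one, mul_one, one_mul,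
        mul_one, ← abs_mul, abs_of_nonneg h]

end Vale.Agent.P052.H487
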