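import Vale.Agent.P052.H487.Grp2
import Vale.Agent.P052.H487.Five2

/-!
Borsuk's partition problem: one group with dense orbits and a flat of dimension three.
-/

namespace Vale.Agent.P052.H487

open Metric Set
open scoped RealInnerProductSpace
open Vale.Agent.P052.H768 (zc zc_mem sp_mem sp_add_zc inner_zc inner_sp zc_sub norm_sq_split
  continuous_zc tr tr_compact tr_dist smallerCover_of)

/-- **One group with dense orbits and a flat of dimension three.** -/
theorem main_three_grp {d : ℕ} {X : Set (EuclideanSpace ℝ (Fin d))} (hX : Bornology.IsBounded X)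
    (hD : 0 < Metric.diam X) (p : EuclideanSpace ℝ (Fin d))
    (W : Submodule ℝ (EuclideanSpace ℝ (Fin d)))
    (G : Set (EuclideanSpace ℝ (Fin d) ≃ₗᵢ[ℝ] EuclideanSpace ℝ (Fin d)))
    (hG : DenseOrbitsV W G) (hanti : ∀ u ∈ W, ∃ g ∈ G, ⟪u, g u⟫ ≤ -(101 / 125 * ‖u‖ ^ 2))
    (hgrp : ∀ g ∈ G, ∀ x ∈ X, p + g (x - p) ∈ X) (hd : d = Module.finrank ℝ W + 3) :
    IsSmallerCover X (d + 1) := by
  set K := tr X p with hK
  have hKc : IsCompact K := tr_compact hX p
  have hKD : ∀ x ∈ K, ∀ y ∈ K, dist x y ≤ Metric.diam X := tr_dist hX p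
  have hKne : K.Nonempty := (nonempty_of_diam hD).closure.image _
  have hKgrp : ∀ g ∈ G, ∀ x ∈ K, g x ∈ K := by
    rintro g hg _ ⟨x, hx, rfl⟩
    refine ⟨p + g (x - p), ?_, add_sub_cancel_left _ _⟩
    exact map_mem_closure (f := fun x => p + g (x - p))
      (by have := g.continuous; fun_prop) hx (fun y hy => hgrp g hg y hy)
  have hfr : Module.finrank ℝ Wᗮ = 3 := by
    have h6 := Submodule.finrank_add_finrank_orthogonal W
    rw [finrank_euclideanSpace_fin] at h6
    omega
  have hsec := sec_grp hKD W hG hKgrp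
  have hcomp := comp_grp W hG hKgrp
  have hpair := pair_multi (ι := Unit) (fun _ => Wᗮ) (fun i j h => absurd rfl h)
    (fun _ => hcomp) Wᗮ (fun _ => le_rfl) (fun x => by simp) hKD
  have hsmall : ∀ x ∈ K, 1000 * ‖zc Wᗮ x‖ ^ 2 ≤ 277 * Metric.diam X ^ 2 := by
    intro x hx
    have hmem : zc Wᗮ x ∈ W := by rw [zc_orth]; exact W.starProjection_apply_mem x
    obtain ⟨g, hgG, hg⟩ := hanti _ hmem
    obtain ⟨h2, h3⟩ := grp_act W (hG.1 g hgG) x
    have h4 : Wᗮ.starProjection (g x) = Wᗮ.starProjection x := by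
      have h5 : Wᗮ.starProjection (g x - x) = 0 := by
        rw [Submodule.starProjection_apply_eq_zero_iff, Submodule.orthogonal_orthogonal]
        exact h2
      rw [map_sub] at h5
      exact sub_eq_zero.1 h5
    have h5 := dist_sq Wᗮ x (g x)
    have h6 : dist x (g x) ^ 2 ≤ Metric.diam X ^ 2 := by
      have := hKD x hx _ (hKgrp g hgG x hx)
      gcongr
    rw [h4, h3, norm_sub_sq_real (zc Wᗮ x), g.norm_map, sub_self, norm_zero] at h5
    nlinarith [sq_nonneg ‖zc Wᗮ x‖]
  obtain ⟨C, hC, D', hD', hCd⟩ := sec_glue _ hKc hKD hsec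
    (rem_three' _ hKc hKne hD hpair hfr hsmall)
  exact smallerCover_of hD p (by rw [Fintype.card_sum, Fintype.card_fin, Fintype.card_fin]; omega)
    C (fun x hx => mem_iUnion.1 (hC ⟨x, subset_closure hx, rfl⟩)) hD' hCd

end Vale.Agent.P052.H487
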