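import Vale.Agent.P052.H487.Rot2

/-!
Borsuk's partition problem: several orthogonal components.
-/

namespace Vale.Agent.P052.H487

open Metric Set
open scoped RealInnerProductSpace
open Vale.Agent.P052.H768 (zc zc_mem sp_mem sp_add_zc inner_zc inner_sp zc_sub norm_sq_split
  continuous_zc tr tr_compact tr_dist smallerCover_of)

variable {V : Type*} [NormedAddCommGroup V] [InnerProductSpace ℝ V] [FiniteDimensional ℝ V]

/-- `n` compact classes without far pairs. -/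
def Cov (K : Set V) (D : ℝ) (n : ℕ) : Prop :=
  ∃ C : Fin n → Set V, (∀ j, IsCompact (C j)) ∧ (∀ j, C j ⊆ K) ∧ K ⊆ ⋃ j, C j ∧
    ∀ j, ∀ x ∈ C j, ∀ y ∈ C j, dist x y ≠ D

omit [InnerProductSpace ℝ V] [FiniteDimensional ℝ V] in
theorem cov_shrink {K : Set V} (hK : IsCompact K) {D : ℝ}
    (hD : ∀ x ∈ K, ∀ y ∈ K, dist x y ≤ D) {ι : Type*} [Fintype ι] {n : ℕ}
    (hι : Fintype.card ι = n) (O : ι → Set V) (hO : ∀ i, IsOpen (O i)) (hcov : K ⊆ ⋃ i, O i)
    (hfar : ∀ i, ∀ x ∈ K, ∀ y ∈ K, x ∈ O i → y ∈ O i → dist x y ≠ D) : Cov K D n := by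
  obtain ⟨P, hP1, hP2, hP3, D', hD', hP4⟩ := H768.shrink hK hD O hO hcov hfar
  have e : ι ≃ Fin n := Fintype.equivFinOfCardEq hι
  refine ⟨fun j => P (e.symm j), fun j => hP1 _, fun j => hP2 _, ?_, ?_⟩
  · intro x hx
    obtain ⟨i, hi⟩ := mem_iUnion.1 (hP3 hx)
    exact mem_iUnion.2 ⟨e i, by simpa using hi⟩
  · intro j x hx y hy h
    have := hP4 _ x hx y hy
    linarith

theorem Sec.mono {U : Submodule ℝ V} {K R : Set V} {D : ℝ} {n : ℕ} (h : Sec U K D n)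
    (hR : R ⊆ K) : Sec U R D n := by
  obtain ⟨Q, h1, h2, h3, h4⟩ := h
  exact ⟨Q, h1, hR.trans h2, fun i x hx => h3 i x (hR hx),
    fun i x hx y hy => h4 i x (hR hx) y (hR hy)⟩

theorem cov_step (U : Submodule ℝ V) {K : Set V} (hK : IsCompact K) {D : ℝ}
    (hD : ∀ x ∈ K, ∀ y ∈ K, dist x y ≤ D) {m e : ℕ}
    (hsec : Sec U K D (m + 1))
    (hrem : ∀ R : Set V, IsCompact R → R ⊆ K →
      (∀ x ∈ R, ∀ y ∈ R, dist x y = D → zc U x = 0 ∨ zc U y = 0) → Cov R D e) :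
    Cov K D (m + e) := by
  obtain ⟨Q, hQc, hQK, hQ0, hQfar⟩ := hsec
  obtain ⟨C, hCc, hCR, hRC, hCfar⟩ := hrem (K ∩ Q (Fin.last m)) (hK.inter_right (hQc _))
    inter_subset_left (fun x hx y hy h => hQfar _ x hx.1 y hy.1 hx.2 hy.2 h)
  have hCD : ∀ j, ∀ x ∈ C j, ∀ y ∈ C j, dist x y ≤ D :=
    fun j x hx y hy => hD x (hCR j hx).1 y (hCR j hy).1
  choose O hO1 hO2 hO3 using fun j => H25.exists_open_nofar (hCc j) (hCD j) (hCfar j)
  set K' : Set V := K \ ⋃ j, O j with hK'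
  have hK'c : IsCompact K' := hK.diff (isOpen_iUnion hO1)
  have hK'0 : ∀ x ∈ K', x ∉ Q (Fin.last m) := by
    rintro x ⟨hx, hx'⟩ hxQ
    obtain ⟨j, hj⟩ := mem_iUnion.1 (hRC ⟨hx, hxQ⟩)
    exact hx' (mem_iUnion.2 ⟨j, hO2 j hj⟩)
  choose O' hO1' hO2' hO3' using fun i : Fin m => H25.exists_open_nofar
    (C := K' ∩ Q i.castSucc) (hK'c.inter_right (hQc _))
    (D := D) (fun x hx y hy => hD x hx.1.1 y hy.1.1) (by
      intro x hx y hy h
      rcases hQfar i.castSucc x hx.1.1 y hy.1.1 hx.2 hy.2 h with h0 | h0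
      · exact hK'0 x hx.1 (hQ0 _ x hx.1.1 h0)
      · exact hK'0 y hy.1 (hQ0 _ y hy.1.1 h0))
  refine cov_shrink (ι := Fin m ⊕ Fin e) hK hD (by simp) (Sum.elim O' O) ?_ ?_ ?_
  · rintro (i | j)
    · exact hO1' i
    · exact hO1 j
  · intro x hx
    by_cases h : x ∈ ⋃ j, O j
    · obtain ⟨j, hj⟩ := mem_iUnion.1 h
      exact mem_iUnion.2 ⟨Sum.inr j, hj⟩
    · have hx' : x ∈ K' := ⟨hx, h⟩
      obtain ⟨i, hi⟩ := mem_iUnion.1 (hQK hx)
      rcases Fin.eq_castSucc_or_eq_last i with ⟨i', rfl⟩ | rfl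
      · exact mem_iUnion.2 ⟨Sum.inl i', hO2' i' ⟨hx', hi⟩⟩
      · exact absurd hi (hK'0 x hx')
  · rintro (i | j) x _ y _ h1 h2
    · exact hO3' i x h1 y h2
    · exact hO3 j x h1 y h2

/-- Several components, one after the other. -/
theorem cov_multi {D : ℝ} {e k : ℕ} (U : Fin k → Submodule ℝ V) (m : Fin k → ℕ) :
    ∀ {K : Set V}, IsCompact K → (∀ x ∈ K, ∀ y ∈ K, dist x y ≤ D) →
    (∀ i, Sec (U i) K D (m i + 1)) →
    (∀ R : Set V, IsCompact R → R ⊆ K →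
      (∀ x ∈ R, ∀ y ∈ R, dist x y = D → ∀ i, zc (U i) x = 0 ∨ zc (U i) y = 0) → Cov R D e) →
    Cov K D (∑ i, m i + e) := by
  induction k with
  | zero =>
    intro K hK hD _ hrem
    have := hrem K hK Subset.rfl (fun x _ y _ _ i => i.elim0)
    simpa using this
  | succ k ih =>
    intro K hK hD hsec hrem
    rw [Fin.sum_univ_succ, add_assoc]
    refine cov_step (U 0) hK hD (hsec 0) fun R hR hRK hRfar => ?_
    refine ih (fun i => U i.succ) (fun i => m i.succ) hR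
      (fun x hx y hy => hD x (hRK hx) y (hRK hy)) (fun i => (hsec i.succ).mono hRK)
      fun R' hR' hRR' hfar => ?_
    refine hrem R' hR' (hRR'.trans hRK) fun x hx y hy h i => ?_
    refine Fin.cases ?_ (fun i => ?_) i
    · exact hRfar x (hRR' hx) y (hRR' hy) h
    · exact hfar x hx y hy h i

/-- The symmetries of one component. -/
def Comp (U : Submodule ℝ V) (K : Set V) : Prop :=
  (∀ x ∈ K, ∀ y ∈ K, ∃ z ∈ K, z - y ∈ Uᗮ ∧ ‖zc U z‖ = ‖zc U y‖ ∧ ⟪zc U x, zc U z⟫ ≤ 0) ∧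
  (∀ x ∈ K, ∀ y ∈ K, zc U y = zc U x → ∃ z ∈ K, z - y ∈ Uᗮ ∧ ‖zc U z‖ = ‖zc U y‖ ∧
    2 * ⟪zc U x, zc U z⟫ ≤ -‖zc U x‖ ^ 2)

section
variable {ι : Type*} [Fintype ι] [DecidableEq ι] (U : ι → Submodule ℝ V) {K : Set V}
  (hor : ∀ i j, i ≠ j → (U i)ᗮ ≤ U j) (hcomp : ∀ i, Comp (U i) K)

theorem zc_eq_of_sub_mem {W : Submodule ℝ V} {y z : V} (h : z - y ∈ W) : zc W z = zc W y := by
  have h1 : zc W (z - y) = 0 := by
    rw [zc, (Submodule.starProjection_eq_self_iff).2 h, sub_self]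
  rw [zc_sub] at h1
  exact sub_eq_zero.1 h1

include hor hcomp

omit [Fintype ι] in
theorem turn_all {x y : V} (hx : x ∈ K) (hy : y ∈ K) (s : Finset ι) :
    ∃ z ∈ K, (∀ i ∈ s, ‖zc (U i) z‖ = ‖zc (U i) y‖ ∧ ⟪zc (U i) x, zc (U i) z⟫ ≤ 0) ∧
      (∀ i ∉ s, zc (U i) z = zc (U i) y) ∧ z - y ∈ ⨆ i, (U i)ᗮ := by
  induction s using Finset.induction_on with
  | empty => exact ⟨y, hy, by simp, by simp, by simp⟩
  | insert j s hj ih =>
    obtain ⟨z, hz, h1, h2, h3⟩ := ih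
    obtain ⟨z', hz', g1, g2, g3⟩ := (hcomp j).1 x hx z hz
    refine ⟨z', hz', ?_, ?_, ?_⟩
    · intro i hi
      rcases Finset.mem_insert.1 hi with rfl | hi
      · exact ⟨by rw [g2, h2 i hj], g3⟩
      · have hij : j ≠ i := fun h => hj (h ▸ hi)
        have h4 : zc (U i) z' = zc (U i) z := zc_eq_of_sub_mem (hor j i hij g1)
        rw [h4]
        exact h1 i hi
    · intro i hi
      rw [Finset.mem_insert, not_or] at hi
      have h4 : zc (U i) z' = zc (U i) z := zc_eq_of_sub_mem (hor j i (Ne.symm hi.1) g1)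
      rw [h4]
      exact h2 i hi.2
    · have h4 : z' - y = (z' - z) + (z - y) := by abel
      rw [h4]
      exact Submodule.add_mem _ (Submodule.mem_iSup_of_mem j g1) h3

omit [Fintype ι] in
theorem turn_all_small {x : V} (hx : x ∈ K) (s : Finset ι) :
    ∃ z ∈ K, (∀ i ∈ s, ‖zc (U i) z‖ = ‖zc (U i) x‖ ∧
        2 * ⟪zc (U i) x, zc (U i) z⟫ ≤ -‖zc (U i) x‖ ^ 2) ∧
      (∀ i ∉ s, zc (U i) z = zc (U i) x) ∧ z - x ∈ ⨆ i, (U i)ᗮ := by
  induction s using Finset.induction_on with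
  | empty => exact ⟨x, hx, by simp, by simp, by simp⟩
  | insert j s hj ih =>
    obtain ⟨z, hz, h1, h2, h3⟩ := ih
    obtain ⟨z', hz', g1, g2, g3⟩ := (hcomp j).2 x hx z hz (h2 j hj)
    refine ⟨z', hz', ?_, ?_, ?_⟩
    · intro i hi
      rcases Finset.mem_insert.1 hi with rfl | hi
      · exact ⟨by rw [g2, h2 i hj], g3⟩
      · have hij : j ≠ i := fun h => hj (h ▸ hi)
        have h4 : zc (U i) z' = zc (U i) z := zc_eq_of_sub_mem (hor j i hij g1)
        rw [h4]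
        exact h1 i hi
    · intro i hi
      rw [Finset.mem_insert, not_or] at hi
      have h4 : zc (U i) z' = zc (U i) z := zc_eq_of_sub_mem (hor j i (Ne.symm hi.1) g1)
      rw [h4]
      exact h2 i hi.2
    · have h4 : z' - x = (z' - z) + (z - x) := by abel
      rw [h4]
      exact Submodule.add_mem _ (Submodule.mem_iSup_of_mem j g1) h3

variable (F : Submodule ℝ V) (hF : ∀ i, F ≤ U i) (hsum : ∀ x, zc F x = ∑ i, zc (U i) x)
  {D : ℝ} (hD : ∀ x ∈ K, ∀ y ∈ K, dist x y ≤ D)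
include hF hsum

omit [DecidableEq ι] hcomp hF in
theorem inner_zc_sum (x y : V) : ⟪zc F x, zc F y⟫ = ∑ i, ⟪zc (U i) x, zc (U i) y⟫ := by
  rw [hsum, hsum, sum_inner]
  refine Finset.sum_congr rfl fun i _ => ?_
  rw [inner_sum]
  refine (Finset.sum_eq_single i (fun j _ hj => ?_) (fun h => absurd (Finset.mem_univ i) h))
  exact (Submodule.mem_orthogonal (U j) _).1 (zc_mem (U j) y) _ (hor i j (Ne.symm hj)
    (zc_mem (U i) x))

omit [Fintype ι] [DecidableEq ι] hor hcomp hsum in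
theorem sp_eq_of_sub {y z : V} (h : z - y ∈ ⨆ i, (U i)ᗮ) :
    F.starProjection z = F.starProjection y := by
  have h1 : (⨆ i, (U i)ᗮ) ≤ Fᗮ := iSup_le fun i => Submodule.orthogonal_le (hF i)
  have h2 : F.starProjection (z - y) = 0 :=
    (Submodule.starProjection_apply_eq_zero_iff F).2 (h1 h)
  rw [map_sub] at h2
  exact sub_eq_zero.1 h2

include hD

theorem pair_multi : ∀ x ∈ K, ∀ y ∈ K, ‖F.starProjection x - F.starProjection y‖ ^ 2 ≤
      D ^ 2 - ‖zc F x‖ ^ 2 - ‖zc F y‖ ^ 2 := by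
  intro x hx y hy
  obtain ⟨z, hz, h1, -, h3⟩ := turn_all U hor hcomp hx hy Finset.univ
  have h4 : dist x z ^ 2 ≤ D ^ 2 := by
    have := hD x hx z hz
    gcongr
  have h5 : ‖zc F z‖ ^ 2 = ‖zc F y‖ ^ 2 := by
    rw [← real_inner_self_eq_norm_sq, ← real_inner_self_eq_norm_sq,
      inner_zc_sum U hor F hsum, inner_zc_sum U hor F hsum]
    refine Finset.sum_congr rfl fun i _ => ?_
    rw [real_inner_self_eq_norm_sq, real_inner_self_eq_norm_sq, (h1 i (Finset.mem_univ i)).1]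
  have h6 : ⟪zc F x, zc F z⟫ ≤ 0 := by
    rw [inner_zc_sum U hor F hsum]
    exact Finset.sum_nonpos fun i _ => (h1 i (Finset.mem_univ i)).2
  rw [dist_sq F, norm_sub_sq_real (zc F x), sp_eq_of_sub U F hF h3, h5] at h4
  linarith

theorem small_multi : ∀ x ∈ K, 3 * ‖zc F x‖ ^ 2 ≤ D ^ 2 := by
  intro x hx
  obtain ⟨z, hz, h1, -, h3⟩ := turn_all_small U hor hcomp hx Finset.univ
  have h4 : dist x z ^ 2 ≤ D ^ 2 := by
    have := hD x hx z hz
    gcongr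
  have h5 : ‖zc F z‖ ^ 2 = ‖zc F x‖ ^ 2 := by
    rw [← real_inner_self_eq_norm_sq, ← real_inner_self_eq_norm_sq,
      inner_zc_sum U hor F hsum, inner_zc_sum U hor F hsum]
    refine Finset.sum_congr rfl fun i _ => ?_
    rw [real_inner_self_eq_norm_sq, real_inner_self_eq_norm_sq, (h1 i (Finset.mem_univ i)).1]
  have h6 : 2 * ⟪zc F x, zc F z⟫ ≤ -‖zc F x‖ ^ 2 := by
    rw [← real_inner_self_eq_norm_sq (zc F x), inner_zc_sum U hor F hsum, inner_zc_sum U hor F hsum,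
      Finset.mul_sum, ← Finset.sum_neg_distrib]
    refine Finset.sum_le_sum fun i _ => ?_
    rw [real_inner_self_eq_norm_sq]
    exact (h1 i (Finset.mem_univ i)).2
  rw [dist_sq F, norm_sub_sq_real (zc F x), sp_eq_of_sub U F hF h3, h5, sub_self, norm_zero] at h4
  linarith

end

end Vale.Agent.P052.H487
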