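import Vale.Agent.P052.H487.Multi2
import Vale.Agent.P052.H487.Defs

/-!
Borsuk's partition problem: several orthogonal rotations and mirrors, bounded sets.
-/

namespace Vale.Agent.P052.H487

open Metric Set
open scoped RealInnerProductSpace
open Vale.Agent.P052.H768 (zc zc_mem sp_mem sp_add_zc inner_zc inner_sp zc_sub norm_sq_split
  continuous_zc tr tr_compact tr_dist smallerCover_of)

section
variable {V : Type*} [NormedAddCommGroup V] [InnerProductSpace ℝ V] [FiniteDimensional ℝ V]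

omit [FiniteDimensional ℝ V] in
theorem mem_orth_range {ι : Type*} (e : ι → V) (z : V) :
    z ∈ (Submodule.span ℝ (Set.range e))ᗮ ↔ ∀ v, ⟪e v, z⟫ = 0 := by
  rw [Submodule.mem_orthogonal]
  constructor
  · exact fun h v => h _ (Submodule.subset_span ⟨v, rfl⟩)
  · intro h u hu
    induction hu using Submodule.span_induction with
    | mem x hx =>
      obtain ⟨v, rfl⟩ := hx
      exact h v
    | zero => exact inner_zero_left _
    | add x y _ _ hx hy => rw [inner_add_left, hx, hy, add_zero]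
    | smul a x _ hx => rw [real_inner_smul_left, hx, mul_zero]

theorem zc_range {ι : Type*} [Fintype ι] {e : ι → V} (he : Orthonormal ℝ e) (x : V) :
    zc (Submodule.span ℝ (Set.range e))ᗮ x = ∑ v, ⟪e v, x⟫ • e v := by
  have h3 : (Submodule.span ℝ (Set.range e))ᗮ.starProjection x
      = x - ∑ v, ⟪e v, x⟫ • e v := by
    refine Submodule.eq_starProjection_of_mem_of_inner_eq_zero ?_ ?_
    · rw [mem_orth_range]
      intro v
      rw [inner_sub_right, he.inner_right_fintype, sub_self]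
    · intro w hw
      rw [mem_orth_range] at hw
      rw [sub_sub_cancel, sum_inner]
      refine Finset.sum_eq_zero fun v _ => ?_
      rw [real_inner_smul_left, hw, mul_zero]
  rw [zc, h3, sub_sub_cancel]

theorem zc_single {n : V} (hn : ‖n‖ = 1) (x : V) :
    zc (Submodule.span ℝ {n})ᗮ x = ⟪n, x⟫ • n := by
  have hnn : ⟪n, n⟫ = 1 := by rw [real_inner_self_eq_norm_sq, hn, one_pow]
  have h3 : (Submodule.span ℝ {n})ᗮ.starProjection x = x - ⟪n, x⟫ • n := by
    refine Submodule.eq_starProjection_of_mem_of_inner_eq_zero ?_ ?_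
    · rw [Submodule.mem_orthogonal_singleton_iff_inner_right, inner_sub_right,
        real_inner_smul_right, hnn]
      ring
    · intro w hw
      rw [Submodule.mem_orthogonal_singleton_iff_inner_right] at hw
      rw [sub_sub_cancel, real_inner_smul_left, hw, mul_zero]
  rw [zc, h3, sub_sub_cancel]

end

theorem bound_of_nofar {V : Type*} [MetricSpace V] {C : Set V} (hC : IsCompact C) {D : ℝ}
    (hD : ∀ x ∈ C, ∀ y ∈ C, dist x y ≤ D) (hfar : ∀ x ∈ C, ∀ y ∈ C, dist x y ≠ D) :
    ∃ D' < D, ∀ x ∈ C, ∀ y ∈ C, dist x y ≤ D' := by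
  rcases C.eq_empty_or_nonempty with he | hne
  · refine ⟨D - 1, by linarith, fun x hx => ?_⟩
    rw [he] at hx
    exact absurd hx (notMem_empty x)
  · obtain ⟨q, hq, hmax⟩ := (hC.prod hC).exists_isMaxOn (hne.prod hne)
      (continuous_dist.continuousOn : ContinuousOn (fun p : V × V => dist p.1 p.2) (C ×ˢ C))
    refine ⟨dist q.1 q.2, lt_of_le_of_ne (hD _ hq.1 _ hq.2) (hfar _ hq.1 _ hq.2),
      fun x hx y hy => ?_⟩
    have : (x, y) ∈ C ×ˢ C := ⟨hx, hy⟩
    exact hmax this

/-- From classes without far pairs to a smaller cover. -/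
theorem cov_final {d : ℕ} {X : Set (EuclideanSpace ℝ (Fin d))} (hX : Bornology.IsBounded X)
    (hD : 0 < Metric.diam X) (p : EuclideanSpace ℝ (Fin d)) {n : ℕ}
    (h : Cov (tr X p) (Metric.diam X) n) : IsSmallerCover X n := by
  obtain ⟨C, hCc, hCK, hKC, hfar⟩ := h
  have hb : ∀ j, ∃ D' < Metric.diam X, ∀ x ∈ C j, ∀ y ∈ C j, dist x y ≤ D' := fun j =>
    bound_of_nofar (hCc j) (fun x hx y hy => tr_dist hX p _ (hCK j hx) _ (hCK j hy)) (hfar j)
  choose D' hD' hCD using hb
  obtain ⟨D₁, hD₁, hD₁'⟩ : ∃ D₁ < Metric.diam X, ∀ i, D' i ≤ D₁ := by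
    rcases isEmpty_or_nonempty (Fin n) with h | h
    · exact ⟨Metric.diam X - 1, by linarith, fun i => (h.false i).elim⟩
    · obtain ⟨i, hi⟩ := Finite.exists_max D'
      exact ⟨D' i, hD' i, hi⟩
  exact smallerCover_of hD p (by simp) C
    (fun x hx => mem_iUnion.1 (hKC ⟨x, subset_closure hx, rfl⟩)) hD₁
    (fun i x hx y hy => (hCD i x hx y hy).trans (hD₁' i))

section
variable {d k l : ℕ} {X : Set (EuclideanSpace ℝ (Fin d))}

/-- **Orthogonal rotations and mirrors with a common flat of dimension at most two.** -/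
theorem main_multi (hX : Bornology.IsBounded X) (hD : 0 < Metric.diam X)
    (e : (Fin k × Fin 2) ⊕ Fin l → EuclideanSpace ℝ (Fin d)) (he : Orthonormal ℝ e)
    (c : (Fin k × Fin 2) ⊕ Fin l → ℝ) (θ : Fin k → ℝ)
    (hθ : ∀ i, 0 < θ i ∧ θ i < Real.pi ∧ θ i ≠ 2 * Real.pi / 3)
    (hrot : ∀ i, ∀ x ∈ X, rotation (e (Sum.inl (i, 0))) (e (Sum.inl (i, 1)))
      (c (Sum.inl (i, 0))) (c (Sum.inl (i, 1))) (θ i) x ∈ X)
    (hmir : ∀ j, ∀ x ∈ X, x - (2 * (⟪e (Sum.inr j), x⟫ - c (Sum.inr j))) • e (Sum.inr j) ∈ X)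
    (hd : d ≤ 2 * k + l + 2) : IsSmallerCover X (d + 1) := by
  set p := ∑ v, c v • e v with hp
  have hep : ∀ v, ⟪e v, p⟫ = c v := fun v => by rw [hp, he.inner_right_fintype]
  set K := tr X p with hK
  have hKc : IsCompact K := tr_compact hX p
  have hKD : ∀ x ∈ K, ∀ y ∈ K, dist x y ≤ Metric.diam X := tr_dist hX p
  have hKne : K.Nonempty := (nonempty_of_diam hD).closure.image _
  have hn : ∀ v, ‖e v‖ = 1 := he.1
  have ho : ∀ v w, v ≠ w → ⟪e v, e w⟫ = 0 := fun v w h => he.2 h
  have ho2 : ∀ i : Fin k, ⟪e (Sum.inl (i, 0)), e (Sum.inl (i, 1))⟫ = 0 :=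
    fun i => ho _ _ (by simp)
  -- the symmetries of `K`
  have hKrot : ∀ i, ∀ x ∈ K, rt (e (Sum.inl (i, 0))) (e (Sum.inl (i, 1))) (θ i) x ∈ K := by
    rintro i _ ⟨x, hx, rfl⟩
    refine ⟨rotation (e (Sum.inl (i, 0))) (e (Sum.inl (i, 1)))
      (c (Sum.inl (i, 0))) (c (Sum.inl (i, 1))) (θ i) x, ?_, ?_⟩
    · exact map_mem_closure (f := rotation (e (Sum.inl (i, 0))) (e (Sum.inl (i, 1)))
        (c (Sum.inl (i, 0))) (c (Sum.inl (i, 1))) (θ i)) (by unfold rotation; fun_prop) hx
        (fun y hy => hrot i y hy)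
    · simp only [rt, rotation, inner_sub_right, hep]
      abel
  have hKmir : ∀ j, ∀ x ∈ K, x - (2 * ⟪e (Sum.inr j), x⟫) • e (Sum.inr j) ∈ K := by
    rintro j _ ⟨x, hx, rfl⟩
    refine ⟨x - (2 * (⟪e (Sum.inr j), x⟫ - c (Sum.inr j))) • e (Sum.inr j), ?_, ?_⟩
    · exact map_mem_closure (f := fun x => x - (2 * (⟪e (Sum.inr j), x⟫ - c (Sum.inr j))) •
        e (Sum.inr j)) (by fun_prop) hx (fun y hy => hmir j y hy)
    · simp only [inner_sub_right, hep]
      abel
  -- the components
  set UR : Fin k → Submodule ℝ (EuclideanSpace ℝ (Fin d)) :=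
    fun i => (Submodule.span ℝ {e (Sum.inl (i, 0)), e (Sum.inl (i, 1))})ᗮ with hUR
  set UM : Fin l → Submodule ℝ (EuclideanSpace ℝ (Fin d)) :=
    fun j => (Submodule.span ℝ {e (Sum.inr j)})ᗮ with hUM
  have hR : ∀ i, Sec (UR i) K (Metric.diam X) 3 ∧ Comp (UR i) K := fun i =>
    rot_component hKc hKD (hn _) (hn _) (ho2 i) (hθ i).1 (hθ i).2.1 (hθ i).2.2 (hKrot i)
  have hM : ∀ j, Sec (UM j) K (Metric.diam X) 2 ∧ Comp (UM j) K := fun j =>
    mirror_component hKD (hn _) (hKmir j)
  set U : Fin k ⊕ Fin l → Submodule ℝ (EuclideanSpace ℝ (Fin d)) := Sum.elim UR UM with hU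
  have hcomp : ∀ i, Comp (U i) K := by
    rintro (i | j)
    · exact (hR i).2
    · exact (hM j).2
  set S : Fin k ⊕ Fin l → Set (EuclideanSpace ℝ (Fin d)) :=
    Sum.elim (fun i => {e (Sum.inl (i, 0)), e (Sum.inl (i, 1))}) (fun j => {e (Sum.inr j)})
    with hS
  have hUS : ∀ i, U i = (Submodule.span ℝ (S i))ᗮ := by
    rintro (i | j) <;> rfl
  have hor : ∀ i j, i ≠ j → (U i)ᗮ ≤ U j := by
    intro i j hij
    rw [hUS, hUS, Submodule.orthogonal_orthogonal]
    change Submodule.IsOrtho _ _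
    rw [Submodule.isOrtho_span]
    intro u hu w hw
    rcases i with i | i <;> rcases j with j | j
    · have hij' : i ≠ j := fun h => hij (by rw [h])
      simp only [hS, Sum.elim_inl, mem_insert_iff, mem_singleton_iff] at hu hw
      rcases hu with rfl | rfl <;> rcases hw with rfl | rfl <;> exact ho _ _ (by simp [hij'])
    · simp only [hS, Sum.elim_inl, Sum.elim_inr, mem_insert_iff, mem_singleton_iff] at hu hw
      subst hw
      rcases hu with rfl | rfl <;> exact ho _ _ (by simp)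
    · simp only [hS, Sum.elim_inl, Sum.elim_inr, mem_insert_iff, mem_singleton_iff] at hu hw
      subst hu
      rcases hw with rfl | rfl <;> exact ho _ _ (by simp)
    · have hij' : i ≠ j := fun h => hij (by rw [h])
      simp only [hS, Sum.elim_inr, mem_singleton_iff] at hu hw
      subst hu hw
      exact ho _ _ (by simp [hij'])
  set F : Submodule ℝ (EuclideanSpace ℝ (Fin d)) := (Submodule.span ℝ (Set.range e))ᗮ with hF
  have hFU : ∀ i, F ≤ U i := by
    intro i
    rw [hUS, hF]
    refine Submodule.orthogonal_le (Submodule.span_mono ?_)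
    rcases i with i | j
    · rintro w hw
      simp only [hS, Sum.elim_inl, mem_insert_iff, mem_singleton_iff] at hw
      rcases hw with rfl | rfl <;> exact ⟨_, rfl⟩
    · rintro w hw
      simp only [hS, Sum.elim_inr, mem_singleton_iff] at hw
      exact ⟨_, hw.symm⟩
  have hsum : ∀ x, zc F x = ∑ i, zc (U i) x := by
    intro x
    rw [hF, zc_range he, Fintype.sum_sum_type, Fintype.sum_sum_type, Fintype.sum_prod_type]
    congr 1
    · refine Finset.sum_congr rfl fun i _ => ?_
      rw [Fin.sum_univ_two]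
      exact (zc_span (hn _) (hn _) (ho2 i) x).symm
    · refine Finset.sum_congr rfl fun j _ => ?_
      exact (zc_single (hn _) x).symm
  have hfr : 2 * k + l + Module.finrank ℝ F = d := by
    have h6 := Submodule.finrank_add_finrank_orthogonal (Submodule.span ℝ (Set.range e))
    rw [finrank_span_eq_card he.linearIndependent, finrank_euclideanSpace_fin] at h6
    have h7 : Fintype.card ((Fin k × Fin 2) ⊕ Fin l) = 2 * k + l := by
      simp [mul_comm]
    rw [h7] at h6
    exact h6
  have hpair := pair_multi U hor hcomp F hFU hsum hKD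
  have hsmall := small_multi U hor hcomp F hFU hsum hKD
  have hcov : Cov K (Metric.diam X) (∑ _i : Fin k, 2 +
      (∑ _j : Fin l, 1 + (Module.finrank ℝ F + 1))) := by
    refine cov_multi UR (fun _ => 2) hKc hKD (fun i => (hR i).1) fun R hRc hRK hRfar => ?_
    refine cov_multi UM (fun _ => 1) hRc (fun x hx y hy => hKD x (hRK hx) y (hRK hy))
      (fun j => (hM j).1.mono hRK) fun R' hRc' hRR' hRfar' => ?_
    refine rem_small F hKc hKne hD hpair hsmall R' hRc' (hRR'.trans hRK) ?_ rfl (by omega)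
    intro x hx y hy hxy
    rw [inner_zc_sum U hor F hsum]
    refine Finset.sum_eq_zero fun i _ => ?_
    have h0 : zc (U i) x = 0 ∨ zc (U i) y = 0 := by
      rcases i with i | j
      · exact hRfar x (hRR' hx) y (hRR' hy) hxy i
      · exact hRfar' x hx y hy hxy j
    rcases h0 with h | h
    · rw [h, inner_zero_left]
    · rw [h, inner_zero_right]
  have hcard : (∑ _i : Fin k, 2 + (∑ _j : Fin l, 1 + (Module.finrank ℝ F + 1))) = d + 1 := by
    rw [Finset.sum_const, Finset.sum_const, Finset.card_univ, Finset.card_univ, Fintype.card_fin,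
      Fintype.card_fin, smul_eq_mul, smul_eq_mul]
    omega
  rw [hcard] at hcov
  exact cov_final hX hD p hcov

end

end Vale.Agent.P052.H487
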