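import Vale.Agent.P052.H487.Rot2

/-!
Sets of `ℝ⁴` with a rotation of order three about a plane: the angles of the far pairs at
120 degrees form a null set.
-/

namespace Vale.Agent.P052.H487

open Metric Set MeasureTheory
open scoped RealInnerProductSpace ENNReal
open Vale.Agent.P052.H768 (zc zc_mem sp_mem sp_add_zc inner_zc inner_sp zc_sub norm_sq_split
  continuous_zc tr tr_compact tr_dist smallerCover_of)

variable {V : Type*} [NormedAddCommGroup V] [InnerProductSpace ℝ V] [FiniteDimensional ℝ V]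

/-- The generic null lemma. -/
theorem null_gen (U : Submodule ℝ V) {f₁ f₂ : V}
    (hf : ∀ a ∈ U, ‖a‖ ^ 2 = ⟪f₁, a⟫ ^ 2 + ⟪f₂, a⟫ ^ 2) {D : ℝ} (hD0 : 0 ≤ D)
    (Cr : ℝ → V → V → Prop)
    (hCr : ∀ α x x', Cr α x x' → ‖U.starProjection x - U.starProjection x'‖ ^ 2 ≤ D ^ 2)
    {C₀ : ℝ} (hC₀ : 0 ≤ C₀)
    (h : ∀ α ∈ Icc (0 : ℝ) 1, ∀ β ∈ Icc (0 : ℝ) 1, ∀ x x' y y', Cr α x x' → Cr β y y' →
      |α - β| ≤ C₀ * ‖(U.starProjection x - U.starProjection x') -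
        (U.starProjection y - U.starProjection y')‖ ^ 2) :
    volume {α | α ∈ Icc (0 : ℝ) 1 ∧ ∃ x x', Cr α x x'} = 0 := by
  set A : Set ℝ := {α | α ∈ Icc (0 : ℝ) 1 ∧ ∃ x x', Cr α x x'} with hA
  have h0 : ∀ α ∈ A, ∃ x x', Cr α x x' := fun α hα => hα.2
  choose! x x' hxx using h0
  set q : ℝ → ℝ × ℝ := fun α =>
    (⟪f₁, U.starProjection (x α) - U.starProjection (x' α)⟫,
     ⟪f₂, U.starProjection (x α) - U.starProjection (x' α)⟫) with hq
  set C : ℝ := C₀ * 2 with hC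
  have hC0 : 0 ≤ C := by positivity
  have key : ∀ α ∈ A, ∀ β ∈ A, |α - β| ≤ C * dist (q α) (q β) ^ 2 := by
    intro α hα β hβ
    refine (h α hα.1 β hβ.1 _ _ _ _ (hxx α hα) (hxx β hβ)).trans ?_
    rw [hC, mul_assoc]
    refine mul_le_mul_of_nonneg_left ?_ hC₀
    rw [hf _ (U.sub_mem (U.sub_mem (sp_mem U _) (sp_mem U _))
      (U.sub_mem (sp_mem U _) (sp_mem U _))), Prod.dist_eq, Real.dist_eq, Real.dist_eq]
    simp only [hq]
    rw [← inner_sub_right, ← inner_sub_right]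
    set a := ⟪f₁, U.starProjection (x α) - U.starProjection (x' α) -
      (U.starProjection (x β) - U.starProjection (x' β))⟫
    set b := ⟪f₂, U.starProjection (x α) - U.starProjection (x' α) -
      (U.starProjection (x β) - U.starProjection (x' β))⟫
    have ha : a ^ 2 ≤ (max |a| |b|) ^ 2 := by
      rw [← sq_abs a]
      have := le_max_left |a| |b|
      gcongr
    have hb : b ^ 2 ≤ (max |a| |b|) ^ 2 := by
      rw [← sq_abs b]
      have := le_max_right |a| |b|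
      gcongr
    linarith
  have hinj : InjOn q A := by
    intro α hα β hβ hab
    have := key α hα β hβ
    rw [hab, dist_self] at this
    have h0 : |α - β| ≤ 0 := by simpa using this
    exact sub_eq_zero.1 (abs_nonpos_iff.1 h0)
  have hbd : Bornology.IsBounded (q '' A) := by
    refine (isBounded_closedBall (x := (0 : ℝ × ℝ)) (r := D)).subset ?_
    rintro _ ⟨α, hα, rfl⟩
    have h4 := hCr α _ _ (hxx α hα)
    rw [hf _ (U.sub_mem (sp_mem U _) (sp_mem U _))] at h4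
    rw [mem_closedBall_zero_iff, Prod.norm_def, Real.norm_eq_abs, Real.norm_eq_abs]
    refine max_le ?_ ?_
    · refine abs_le_of_sq_le_sq ?_ hD0
      have := sq_nonneg ⟪f₂, U.starProjection (x α) - U.starProjection (x' α)⟫
      linarith
    · refine abs_le_of_sq_le_sq ?_ hD0
      have := sq_nonneg ⟪f₁, U.starProjection (x α) - U.starProjection (x' α)⟫
      linarith
  set f : ℝ × ℝ → ℝ := Function.invFunOn q A with hfdef
  have hfq : ∀ α ∈ A, f (q α) = α := fun α hα => hinj.leftInvOn_invFunOn hα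
  have himg : f '' (q '' A) = A := by
    ext α
    constructor
    · rintro ⟨_, ⟨β, hβ, rfl⟩, rfl⟩
      rw [hfq β hβ]
      exact hβ
    · intro hα
      exact ⟨q α, ⟨α, hα, rfl⟩, hfq α hα⟩
  have := null_image hbd (f := f) hC0 (by
    rintro _ ⟨α, hα, rfl⟩ _ ⟨β, hβ, rfl⟩
    rw [hfq α hα, hfq β hβ]
    exact key α hα β hβ)
  rwa [himg] at this

/-- The real inequality behind the null lemma of order three. -/
theorem order_three_real {D T s s' t t' ν κ p₁ p₂ I : ℝ} (hD : 0 ≤ D) (hT : 0 ≤ T) (hν : 0 < ν)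
    (hs : ν ≤ s) (hs' : ν ≤ s') (ht : ν ≤ t) (ht' : ν ≤ t')
    (hI : -4 * I ≤ T ^ 2) (hp : |p₁ - p₂| ≤ T * (2 * D))
    (hE : p₁ + s ^ 2 + s' ^ 2 + s * s' = p₂ + t ^ 2 + t' ^ 2 + t * t')
    (hS : 2 * I - (s - t) * (s' - t') + κ * (s * t' + t * s') ≤ 0) (hκ : 0 ≤ κ) :
    κ ≤ (1 + (2 * D / (3 * ν)) ^ 2) / (4 * ν ^ 2) * T ^ 2 := by
  set L : ℝ := 2 * D / (3 * ν) with hL
  have hL0 : 0 ≤ L := by positivity
  set dP : ℝ := (s + s') - (t + t') with hdP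
  set dM : ℝ := (s - s') - (t - t') with hdM
  set S : ℝ := s + s' + t + t' with hSdef
  have hS4 : 4 * ν ≤ S := by rw [hSdef]; linarith
  have hS0 : 0 < S := by linarith
  have h1 : 3 / 4 * (dP * S) = -(p₁ - p₂) - 1 / 4 * (dM * ((s - s') + (t - t'))) := by
    rw [hdP, hdM, hSdef]
    linarith
  have h2 : |(s - s') + (t - t')| ≤ S := by
    rw [abs_le, hSdef]
    constructor <;> linarith
  have h3 : 3 / 4 * (|dP| * S) ≤ T * (2 * D) + 1 / 4 * (|dM| * S) := by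
    have h4 : 3 / 4 * (|dP| * S) = |3 / 4 * (dP * S)| := by
      rw [abs_mul, abs_mul, abs_of_pos hS0, abs_of_pos (by norm_num : (0 : ℝ) < 3 / 4)]
    rw [h4, h1]
    have h5 : |-(p₁ - p₂) - 1 / 4 * (dM * ((s - s') + (t - t')))| ≤
        |p₁ - p₂| + 1 / 4 * (|dM| * |(s - s') + (t - t')|) := by
      refine (abs_sub _ _).trans ?_
      rw [abs_neg, abs_mul, abs_mul, abs_of_pos (by norm_num : (0 : ℝ) < 1 / 4)]
    have h6 : |dM| * |(s - s') + (t - t')| ≤ |dM| * S :=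
      mul_le_mul_of_nonneg_left h2 (abs_nonneg _)
    linarith
  have h7 : |dP| ≤ L * T + 1 / 3 * |dM| := by
    have h8 : 3 / 4 * ((|dP| - 1 / 3 * |dM|) * S) ≤ T * (2 * D) := by linarith
    rcases le_total (|dP| - 1 / 3 * |dM|) 0 with h | h
    · have : 0 ≤ L * T := by positivity
      linarith
    · have h9 : 3 / 4 * ((|dP| - 1 / 3 * |dM|) * (4 * ν)) ≤ T * (2 * D) := by
        have := mul_le_mul_of_nonneg_left hS4 h
        linarith
      have h10 : |dP| - 1 / 3 * |dM| ≤ L * T := by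
        have e : L * T = 2 * D * T / (3 * ν) := by rw [hL]; ring
        rw [e, le_div_iff₀ (by positivity)]
        linarith
      linarith
  have h11 : dP ^ 2 ≤ 2 * (L * T) ^ 2 + dM ^ 2 := by
    have h12 : dP ^ 2 ≤ (L * T + 1 / 3 * |dM|) ^ 2 := by
      rw [← sq_abs dP]
      gcongr
    have h13 : |dM| ^ 2 = dM ^ 2 := sq_abs dM
    nlinarith [sq_nonneg (L * T - 1 / 3 * |dM|), sq_nonneg |dM|]
  have h14 : (s - t) * (s' - t') = 1 / 4 * (dP ^ 2 - dM ^ 2) := by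
    rw [hdP, hdM]
    ring
  have h15 : κ * (s * t' + t * s') ≤ (1 + L ^ 2) / 2 * T ^ 2 := by
    have : (L * T) ^ 2 = L ^ 2 * T ^ 2 := by ring
    nlinarith
  have h16 : 2 * ν ^ 2 ≤ s * t' + t * s' := by
    have h17 : ν * ν ≤ s * t' := mul_le_mul hs ht' hν.le (by linarith)
    have h18 : ν * ν ≤ t * s' := mul_le_mul ht hs' hν.le (by linarith)
    linarith
  have h19 : κ * (2 * ν ^ 2) ≤ (1 + L ^ 2) / 2 * T ^ 2 :=
    (mul_le_mul_of_nonneg_left h16 hκ).trans h15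
  have h20 : (1 + L ^ 2) / (4 * ν ^ 2) * T ^ 2 = ((1 + L ^ 2) / 2 * T ^ 2) / (2 * ν ^ 2) := by
    field_simp
    ring
  rw [h20, le_div_iff₀ (by positivity)]
  exact h19

theorem kappa_lower {Δ : ℝ} (hΔ : |Δ| ≤ 1) :
    1 / 4 * |Δ| ≤ Real.cos Δ + √3 * |Real.sin Δ| - 1 := by
  have h1 : 1 / 2 * |Δ| ≤ |Real.sin Δ| := by
    have h12 : |Δ| ≤ Real.pi / 2 := by linarith [Real.pi_gt_three]
    have h13 := Real.mul_le_sin (abs_nonneg Δ) h12
    rw [Real.abs_sin_eq_sin_abs_of_abs_le_pi (by linarith [Real.pi_gt_three])]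
    have h15 : (1 : ℝ) / 2 ≤ 2 / Real.pi := by
      rw [div_le_div_iff₀ (by norm_num) Real.pi_pos]
      linarith [Real.pi_le_four]
    have h16 := mul_le_mul_of_nonneg_right h15 (abs_nonneg Δ)
    linarith
  have h2 : 0 ≤ Real.cos Δ := by
    rw [← Real.cos_abs]
    exact Real.cos_nonneg_of_mem_Icc ⟨by linarith [abs_nonneg Δ, Real.pi_pos],
      by linarith [Real.pi_gt_three]⟩
  have h3 : 1 - Real.cos Δ ≤ |Real.sin Δ| := by
    have h4 := Real.sin_sq_add_cos_sq Δ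
    have h5 := Real.cos_le_one Δ
    have h6 : |Real.sin Δ| ≤ 1 := Real.abs_sin_le_one Δ
    have h7 : |Real.sin Δ| ^ 2 = Real.sin Δ ^ 2 := sq_abs _
    nlinarith [abs_nonneg (Real.sin Δ)]
  have h8 : (3 / 2 : ℝ) ≤ √3 := by
    rw [Real.le_sqrt' (by norm_num)]
    norm_num
  have h9 := mul_le_mul_of_nonneg_right h8 (abs_nonneg (Real.sin Δ))
  linarith

section
variable (U : Submodule ℝ V) {K : Set V} {D : ℝ}
  {e₁ e₂ : V} (h₁ : ‖e₁‖ = 1) (h₂ : ‖e₂‖ = 1) (h₁₂ : ⟪e₁, e₂⟫ = 0)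
  (hzc : ∀ x, zc U x = ⟪e₁, x⟫ • e₁ + ⟪e₂, x⟫ • e₂)

include h₁ h₂ h₁₂ hzc

theorem coord_of_zc {x : V} {r α : ℝ} (h : zc U x = r • ea e₁ e₂ α) :
    ⟪e₁, x⟫ = r * Real.cos α ∧ ⟪e₂, x⟫ = r * Real.sin α := by
  have h21 : ⟪e₂, e₁⟫ = 0 := by rw [real_inner_comm]; exact h₁₂
  have h11 : ⟪e₁, e₁⟫ = 1 := by rw [real_inner_self_eq_norm_sq, h₁, one_pow]
  have h22 : ⟪e₂, e₂⟫ = 1 := by rw [real_inner_self_eq_norm_sq, h₂, one_pow]
  rw [hzc, ea] at h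
  constructor
  · have h3 := congrArg (fun z => ⟪e₁, z⟫) h
    simp only [inner_add_right, real_inner_smul_right, h11, h₁₂] at h3
    linarith
  · have h3 := congrArg (fun z => ⟪e₂, z⟫) h
    simp only [inner_add_right, real_inner_smul_right, h21, h22] at h3
    linarith

/-- The mixed inequality for a rotation of order three. -/
theorem mixed (hD : ∀ x ∈ K, ∀ y ∈ K, dist x y ≤ D)
    (hrot : ∀ x ∈ K, rt e₁ e₂ (2 * Real.pi / 3) x ∈ K) {x y : V} (hx : x ∈ K) (hy : y ∈ K)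
    {r s α β Δ : ℝ} (hxe : zc U x = r • ea e₁ e₂ α)
    (hye : zc U y = s • ea e₁ e₂ β)
    (hΔ : β - α = Δ + 2 * Real.pi / 3 ∨ β - α = -Δ - 2 * Real.pi / 3) :
    ‖U.starProjection x - U.starProjection y‖ ^ 2 + r ^ 2 + s ^ 2 +
      r * s * (Real.cos Δ + √3 * |Real.sin Δ|) ≤ D ^ 2 := by
  obtain ⟨hx1, hx2⟩ := coord_of_zc U h₁ h₂ h₁₂ hzc hxe
  obtain ⟨hy1, hy2⟩ := coord_of_zc U h₁ h₂ h₁₂ hzc hye
  have nx : ‖zc U x‖ ^ 2 = r ^ 2 := by
    rw [norm_zc_sq U h₁ h₂ h₁₂ hzc, hx1, hx2]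
    linear_combination r ^ 2 * Real.sin_sq_add_cos_sq α
  have ny : ‖zc U y‖ ^ 2 = s ^ 2 := by
    rw [norm_zc_sq U h₁ h₂ h₁₂ hzc, hy1, hy2]
    linear_combination s ^ 2 * Real.sin_sq_add_cos_sq β
  have hk : ∀ k : ℕ, ‖U.starProjection x - U.starProjection y‖ ^ 2 + r ^ 2 + s ^ 2
      - 2 * (r * s * Real.cos (β - α + k * (2 * Real.pi / 3))) ≤ D ^ 2 := by
    intro k
    have h4 := dist_rt_polar U h₁ h₂ h₁₂ hzc hx1 hx2 hy1 hy2 (k * (2 * Real.pi / 3))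
    have h5 : dist x (rt e₁ e₂ (k * (2 * Real.pi / 3)) y) ^ 2 ≤ D ^ 2 := by
      have := hD x hx _ (iter_rot h₁ h₂ h₁₂ hrot k y hy)
      gcongr
    rw [h4, nx, ny] at h5
    exact h5
  have hA : ∀ σ : ℝ, (σ = 1 ∨ σ = -1) → ‖U.starProjection x - U.starProjection y‖ ^ 2 + r ^ 2
      + s ^ 2 + r * s * (Real.cos Δ + √3 * (σ * Real.sin Δ)) ≤ D ^ 2 := by
    have c2 := H25.cos_two
    have s2 := H25.sin_two
    have c4 := H25.cos_four
    have s4 := H25.sin_four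
    have a0 := hk 0
    have a1 := hk 1
    have a2 := hk 2
    push_cast at a0 a1 a2
    have e2 : (2 : ℝ) * (2 * Real.pi / 3) = 4 * Real.pi / 3 := by ring
    rw [zero_mul, add_zero] at a0
    rw [one_mul] at a1
    rw [e2] at a2
    have E1 : Real.cos (Δ + 2 * Real.pi / 3) = -(1 / 2) * Real.cos Δ - √3 / 2 * Real.sin Δ := by
      rw [Real.cos_add, c2, s2]; ring
    have E2 : Real.cos (Δ + 4 * Real.pi / 3) = -(1 / 2) * Real.cos Δ + √3 / 2 * Real.sin Δ := by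
      rw [Real.cos_add, c4, s4]; ring
    rcases hΔ with h | h
    · have F1 : Real.cos (β - α + 2 * Real.pi / 3) = Real.cos (Δ + 4 * Real.pi / 3) := by
        rw [h]; congr 1; ring
      rw [h, E1] at a0
      rw [F1, E2] at a1
      rintro σ (rfl | rfl) <;> linarith
    · have F0 : Real.cos (β - α) = Real.cos (Δ + 2 * Real.pi / 3) := by
        rw [h, ← Real.cos_neg]; congr 1; ring
      have F2 : Real.cos (β - α + 4 * Real.pi / 3) = Real.cos (Δ + 4 * Real.pi / 3) := by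
        have e : β - α + 4 * Real.pi / 3 = -(Δ + 4 * Real.pi / 3) + 2 * Real.pi := by
          rw [h]; ring
        rw [e, Real.cos_add_two_pi, Real.cos_neg]
      rw [F0, E1] at a0
      rw [F2, E2] at a2
      rintro σ (rfl | rfl) <;> linarith
  rcases abs_cases (Real.sin Δ) with ⟨h, -⟩ | ⟨h, -⟩
  · rw [h]
    have := hA 1 (Or.inl rfl)
    rwa [one_mul] at this
  · rw [h]
    have := hA (-1) (Or.inr rfl)
    rwa [neg_one_mul] at this

/-- The crosses of order three. -/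
def Cross3 (U : Submodule ℝ V) (K : Set V) (D : ℝ) (e₁ e₂ : V) (n : ℕ) (α : ℝ) (x x' : V) :
    Prop :=
  x ∈ K ∧ x' ∈ K ∧ dist x x' = D ∧ ∃ s t : ℝ, zc U x = s • ea e₁ e₂ α ∧
    zc U x' = t • ea e₁ e₂ (α + 2 * Real.pi / 3) ∧ 1 / ((n : ℝ) + 1) ≤ s ∧ 1 / ((n : ℝ) + 1) ≤ t

theorem cross3_ineq (hD0 : 0 ≤ D) (hD : ∀ x ∈ K, ∀ y ∈ K, dist x y ≤ D)
    (hrot : ∀ x ∈ K, rt e₁ e₂ (2 * Real.pi / 3) x ∈ K) {n : ℕ} {α β : ℝ}
    (hα : α ∈ Icc (0 : ℝ) 1) (hβ : β ∈ Icc (0 : ℝ) 1) {x x' y y' : V}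
    (hx : Cross3 U K D e₁ e₂ n α x x') (hy : Cross3 U K D e₁ e₂ n β y y') :
    |α - β| ≤ 4 * ((1 + (2 * D / (3 * (1 / ((n : ℝ) + 1)))) ^ 2) /
      (4 * (1 / ((n : ℝ) + 1)) ^ 2)) *
      ‖(U.starProjection x - U.starProjection x') -
        (U.starProjection y - U.starProjection y')‖ ^ 2 := by
  obtain ⟨hxK, hxK', hxD, s, s', hs, hs', hsn, hsn'⟩ := hx
  obtain ⟨hyK, hyK', hyD, t, t', ht, ht', htn, htn'⟩ := hy
  set ν : ℝ := 1 / ((n : ℝ) + 1) with hν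
  have hν0 : 0 < ν := by positivity
  set Δ : ℝ := β - α with hΔ
  have hΔ1 : |Δ| ≤ 1 := by
    rw [hΔ, abs_le]
    constructor <;> linarith [hα.1, hα.2, hβ.1, hβ.2]
  set κ : ℝ := Real.cos Δ + √3 * |Real.sin Δ| - 1 with hκ
  have hκl : 1 / 4 * |Δ| ≤ κ := kappa_lower hΔ1
  -- the equalities
  have hfar : ∀ {z z' : V} {a b γ : ℝ}, zc U z = a • ea e₁ e₂ γ →
      zc U z' = b • ea e₁ e₂ (γ + 2 * Real.pi / 3) → dist z z' = D →
      ‖U.starProjection z - U.starProjection z'‖ ^ 2 + a ^ 2 + b ^ 2 + a * b = D ^ 2 := by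
    intro z z' a b γ hz hz' hd
    obtain ⟨z1, z2⟩ := coord_of_zc U h₁ h₂ h₁₂ hzc hz
    obtain ⟨z1', z2'⟩ := coord_of_zc U h₁ h₂ h₁₂ hzc hz'
    have h1 := dist_sq U z z'
    rw [hd, norm_sub_sq_real (zc U z), inner_zc_zc U h₁ h₂ h₁₂ hzc, norm_zc_sq U h₁ h₂ h₁₂ hzc,
      norm_zc_sq U h₁ h₂ h₁₂ hzc, z1, z2, z1', z2'] at h1
    have h2 : Real.cos γ * Real.cos (γ + 2 * Real.pi / 3) +
        Real.sin γ * Real.sin (γ + 2 * Real.pi / 3) = -1 / 2 := by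
      have e : Real.cos (γ + 2 * Real.pi / 3 - γ) = -1 / 2 := by
        rw [add_sub_cancel_left]
        exact H25.cos_two
      rw [Real.cos_sub] at e
      linarith
    have h3 := Real.sin_sq_add_cos_sq γ
    have h4 := Real.sin_sq_add_cos_sq (γ + 2 * Real.pi / 3)
    linear_combination (-1 : ℝ) * h1 - a ^ 2 * h3 - b ^ 2 * h4 + 2 * a * b * h2
  have E1 := hfar hs hs' hxD
  have E2 := hfar ht ht' hyD
  -- the mixed inequalities
  have I1 := mixed U h₁ h₂ h₁₂ hzc hD hrot hxK hyK' (Δ := Δ) hs ht'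
    (Or.inl (by rw [hΔ]; ring))
  have I2 := mixed U h₁ h₂ h₁₂ hzc hD hrot hxK' hyK (Δ := -Δ) hs' ht
    (Or.inr (by rw [hΔ]; ring))
  rw [Real.cos_neg, Real.sin_neg, abs_neg] at I2
  set a := U.starProjection x
  set b := U.starProjection x'
  set c := U.starProjection y
  set d := U.starProjection y'
  have e6 : ‖(a - b) - (c - d)‖ ^ 2 = ‖(a - c) - (b - d)‖ ^ 2 := by
    congr 2
    abel
  have e7 : ‖a - d‖ ^ 2 + ‖b - c‖ ^ 2 - ‖a - b‖ ^ 2 - ‖c - d‖ ^ 2 = 2 * ⟪a - c, b - d⟫ := by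
    simp only [norm_sub_sq_real, inner_sub_left, inner_sub_right]
    rw [real_inner_comm b c]
    ring
  have hI : -4 * ⟪a - c, b - d⟫ ≤ ‖(a - b) - (c - d)‖ ^ 2 := by
    have e5 : 0 ≤ ‖(a - c) + (b - d)‖ ^ 2 := sq_nonneg _
    rw [norm_add_sq_real] at e5
    rw [e6, norm_sub_sq_real (a - c)]
    linarith
  have hab : ‖a - b‖ ≤ D := by
    refine le_of_sq_le_sq ?_ hD0
    nlinarith [mul_nonneg (hν0.le.trans hsn) (hν0.le.trans hsn'), sq_nonneg s, sq_nonneg s']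
  have hcd : ‖c - d‖ ≤ D := by
    refine le_of_sq_le_sq ?_ hD0
    nlinarith [mul_nonneg (hν0.le.trans htn) (hν0.le.trans htn'), sq_nonneg t, sq_nonneg t']
  have hp : |‖a - b‖ ^ 2 - ‖c - d‖ ^ 2| ≤ ‖(a - b) - (c - d)‖ * (2 * D) := by
    have h1 : ‖a - b‖ ^ 2 - ‖c - d‖ ^ 2 = (‖a - b‖ - ‖c - d‖) * (‖a - b‖ + ‖c - d‖) := by ring
    rw [h1, abs_mul, abs_of_nonneg (add_nonneg (norm_nonneg _) (norm_nonneg _))]
    exact mul_le_mul (abs_norm_sub_norm_le _ _) (by linarith)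
      (add_nonneg (norm_nonneg _) (norm_nonneg _)) (norm_nonneg _)
  have key := order_three_real (D := D) (T := ‖(a - b) - (c - d)‖) (κ := κ)
    (p₁ := ‖a - b‖ ^ 2) (p₂ := ‖c - d‖ ^ 2) (I := ⟪a - c, b - d⟫) hD0 (norm_nonneg _) hν0
    hsn hsn' htn htn' hI hp (by linarith) (by
      rw [← e7, hκ]
      nlinarith [I1, I2, E1, E2]) (by
      have := abs_nonneg Δ
      linarith)
  have h1 : |α - β| = |Δ| := by rw [hΔ, abs_sub_comm]
  rw [h1]
  have h2 : |Δ| ≤ 4 * κ := by linarith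
  refine h2.trans ?_
  rw [mul_assoc]
  exact mul_le_mul_of_nonneg_left key (by norm_num)

/-- There is an angle without far pairs at 120 degrees. -/
theorem exists_good_angle_three {f₁ f₂ : V}
    (hf : ∀ a ∈ U, ‖a‖ ^ 2 = ⟪f₁, a⟫ ^ 2 + ⟪f₂, a⟫ ^ 2) (hD0 : 0 ≤ D)
    (hD : ∀ x ∈ K, ∀ y ∈ K, dist x y ≤ D)
    (hrot : ∀ x ∈ K, rt e₁ e₂ (2 * Real.pi / 3) x ∈ K) :
    ∃ α : ℝ, ∀ x ∈ K, ∀ x' ∈ K, dist x x' = D → ∀ s t : ℝ, 0 < s → 0 < t →
      zc U x = s • ea e₁ e₂ α → zc U x' = t • ea e₁ e₂ (α + 2 * Real.pi / 3) → False := by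
  have h0 : volume (⋃ n : ℕ, {α | α ∈ Icc (0 : ℝ) 1 ∧
      ∃ x x', Cross3 U K D e₁ e₂ n α x x'}) = 0 := by
    refine measure_iUnion_null fun n => ?_
    refine null_gen U hf hD0 (fun α x x' => Cross3 U K D e₁ e₂ n α x x') ?_
      (C₀ := 4 * ((1 + (2 * D / (3 * (1 / ((n : ℝ) + 1)))) ^ 2) /
        (4 * (1 / ((n : ℝ) + 1)) ^ 2))) (by positivity) ?_
    · rintro α x x' ⟨-, -, hd, -⟩
      have h5 := dist_sq U x x'
      rw [hd] at h5
      have := sq_nonneg ‖zc U x - zc U x'‖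
      linarith
    · intro α hα β hβ x x' y y' hx hy
      exact cross3_ineq U h₁ h₂ h₁₂ hzc hD0 hD hrot hα hβ hx hy
  have h1 : ∃ α ∈ Icc (0 : ℝ) 1,
      α ∉ ⋃ n : ℕ, {α | α ∈ Icc (0 : ℝ) 1 ∧ ∃ x x', Cross3 U K D e₁ e₂ n α x x'} := by
    by_contra hcon
    push Not at hcon
    have h2 : volume (Icc (0 : ℝ) 1) ≤ 0 := by
      rw [← h0]
      exact measure_mono hcon
    rw [Real.volume_Icc] at h2
    norm_num at h2
  obtain ⟨α, hα, hαn⟩ := h1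
  refine ⟨α, fun x hx x' hx' hd s t hs0 ht0 hs ht => ?_⟩
  obtain ⟨n, hn⟩ := exists_nat_one_div_lt (lt_min hs0 ht0)
  refine hαn (mem_iUnion.2 ⟨n, hα, x, x', hx, hx', hd, s, t, hs, ht, ?_, ?_⟩)
  · exact (hn.trans_le (min_le_left _ _)).le
  · exact (hn.trans_le (min_le_right _ _)).le

/-- Rotations act on the directions. -/
theorem zc_rt {x : V} {r α : ℝ} (hx : zc U x = r • ea e₁ e₂ α) (η : ℝ) :
    zc U (rt e₁ e₂ η x) = r • ea e₁ e₂ (α + η) := by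
  obtain ⟨x1, x2⟩ := coord_of_zc U h₁ h₂ h₁₂ hzc hx
  rw [hzc, inner_rt_left h₁ h₁₂, inner_rt_right h₂ h₁₂, x1, x2, ea, Real.cos_add, Real.sin_add]
  match_scalars <;> ring

omit hzc [FiniteDimensional ℝ V] in
theorem dist_rt_rt (η : ℝ) (x y : V) : dist (rt e₁ e₂ η x) (rt e₁ e₂ η y) = dist x y := by
  have h := dist_rt h₁ h₂ h₁₂ η (rt e₁ e₂ η x) y
  have h3 := dist_rt h₁ h₂ h₁₂ (-η) y (rt e₁ e₂ η x)
  rw [rt_rt h₁ h₂ h₁₂, neg_add_cancel] at h3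
  have e0 : rt e₁ e₂ 0 x = x := by simp [rt]
  rw [e0, dist_comm y x, dist_comm y (rt e₁ e₂ η x), inner_rt_left h₁ h₁₂,
    inner_rt_right h₂ h₁₂, Real.cos_neg, Real.sin_neg] at h3
  rw [inner_rt_left h₁ h₁₂, inner_rt_right h₂ h₁₂] at h
  have h4 : dist (rt e₁ e₂ η x) (rt e₁ e₂ η y) ^ 2 = dist x y ^ 2 := by
    linear_combination h - h3
  exact (pow_left_inj₀ dist_nonneg dist_nonneg two_ne_zero).1 h4

end

end Vale.Agent.P052.H487
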