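import Vale.Agent.P052.H487.Sec

/-!
Borsuk's partition problem for sets with a rotation about a flat of codimension two:
the sectors.
-/

namespace Vale.Agent.P052.H487

open Metric Set
open scoped RealInnerProductSpace
open Vale.Agent.P052.H768 (zc zc_mem sp_mem sp_add_zc inner_zc inner_sp zc_sub norm_sq_split
  continuous_zc tr tr_compact tr_dist smallerCover_of)

/-- Some multiple of an angle in `(0, π]` turns every direction to the other side. -/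
theorem exists_turn {θ δ : ℝ} (hθ0 : 0 < θ) (hθ : θ ≤ Real.pi) (hδ : δ ≤ 2 * Real.pi) :
    ∃ k : ℕ, Real.cos (δ + k * θ) ≤ 0 := by
  set δ' := δ - 2 * Real.pi with hδ'
  have h0 : 0 ≤ (Real.pi / 2 - δ') / θ := by
    apply div_nonneg _ hθ0.le
    linarith [Real.pi_pos]
  refine ⟨⌈(Real.pi / 2 - δ') / θ⌉₊, ?_⟩
  have h1 := Nat.le_ceil ((Real.pi / 2 - δ') / θ)
  have h2 := Nat.ceil_lt_add_one h0
  set k : ℝ := (⌈(Real.pi / 2 - δ') / θ⌉₊ : ℝ) with hk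
  rw [div_le_iff₀ hθ0] at h1
  have h3 : k * θ < Real.pi / 2 - δ' + θ := by
    have h4 := mul_lt_mul_of_pos_right h2 hθ0
    rw [add_mul, div_mul_cancel₀ _ hθ0.ne', one_mul] at h4
    exact h4
  have h5 : Real.cos (δ + k * θ) = Real.cos (δ' + k * θ) := by
    have : δ + k * θ = δ' + k * θ + 2 * Real.pi := by rw [hδ']; ring
    rw [this, Real.cos_add_two_pi]
  rw [h5]
  exact Real.cos_nonpos_of_pi_div_two_le_of_le (by linarith) (by linarith)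

section
variable {V : Type*} [NormedAddCommGroup V] [InnerProductSpace ℝ V] [FiniteDimensional ℝ V]
  (U : Submodule ℝ V) {K : Set V} {D : ℝ}
  {e₁ e₂ : V} (h₁ : ‖e₁‖ = 1) (h₂ : ‖e₂‖ = 1) (h₁₂ : ⟪e₁, e₂⟫ = 0)
  (hzc : ∀ x, zc U x = ⟪e₁, x⟫ • e₁ + ⟪e₂, x⟫ • e₂)

include h₁ h₂ h₁₂

omit [FiniteDimensional ℝ V] in
theorem iter_rot {θ : ℝ} (hrot : ∀ x ∈ K, rt e₁ e₂ θ x ∈ K) (k : ℕ) :
    ∀ x ∈ K, rt e₁ e₂ (k * θ) x ∈ K := by
  induction k with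
  | zero =>
    intro x hx
    simpa [rt] using hx
  | succ k ih =>
    intro x hx
    have h := hrot _ (ih x hx)
    rw [rt_rt h₁ h₂ h₁₂] at h
    have e : θ + k * θ = ((k + 1 : ℕ) : ℝ) * θ := by push_cast; ring
    rwa [e] at h

include hzc

theorem inner_zc_zc (x y : V) :
    ⟪zc U x, zc U y⟫ = ⟪e₁, x⟫ * ⟪e₁, y⟫ + ⟪e₂, x⟫ * ⟪e₂, y⟫ := by
  have h21 : ⟪e₂, e₁⟫ = 0 := by rw [real_inner_comm]; exact h₁₂
  have h11 : ⟪e₁, e₁⟫ = 1 := by rw [real_inner_self_eq_norm_sq, h₁, one_pow]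
  have h22 : ⟪e₂, e₂⟫ = 1 := by rw [real_inner_self_eq_norm_sq, h₂, one_pow]
  rw [hzc, hzc]
  simp only [inner_add_left, inner_add_right, real_inner_smul_left, real_inner_smul_right,
    h11, h22, h₁₂, h21]
  ring

theorem norm_zc_sq (x : V) : ‖zc U x‖ ^ 2 = ⟪e₁, x⟫ ^ 2 + ⟪e₂, x⟫ ^ 2 := by
  rw [← real_inner_self_eq_norm_sq, inner_zc_zc U h₁ h₂ h₁₂ hzc]
  ring

theorem dist_rt' (η : ℝ) (x y : V) :
    dist x (rt e₁ e₂ η y) ^ 2 = ‖U.starProjection x - U.starProjection y‖ ^ 2 +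
      ‖zc U x‖ ^ 2 + ‖zc U y‖ ^ 2
      - 2 * (⟪e₁, x⟫ * (Real.cos η * ⟪e₁, y⟫ - Real.sin η * ⟪e₂, y⟫) +
        ⟪e₂, x⟫ * (Real.sin η * ⟪e₁, y⟫ + Real.cos η * ⟪e₂, y⟫)) := by
  rw [dist_rt h₁ h₂ h₁₂, dist_sq U x y, norm_sub_sq_real (zc U x),
    inner_zc_zc U h₁ h₂ h₁₂ hzc]
  ring

theorem dist_rt_polar {r s α β : ℝ} {x y : V} (hx1 : ⟪e₁, x⟫ = r * Real.cos α)
    (hx2 : ⟪e₂, x⟫ = r * Real.sin α) (hy1 : ⟪e₁, y⟫ = s * Real.cos β)
    (hy2 : ⟪e₂, y⟫ = s * Real.sin β) (η : ℝ) :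
    dist x (rt e₁ e₂ η y) ^ 2 = ‖U.starProjection x - U.starProjection y‖ ^ 2 +
      ‖zc U x‖ ^ 2 + ‖zc U y‖ ^ 2 - 2 * (r * s * Real.cos (β - α + η)) := by
  rw [dist_rt' U h₁ h₂ h₁₂ hzc, hx1, hx2, hy1, hy2, Real.cos_add, Real.cos_sub, Real.sin_sub]
  ring

theorem pair_rot (hD : ∀ x ∈ K, ∀ y ∈ K, dist x y ≤ D) {θ : ℝ} (hθ0 : 0 < θ)
    (hθ : θ ≤ Real.pi) (hrot : ∀ x ∈ K, rt e₁ e₂ θ x ∈ K) :
    ∀ x ∈ K, ∀ y ∈ K, ‖U.starProjection x - U.starProjection y‖ ^ 2 ≤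
      D ^ 2 - ‖zc U x‖ ^ 2 - ‖zc U y‖ ^ 2 := by
  intro x hx y hy
  obtain ⟨r, α, hr0, -, hα0, hα1, hx1, hx2⟩ := exists_polar ⟪e₁, x⟫ ⟪e₂, x⟫
  obtain ⟨s, β, hs0, -, hβ0, hβ1, hy1, hy2⟩ := exists_polar ⟪e₁, y⟫ ⟪e₂, y⟫
  obtain ⟨k, hk⟩ := exists_turn (δ := β - α) hθ0 hθ (by linarith)
  have h1 := dist_rt_polar U h₁ h₂ h₁₂ hzc hx1 hx2 hy1 hy2 (k * θ)
  have h2 : dist x (rt e₁ e₂ (k * θ) y) ^ 2 ≤ D ^ 2 := by
    have := hD x hx _ (iter_rot h₁ h₂ h₁₂ hrot k y hy)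
    gcongr
  rw [h1] at h2
  have h3 : r * s * Real.cos (β - α + k * θ) ≤ 0 :=
    mul_nonpos_of_nonneg_of_nonpos (by positivity) hk
  linarith

theorem small_rot (hD : ∀ x ∈ K, ∀ y ∈ K, dist x y ≤ D) {θ : ℝ} (hθ0 : 0 < θ)
    (hθ : θ ≤ 2 * Real.pi / 3) (hrot : ∀ x ∈ K, rt e₁ e₂ θ x ∈ K) :
    ∀ x ∈ K, 3 * ‖zc U x‖ ^ 2 ≤ D ^ 2 := by
  intro x hx
  obtain ⟨r, α, hr0, hr2, hα0, hα1, hx1, hx2⟩ := exists_polar ⟪e₁, x⟫ ⟪e₂, x⟫
  have h0 : 0 ≤ (2 * Real.pi / 3) / θ := by positivity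
  have h1 := Nat.le_ceil ((2 * Real.pi / 3) / θ)
  have h2 := Nat.ceil_lt_add_one h0
  rw [div_le_iff₀ hθ0] at h1
  have h3 := mul_lt_mul_of_pos_right h2 hθ0
  rw [add_mul, div_mul_cancel₀ _ hθ0.ne', one_mul] at h3
  have h4 := dist_rt_polar U h₁ h₂ h₁₂ hzc hx1 hx2 hx1 hx2 (⌈(2 * Real.pi / 3) / θ⌉₊ * θ)
  have h5 : dist x (rt e₁ e₂ (⌈(2 * Real.pi / 3) / θ⌉₊ * θ) x) ^ 2 ≤ D ^ 2 := by
    have := hD x hx _ (iter_rot h₁ h₂ h₁₂ hrot ⌈(2 * Real.pi / 3) / θ⌉₊ x hx)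
    gcongr
  rw [h4, sub_self, norm_zero, sub_self, zero_add] at h5
  set η : ℝ := (⌈(2 * Real.pi / 3) / θ⌉₊ : ℝ) * θ with hη
  have h6 : Real.cos η ≤ -(1 / 2) := by
    have h7 : Real.cos η = - Real.cos |η - Real.pi| := by
      rw [Real.cos_abs, Real.cos_sub_pi, neg_neg]
    have h8 : |η - Real.pi| ≤ Real.pi / 3 := by
      rw [abs_le]
      constructor <;> linarith
    have h9 : Real.cos (Real.pi / 3) ≤ Real.cos |η - Real.pi| :=
      Real.cos_le_cos_of_nonneg_of_le_pi (abs_nonneg _) (by linarith [Real.pi_pos]) h8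
    rw [Real.cos_pi_div_three] at h9
    rw [h7]
    linarith
  have h10 : ‖zc U x‖ ^ 2 = r ^ 2 := by rw [norm_zc_sq U h₁ h₂ h₁₂ hzc, hr2]
  rw [h10] at h5 ⊢
  have h11 : r * r * Real.cos η ≤ r * r * (-(1 / 2)) :=
    mul_le_mul_of_nonneg_left h6 (by positivity)
  nlinarith

theorem half_rot (hD : ∀ x ∈ K, ∀ y ∈ K, dist x y ≤ D) (hD0 : 0 ≤ D)
    (hrot : ∀ x ∈ K, rt e₁ e₂ Real.pi x ∈ K) :
    ∀ x ∈ K, 2 * ‖zc U x‖ ≤ D := by
  intro x hx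
  have h4 := dist_rt' U h₁ h₂ h₁₂ hzc Real.pi x x
  have h5 : dist x (rt e₁ e₂ Real.pi x) ^ 2 ≤ D ^ 2 := by
    have := hD x hx _ (hrot x hx)
    gcongr
  have h6 := norm_zc_sq U h₁ h₂ h₁₂ hzc x
  rw [h4, sub_self, norm_zero, Real.cos_pi, Real.sin_pi] at h5
  have h7 : (2 * ‖zc U x‖) ^ 2 ≤ D ^ 2 := by
    nlinarith
  exact le_of_sq_le_sq h7 hD0

/-- The sectors. -/
theorem sec_rot (hK : IsCompact K) (hD : ∀ x ∈ K, ∀ y ∈ K, dist x y ≤ D)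
    {φ : ℝ} (hφ0 : 0 < φ) {m : ℕ} (hm : 0 < m) (hφm : 2 * Real.pi / m + φ ≤ Real.pi)
    (hrot : ∀ x ∈ K, rt e₁ e₂ (2 * φ) x ∈ K) (α₀ : ℝ)
    (hgood : 2 * Real.pi / m + φ = Real.pi → ∀ k : ℕ, k < m → ∀ x ∈ K, ∀ y ∈ K, dist x y = D →
      ∀ r s : ℝ, 0 < r → 0 < s → zc U x = r • ea e₁ e₂ (α₀ + 2 * Real.pi / m * k) →
      zc U y = s • ea e₁ e₂ (α₀ + 2 * Real.pi / m * (k + 1)) → False) : Sec U K D m := by
  have hm0 : (0 : ℝ) < m := by exact_mod_cast hm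
  have hpos : 0 < 2 * Real.pi / m := by positivity
  obtain ⟨R₀, hR₀⟩ := hK.exists_bound_of_continuousOn (f := zc U) (continuous_zc U).continuousOn
  set T : Fin m → Set V := fun k => (fun p : ℝ × ℝ => p.1 • ea e₁ e₂ (α₀ + p.2)) ''
    (Icc 0 (max R₀ 0) ×ˢ Icc (2 * Real.pi / m * (k : ℕ)) (2 * Real.pi / m * ((k : ℕ) + 1)))
    with hT
  have hTc : ∀ k, IsCompact (T k) := by
    intro k
    refine (isCompact_Icc.prod isCompact_Icc).image ?_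
    unfold ea
    fun_prop
  have h21 : ⟪e₂, e₁⟫ = 0 := by rw [real_inner_comm]; exact h₁₂
  have h11 : ⟪e₁, e₁⟫ = 1 := by rw [real_inner_self_eq_norm_sq, h₁, one_pow]
  have h22 : ⟪e₂, e₂⟫ = 1 := by rw [real_inner_self_eq_norm_sq, h₂, one_pow]
  -- coordinates
  have hcoord : ∀ (x : V) (r α : ℝ), zc U x = r • ea e₁ e₂ α →
      ⟪e₁, x⟫ = r * Real.cos α ∧ ⟪e₂, x⟫ = r * Real.sin α := by
    intro x r α h
    rw [hzc, ea] at h
    constructor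
    · have h3 := congrArg (fun z => ⟪e₁, z⟫) h
      simp only [inner_add_right, real_inner_smul_right, h11, h₁₂] at h3
      linarith
    · have h3 := congrArg (fun z => ⟪e₂, z⟫) h
      simp only [inner_add_right, real_inner_smul_right, h21, h22] at h3
      linarith
  have hfar1 : ∀ x ∈ K, ∀ y ∈ K, ∀ r s α β : ℝ, 0 < r → 0 < s → zc U x = r • ea e₁ e₂ α →
      zc U y = s • ea e₁ e₂ β → α ≤ β → β - α ≤ 2 * Real.pi / m → dist x y = D →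
      β - α = 2 * Real.pi / m ∧ 2 * Real.pi / m + φ = Real.pi := by
    intro x hx y hy r s α β hr hs hxe hye hαβ hβα hd
    obtain ⟨hx1, hx2⟩ := hcoord x r α hxe
    obtain ⟨hy1, hy2⟩ := hcoord y s β hye
    have h3 := dist_rt_polar U h₁ h₂ h₁₂ hzc hx1 hx2 hy1 hy2 (2 * φ)
    have h3' := dist_sq U x y
    rw [norm_sub_sq_real (zc U x), inner_zc_zc U h₁ h₂ h₁₂ hzc, hx1, hx2, hy1, hy2, hd] at h3'
    have h4 : dist x (rt e₁ e₂ (2 * φ) y) ^ 2 ≤ D ^ 2 := by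
      have := hD x hx _ (hrot y hy)
      gcongr
    have h5 : r * s * (Real.cos (β - α) - Real.cos (β - α + 2 * φ)) ≤ 0 := by
      have e1 : Real.cos (β - α) = Real.cos β * Real.cos α + Real.sin β * Real.sin α :=
        Real.cos_sub β α
      rw [mul_sub, e1]
      linarith
    have h6 : Real.cos (β - α) - Real.cos (β - α + 2 * φ) =
        2 * Real.sin (β - α + φ) * Real.sin φ := by
      rw [Real.cos_sub_cos]
      have e1 : (β - α + (β - α + 2 * φ)) / 2 = β - α + φ := by ring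
      have e2 : (β - α - (β - α + 2 * φ)) / 2 = -φ := by ring
      rw [e1, e2, Real.sin_neg]
      ring
    rcases lt_or_eq_of_le (show β - α + φ ≤ Real.pi by linarith) with hlt | heq
    · exfalso
      have h7 : 0 < Real.sin (β - α + φ) :=
        Real.sin_pos_of_pos_of_lt_pi (by linarith) hlt
      have h8 : 0 < Real.sin φ := Real.sin_pos_of_pos_of_lt_pi hφ0 (by linarith)
      rw [h6] at h5
      have h9 : 0 < r * s * (2 * Real.sin (β - α + φ) * Real.sin φ) := by positivity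
      linarith
    · constructor <;> linarith
  refine ⟨fun k => {x | zc U x ∈ T k}, fun k => (hTc k).isClosed.preimage (continuous_zc U),
    ?_, ?_, ?_⟩
  · intro x hx
    obtain ⟨r, θ, hr0, hr2, hθ0, hθ1, ha, hb⟩ := exists_polar
      (Real.cos α₀ * ⟪e₁, x⟫ + Real.sin α₀ * ⟪e₂, x⟫)
      (Real.cos α₀ * ⟪e₂, x⟫ - Real.sin α₀ * ⟪e₁, x⟫)
    set k : ℕ := ⌊θ / (2 * Real.pi / m)⌋₊ with hk
    have hk1 : (k : ℝ) ≤ θ / (2 * Real.pi / m) := Nat.floor_le (by positivity)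
    have hk2 : θ / (2 * Real.pi / m) < k + 1 := Nat.lt_floor_add_one _
    rw [le_div_iff₀ hpos] at hk1
    rw [div_lt_iff₀ hpos] at hk2
    have hkm : k < m := by
      have h1 : (k : ℝ) * (2 * Real.pi / m) < m * (2 * Real.pi / m) := by
        have : (m : ℝ) * (2 * Real.pi / m) = 2 * Real.pi := by field_simp
        linarith
      have h2 : (k : ℝ) < m := lt_of_mul_lt_mul_right h1 hpos.le
      exact_mod_cast h2
    have hsc := Real.sin_sq_add_cos_sq α₀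
    have hx1 : ⟪e₁, x⟫ = r * Real.cos (α₀ + θ) := by
      rw [Real.cos_add]
      linear_combination Real.cos α₀ * ha - Real.sin α₀ * hb - ⟪e₁, x⟫ * hsc
    have hx2 : ⟪e₂, x⟫ = r * Real.sin (α₀ + θ) := by
      rw [Real.sin_add]
      linear_combination Real.sin α₀ * ha + Real.cos α₀ * hb - ⟪e₂, x⟫ * hsc
    have hzx : zc U x = r • ea e₁ e₂ (α₀ + θ) := by
      rw [hzc, hx1, hx2, ea, smul_add, smul_smul, smul_smul]
    have hrn : ‖zc U x‖ = r := by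
      have h3 : ‖zc U x‖ ^ 2 = r ^ 2 := by
        rw [norm_zc_sq U h₁ h₂ h₁₂ hzc, hr2]
        linear_combination (-(⟪e₁, x⟫ ^ 2 + ⟪e₂, x⟫ ^ 2)) * hsc
      exact (pow_left_inj₀ (norm_nonneg _) hr0 two_ne_zero).1 h3
    have hrR : r ≤ max R₀ 0 := by
      rw [← hrn]
      exact (hR₀ x hx).trans (le_max_left _ _)
    refine mem_iUnion.2 ⟨⟨k, hkm⟩, (r, θ), ⟨⟨hr0, hrR⟩, ?_, ?_⟩, hzx.symm⟩
    · simpa [mul_comm] using hk1
    · simp only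
      linarith
  · intro k x hx h0
    refine ⟨(0, 2 * Real.pi / m * (k : ℕ)), ⟨⟨le_refl _, le_max_right _ _⟩, le_refl _, ?_⟩, ?_⟩
    · simp only
      linarith
    · simp only
      rw [zero_smul, h0]
  · intro k x hx y hy hxk hyk hd
    obtain ⟨⟨r, α⟩, ⟨hr, hα⟩, hxe⟩ := hxk
    obtain ⟨⟨s, β⟩, ⟨hs, hβ⟩, hye⟩ := hyk
    simp only at hr hα hxe hs hβ hye
    by_contra hcon
    push Not at hcon
    obtain ⟨hx0, hy0⟩ := hcon
    have hr0 : 0 < r := by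
      refine lt_of_le_of_ne hr.1 fun h => ?_
      rw [← h, zero_smul] at hxe
      exact hx0 hxe.symm
    have hs0 : 0 < s := by
      refine lt_of_le_of_ne hs.1 fun h => ?_
      rw [← h, zero_smul] at hye
      exact hy0 hye.symm
    rcases le_total α β with h | h
    · obtain ⟨h3, h4⟩ := hfar1 x hx y hy r s (α₀ + α) (α₀ + β) hr0 hs0 hxe.symm hye.symm
        (by linarith) (by linarith [hα.1, hβ.2]) hd
      have hα' : α = 2 * Real.pi / m * (k : ℕ) := by linarith [hα.1, hβ.2]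
      have hβ' : β = 2 * Real.pi / m * ((k : ℕ) + 1) := by linarith [hα.1, hβ.2]
      exact hgood h4 k k.2 x hx y hy hd r s hr0 hs0 (by rw [← hxe, hα'])
        (by rw [← hye, hβ'])
    · obtain ⟨h3, h4⟩ := hfar1 y hy x hx s r (α₀ + β) (α₀ + α) hs0 hr0 hye.symm hxe.symm
        (by linarith) (by linarith [hβ.1, hα.2]) (by rw [dist_comm]; exact hd)
      have hβ' : β = 2 * Real.pi / m * (k : ℕ) := by linarith [hβ.1, hα.2]
      have hα' : α = 2 * Real.pi / m * ((k : ℕ) + 1) := by linarith [hβ.1, hα.2]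
      exact hgood h4 k k.2 y hy x hx (by rw [dist_comm]; exact hd) s r hs0 hr0
        (by rw [← hye, hβ']) (by rw [← hxe, hα'])

end

end Vale.Agent.P052.H487
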