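import Mathlib.MeasureTheory.Covering.Besicovitch
import Mathlib.MeasureTheory.Covering.BesicovitchVectorSpace
import Mathlib.MeasureTheory.Function.Jacobian
import Mathlib.MeasureTheory.Measure.Hausdorff
import Mathlib.MeasureTheory.Function.Floor

/-!
A Sard type lemma: a real function on a bounded subset of the plane which satisfies
`|f x - f y| ≤ C |x - y| ^ 2` has a null image.
-/

namespace Vale.Agent.P052.H487

open Metric Set MeasureTheory Filter
open scoped Topology ENNReal NNReal Pointwise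

instance isAddHaar_prod : (volume : Measure (ℝ × ℝ)).IsAddHaarMeasure := by
  rw [Measure.volume_eq_prod]
  infer_instance

/-- At a density point the constant can be taken as small as we like. -/
theorem density_point {Q : Set (ℝ × ℝ)} {f : ℝ × ℝ → ℝ} {C : ℝ} (hC : 0 ≤ C)
    (hf : ∀ x ∈ Q, ∀ y ∈ Q, |f x - f y| ≤ C * dist x y ^ 2) {x : ℝ × ℝ} (hxQ : x ∈ Q)
    (hx : Tendsto (fun r => volume (Q ∩ closedBall x r) / volume (closedBall x r)) (𝓝[>] 0)
      (𝓝 1)) {ε : ℝ} (hε : 0 < ε) :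
    ∃ ρ > 0, ∀ y ∈ Q, dist x y < ρ → |f x - f y| ≤ ε * dist x y ^ 2 := by
  obtain ⟨L, hL⟩ := exists_nat_gt (max 1 (4 * C / ε))
  have hL1 : (1 : ℝ) < L := lt_of_le_of_lt (le_max_left _ _) hL
  have hL2 : 4 * C / ε < L := lt_of_le_of_lt (le_max_right _ _) hL
  have hL0 : (0 : ℝ) < L := by linarith
  set η : ℝ := 1 / (4 * L) with hη
  have hη0 : 0 < η := by positivity
  obtain ⟨T, hTsub, hTfin, hTcov⟩ :=
    (isCompact_closedBall (0 : ℝ × ℝ) 1).finite_cover_balls hη0
  have h1 : ∀ t ∈ T, ∀ᶠ r in 𝓝[>] (0 : ℝ), (Q ∩ ({x} + r • closedBall t η)).Nonempty := by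
    intro t _
    exact Measure.eventually_nonempty_inter_smul_of_density_one volume Q x hx _
      measurableSet_closedBall (measure_closedBall_pos volume t hη0).ne'
  have h2 : ∀ᶠ r in 𝓝[>] (0 : ℝ), ∀ t ∈ T, (Q ∩ ({x} + r • closedBall t η)).Nonempty :=
    (eventually_all_finite hTfin).2 h1
  obtain ⟨ρ, hρ0, hρ⟩ := (mem_nhdsGT_iff_exists_Ioo_subset).1 h2
  refine ⟨ρ, hρ0, fun y hy hxy => ?_⟩
  rcases eq_or_ne x y with rfl | hne
  · simp
  set r : ℝ := dist x y with hr
  have hr0 : 0 < r := dist_pos.2 hne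
  have hnet := hρ ⟨hr0, hxy⟩
  have hnorm : ‖y - x‖ = r := by rw [← dist_eq_norm, dist_comm]
  -- the chain
  have hz : ∀ i : ℕ, ∃ z ∈ Q, (i ≤ L → dist z (x + ((i : ℝ) / L) • (y - x)) ≤ 2 * η * r) ∧
      (i = 0 → z = x) ∧ (i = L → z = y) := by
    intro i
    rcases Nat.eq_zero_or_pos i with h0 | hpos
    · subst h0
      refine ⟨x, hxQ, fun _ => ?_, fun _ => rfl, fun h => ?_⟩
      · simp only [Nat.cast_zero, zero_div, zero_smul, add_zero, dist_self]
        positivity
      · rw [← h] at hL0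
        simp at hL0
    by_cases hiL : i = L
    · refine ⟨y, hy, fun _ => ?_, fun h => ?_, fun _ => rfl⟩
      · rw [hiL, div_self hL0.ne', one_smul, add_sub_cancel, dist_self]
        positivity
      · omega
    by_cases hiL2 : i ≤ L
    · have hiLr : (i : ℝ) ≤ L := by exact_mod_cast hiL2
      have hu : ((i : ℝ) / L / r) • (y - x) ∈ closedBall (0 : ℝ × ℝ) 1 := by
        rw [mem_closedBall_zero_iff, norm_smul, hnorm, Real.norm_eq_abs,
          abs_of_nonneg (by positivity), div_mul_cancel₀ _ hr0.ne', div_le_one hL0]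
        exact hiLr
      obtain ⟨t, ht, hut⟩ := mem_iUnion₂.1 (hTcov hu)
      obtain ⟨z, hzQ, hz⟩ := hnet t ht
      obtain ⟨a, ha, b, hb, hab⟩ := Set.mem_add.1 hz
      obtain ⟨c, hc, hcb⟩ := Set.mem_smul_set.1 hb
      rw [mem_singleton_iff] at ha
      refine ⟨z, hzQ, fun _ => ?_, fun h => by omega, fun h => absurd h hiL⟩
      have h3 : z - (x + ((i : ℝ) / L) • (y - x)) = r • (c - ((i : ℝ) / L / r) • (y - x)) := by
        rw [smul_sub r, smul_smul, mul_div_cancel₀ _ hr0.ne', ← hab, ha, ← hcb]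
        abel
      rw [dist_eq_norm, h3, norm_smul, Real.norm_eq_abs, abs_of_pos hr0, ← dist_eq_norm]
      have h4 : dist c (((i : ℝ) / L / r) • (y - x)) ≤ 2 * η := by
        have h5 := dist_triangle c t (((i : ℝ) / L / r) • (y - x))
        have h6 : dist c t ≤ η := hc
        have h7 : dist (((i : ℝ) / L / r) • (y - x)) t < η := hut
        rw [dist_comm] at h7
        linarith
      nlinarith
    · exact ⟨x, hxQ, fun h => absurd h hiL2, fun _ => rfl, fun h => absurd h hiL⟩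
  choose z hzQ hz1 hz2 hz3 using hz
  have hchain := dist_le_range_sum_of_dist_le (f := fun i => f (z i)) L
    (d := fun _ => C * (2 * r / L) ^ 2) (by
      intro k hk
      have h3 := hz1 k (by omega)
      have h4 := hz1 (k + 1) (by omega)
      have h5 : dist (x + ((k : ℝ) / L) • (y - x)) (x + (((k + 1 : ℕ) : ℝ) / L) • (y - x))
          = r / L := by
        rw [dist_eq_norm]
        have : x + ((k : ℝ) / L) • (y - x) - (x + (((k + 1 : ℕ) : ℝ) / L) • (y - x))
            = (-(1 / (L : ℝ))) • (y - x) := by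
          rw [add_sub_add_left_eq_sub, ← sub_smul]
          congr 1
          push_cast
          ring
        rw [this, norm_smul, hnorm, Real.norm_eq_abs, abs_neg, abs_of_pos (by positivity)]
        ring
      have h6 : dist (z k) (z (k + 1)) ≤ 2 * r / L := by
        have h7 := dist_triangle4 (z k) (x + ((k : ℝ) / L) • (y - x))
          (x + (((k + 1 : ℕ) : ℝ) / L) • (y - x)) (z (k + 1))
        rw [dist_comm (x + (((k + 1 : ℕ) : ℝ) / L) • (y - x)) (z (k + 1))] at h7
        have h8 : 2 * η * r + r / L + 2 * η * r = 2 * r / L := by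
          rw [hη]
          field_simp
          ring
        linarith
      have h9 := hf (z k) (hzQ k) (z (k + 1)) (hzQ (k + 1))
      rw [Real.dist_eq]
      refine h9.trans ?_
      have h10 : dist (z k) (z (k + 1)) ^ 2 ≤ (2 * r / L) ^ 2 := by
        gcongr
      exact mul_le_mul_of_nonneg_left h10 hC)
  rw [Finset.sum_const, Finset.card_range, nsmul_eq_mul, hz2 0 rfl, hz3 L rfl,
    Real.dist_eq] at hchain
  refine hchain.trans ?_
  have h11 : (L : ℝ) * (C * (2 * r / L) ^ 2) = (4 * C / L) * r ^ 2 := by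
    field_simp
    ring
  rw [h11]
  have h12 : 4 * C / L ≤ ε := by
    rw [div_le_iff₀ hL0]
    rw [div_lt_iff₀ hε] at hL2
    linarith
  gcongr

theorem vol_image_le {S : Set (ℝ × ℝ)} {f : ℝ × ℝ → ℝ} {c : ℝ} (hc : 0 ≤ c)
    (h : ∀ x ∈ S, ∀ y ∈ S, |f x - f y| ≤ c * dist x y ^ 2) :
    volume (f '' S) ≤ ENNReal.ofReal c * volume S := by
  have h1 : HolderOnWith (Real.toNNReal c) 2 f S := by
    intro x hx y hy
    rw [edist_dist, edist_dist, Real.dist_eq]
    have h2 : ((Real.toNNReal c : ℝ≥0) : ℝ≥0∞) = ENNReal.ofReal c := rfl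
    have h3 : ENNReal.ofReal (dist x y) ^ ((2 : ℝ≥0) : ℝ) = ENNReal.ofReal (dist x y ^ 2) := by
      rw [ENNReal.ofReal_rpow_of_nonneg dist_nonneg (by positivity)]
      congr 1
      rw [show (((2 : ℝ≥0) : ℝ)) = ((2 : ℕ) : ℝ) by norm_num, Real.rpow_natCast]
    rw [h2, h3, ← ENNReal.ofReal_mul hc]
    exact ENNReal.ofReal_le_ofReal (h x hx y hy)
  have h4 := h1.hausdorffMeasure_image_le (by norm_num) (d := 1) zero_le_one
  have h5 : ((2 : ℝ≥0) : ℝ) * 1 = 2 := by norm_num
  rw [h5, hausdorffMeasure_real, hausdorffMeasure_prod_real,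
    ENNReal.rpow_one] at h4
  exact h4

theorem vol_image_le_of_local {S B : Set (ℝ × ℝ)} (hSB : S ⊆ B)
    {f : ℝ × ℝ → ℝ} {c : ℝ} (hc : 0 ≤ c) (m : ℕ) (hm : 0 < m)
    (h : ∀ x ∈ S, ∀ y ∈ S, dist x y < 1 / (m : ℝ) → |f x - f y| ≤ c * dist x y ^ 2) :
    volume (f '' S) ≤ ENNReal.ofReal c * volume B := by
  have hm0 : (0 : ℝ) < m := by exact_mod_cast hm
  set g : ℝ × ℝ → ℤ × ℤ := fun x => (⌊(m : ℝ) * x.1⌋, ⌊(m : ℝ) * x.2⌋) with hg
  have hgm : Measurable g := by
    rw [hg]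
    exact ((Int.measurable_floor.comp (measurable_const.mul measurable_fst))).prodMk
      ((Int.measurable_floor.comp (measurable_const.mul measurable_snd)))
  have h1 : f '' S ⊆ ⋃ p : ℤ × ℤ, f '' (S ∩ g ⁻¹' {p}) := by
    rintro _ ⟨x, hx, rfl⟩
    exact mem_iUnion.2 ⟨g x, x, ⟨hx, rfl⟩, rfl⟩
  have hfl : ∀ a b : ℝ, ⌊(m : ℝ) * a⌋ = ⌊(m : ℝ) * b⌋ → |a - b| < 1 / m := by
    intro a b hab
    have h2 := Int.abs_sub_lt_one_of_floor_eq_floor hab
    rw [← mul_sub, abs_mul, abs_of_pos hm0] at h2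
    rw [lt_div_iff₀ hm0]
    linarith
  have h2 : ∀ p : ℤ × ℤ, volume (f '' (S ∩ g ⁻¹' {p})) ≤
      ENNReal.ofReal c * (volume.restrict B) (g ⁻¹' {p}) := by
    intro p
    refine (vol_image_le hc ?_).trans ?_
    · rintro x ⟨hx, hxp⟩ y ⟨hy, hyp⟩
      have hxy : g x = g y := by
        rw [mem_preimage, mem_singleton_iff] at hxp hyp
        rw [hxp, hyp]
      have h3 := hfl _ _ (congrArg Prod.fst hxy)
      have h4 := hfl _ _ (congrArg Prod.snd hxy)
      refine h x hx y hy ?_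
      rw [Prod.dist_eq, Real.dist_eq, Real.dist_eq]
      exact max_lt h3 h4
    · refine mul_le_mul_right ?_ _
      rw [Measure.restrict_apply (hgm (measurableSet_singleton p)), inter_comm]
      exact measure_mono (inter_subset_inter_right _ hSB)
  calc volume (f '' S) ≤ volume (⋃ p : ℤ × ℤ, f '' (S ∩ g ⁻¹' {p})) := measure_mono h1
    _ ≤ ∑' p : ℤ × ℤ, volume (f '' (S ∩ g ⁻¹' {p})) := measure_iUnion_le _
    _ ≤ ∑' p : ℤ × ℤ, ENNReal.ofReal c * (volume.restrict B) (g ⁻¹' {p}) :=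
        ENNReal.tsum_le_tsum h2
    _ = ENNReal.ofReal c * ∑' p : ℤ × ℤ, (volume.restrict B) (g ⁻¹' {p}) :=
        ENNReal.tsum_mul_left
    _ = ENNReal.ofReal c * (volume.restrict B) (⋃ p : ℤ × ℤ, g ⁻¹' {p}) := by
        rw [measure_iUnion (fun p q hpq => ?_) (fun p => hgm (measurableSet_singleton p))]
        exact Disjoint.preimage _ (by simpa using hpq)
    _ ≤ ENNReal.ofReal c * volume B := by
        refine mul_le_mul_right ?_ _
        refine (measure_mono (subset_univ _)).trans ?_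
        rw [Measure.restrict_apply_univ]

/-- The Sard type lemma. -/
theorem null_image {Q : Set (ℝ × ℝ)} (hQ : Bornology.IsBounded Q) {f : ℝ × ℝ → ℝ} {C : ℝ}
    (hC : 0 ≤ C) (hf : ∀ x ∈ Q, ∀ y ∈ Q, |f x - f y| ≤ C * dist x y ^ 2) :
    volume (f '' Q) = 0 := by
  obtain ⟨R, hR⟩ := hQ.subset_closedBall (0 : ℝ × ℝ)
  have hB : volume (closedBall (0 : ℝ × ℝ) R) < ∞ := measure_closedBall_lt_top
  -- the exceptional points
  set P : ℝ × ℝ → Prop := fun x =>
    Tendsto (fun r => volume (Q ∩ closedBall x r) / volume (closedBall x r)) (𝓝[>] 0) (𝓝 1)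
    with hP
  have hN : volume (Q ∩ {x | ¬ P x}) = 0 := by
    have h1 : (volume.restrict Q) {x | ¬ P x} = 0 :=
      Besicovitch.ae_tendsto_measure_inter_div volume Q
    refine le_antisymm (le_trans ?_ h1.le) zero_le
    rw [inter_comm]
    exact Measure.le_restrict_apply _ _
  have hN2 : volume (f '' (Q ∩ {x | ¬ P x})) = 0 := by
    refine le_antisymm ((vol_image_le hC (fun x hx y hy => hf x hx.1 y hy.1)).trans ?_)
      zero_le
    rw [hN, mul_zero]
  -- the density points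
  have hmain : ∀ ε : ℝ, 0 < ε →
      volume (f '' Q) ≤ ENNReal.ofReal ε * volume (closedBall (0 : ℝ × ℝ) R) := by
    intro ε hε
    set S : ℕ → Set (ℝ × ℝ) := fun j =>
      {x ∈ Q | ∀ y ∈ Q, dist x y < 1 / ((j + 1 : ℕ) : ℝ) → |f x - f y| ≤ ε * dist x y ^ 2} with hS
    have hmono : Monotone fun j => f '' S j := by
      intro i j hij
      refine image_mono ?_
      rintro x ⟨hx, h⟩
      refine ⟨hx, fun y hy hxy => h y hy (lt_of_lt_of_le hxy ?_)⟩
      have h1 : ((i + 1 : ℕ) : ℝ) ≤ ((j + 1 : ℕ) : ℝ) := by exact_mod_cast Nat.succ_le_succ hij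
      have h2 : (0 : ℝ) < ((i + 1 : ℕ) : ℝ) := by positivity
      exact one_div_le_one_div_of_le h2 h1
    have hsub : f '' Q ⊆ (f '' (Q ∩ {x | ¬ P x})) ∪ ⋃ j, f '' S j := by
      rintro _ ⟨x, hx, rfl⟩
      by_cases hPx : P x
      · right
        obtain ⟨ρ, hρ, hρ2⟩ := density_point hC hf hx hPx hε
        obtain ⟨j, hj⟩ := exists_nat_one_div_lt hρ
        refine mem_iUnion.2 ⟨j, x, ⟨hx, fun y hy hxy => hρ2 y hy (lt_trans hxy ?_)⟩, rfl⟩
        push_cast
        exact hj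
      · left
        exact ⟨x, ⟨hx, hPx⟩, rfl⟩
    calc volume (f '' Q) ≤ volume ((f '' (Q ∩ {x | ¬ P x})) ∪ ⋃ j, f '' S j) :=
          measure_mono hsub
      _ ≤ volume (f '' (Q ∩ {x | ¬ P x})) + volume (⋃ j, f '' S j) := measure_union_le _ _
      _ = ⨆ j, volume (f '' S j) := by rw [hN2, zero_add, hmono.measure_iUnion]
      _ ≤ ENNReal.ofReal ε * volume (closedBall (0 : ℝ × ℝ) R) := by
          refine iSup_le fun j => ?_
          refine vol_image_le_of_local (fun x hx => hR hx.1) hε.le (j + 1) (Nat.succ_pos j) ?_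
          intro x hx y hy hxy
          exact hx.2 y hy.1 hxy
  refine le_antisymm ?_ zero_le
  refine ge_of_tendsto (f := fun ε : ℝ => ENNReal.ofReal ε * volume (closedBall (0 : ℝ × ℝ) R))
    (x := 𝓝[>] 0) ?_ ?_
  · have h1 : Tendsto (fun ε : ℝ => ENNReal.ofReal ε) (𝓝[>] 0) (𝓝 0) := by
      have := (ENNReal.continuous_ofReal.tendsto 0).mono_left
        (nhdsWithin_le_nhds (s := Ioi (0 : ℝ)))
      simpa using this
    have h2 := ENNReal.Tendsto.mul_const (b := volume (closedBall (0 : ℝ × ℝ) R)) h1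
      (Or.inr hB.ne)
    simpa using h2
  · filter_upwards [self_mem_nhdsWithin] with ε hε
    exact hmain ε hε

end Vale.Agent.P052.H487
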