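import Vale.Agent.P052.H487.Rot
import Vale.Agent.P052.H25.Three

/-!
Borsuk's partition problem: directional sectors, and the three ways to use them.
`zc U x` is the component of `x` in the directions orthogonal to the flat.
-/

namespace Vale.Agent.P052.H487

open Metric Set
open scoped RealInnerProductSpace
open Vale.Agent.P052.H768 (zc zc_mem sp_mem sp_add_zc inner_zc inner_sp zc_sub norm_sq_split
  continuous_zc tr tr_compact tr_dist smallerCover_of)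

variable {V : Type*} [NormedAddCommGroup V] [InnerProductSpace ℝ V] [FiniteDimensional ℝ V]

/-- `n` closed sectors: a far pair in one sector has a point on the flat. -/
def Sec (U : Submodule ℝ V) (K : Set V) (D : ℝ) (n : ℕ) : Prop :=
  ∃ Q : Fin n → Set V, (∀ i, IsClosed (Q i)) ∧ (K ⊆ ⋃ i, Q i) ∧
    (∀ i, ∀ x ∈ K, zc U x = 0 → x ∈ Q i) ∧
    ∀ i, ∀ x ∈ K, ∀ y ∈ K, x ∈ Q i → y ∈ Q i → dist x y = D → zc U x = 0 ∨ zc U y = 0

/-- Gluing: classes of the last sector and the other sectors. -/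
theorem sec_glue (U : Submodule ℝ V) {K : Set V} (hK : IsCompact K) {D : ℝ}
    (hD : ∀ x ∈ K, ∀ y ∈ K, dist x y ≤ D) {m e : ℕ}
    (hsec : Sec U K D (m + 1))
    (hrem : ∀ R : Set V, IsCompact R → R ⊆ K →
      (∀ x ∈ R, ∀ y ∈ R, dist x y = D → zc U x = 0 ∨ zc U y = 0) →
      ∃ C : Fin e → Set V, (∀ j, IsCompact (C j)) ∧ (∀ j, C j ⊆ R) ∧ R ⊆ ⋃ j, C j ∧
        ∀ j, ∀ x ∈ C j, ∀ y ∈ C j, dist x y ≠ D) :
    ∃ C : Fin m ⊕ Fin e → Set V, K ⊆ ⋃ i, C i ∧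
      ∃ D' < D, ∀ i, ∀ x ∈ C i, ∀ y ∈ C i, dist x y ≤ D' := by
  obtain ⟨Q, hQc, hQK, hQ0, hQfar⟩ := hsec
  obtain ⟨C, hCc, hCR, hRC, hCfar⟩ := hrem (K ∩ Q (Fin.last m)) (hK.inter_right (hQc _))
    inter_subset_left (fun x hx y hy h => hQfar _ x hx.1 y hy.1 hx.2 hy.2 h)
  have hCD : ∀ j, ∀ x ∈ C j, ∀ y ∈ C j, dist x y ≤ D :=
    fun j x hx y hy => hD x (hCR j hx).1 y (hCR j hy).1
  choose O hO1 hO2 hO3 using fun j => H25.exists_open_nofar (hCc j) (hCD j) (hCfar j)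
  set K' : Set V := K \ ⋃ j, O j with hK'
  have hK'c : IsCompact K' := hK.diff (isOpen_iUnion hO1)
  have hK'0 : ∀ x ∈ K', x ∉ Q (Fin.last m) := by
    rintro x ⟨hx, hx'⟩ hxQ
    obtain ⟨j, hj⟩ := mem_iUnion.1 (hRC ⟨hx, hxQ⟩)
    exact hx' (mem_iUnion.2 ⟨j, hO2 j hj⟩)
  choose O' hO1' hO2' hO3' using fun i : Fin m => H25.exists_open_nofar
    (C := K' ∩ Q i.castSucc) (hK'c.inter_right (hQc _))
    (D := D) (fun x hx y hy => hD x hx.1.1 y hy.1.1) (by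
      intro x hx y hy h
      rcases hQfar i.castSucc x hx.1.1 y hy.1.1 hx.2 hy.2 h with h0 | h0
      · exact hK'0 x hx.1 (hQ0 _ x hx.1.1 h0)
      · exact hK'0 y hy.1 (hQ0 _ y hy.1.1 h0))
  obtain ⟨P, -, -, hP3, D', hD', hP4⟩ := H768.shrink (ι := Fin m ⊕ Fin e) hK hD (Sum.elim O' O)
    (by
      rintro (i | j)
      · exact hO1' i
      · exact hO1 j)
    (by
      intro x hx
      by_cases h : x ∈ ⋃ j, O j
      · obtain ⟨j, hj⟩ := mem_iUnion.1 h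
        exact mem_iUnion.2 ⟨Sum.inr j, hj⟩
      · have hx' : x ∈ K' := ⟨hx, h⟩
        obtain ⟨i, hi⟩ := mem_iUnion.1 (hQK hx)
        rcases Fin.eq_castSucc_or_eq_last i with ⟨i', rfl⟩ | rfl
        · exact mem_iUnion.2 ⟨Sum.inl i', hO2' i' ⟨hx', hi⟩⟩
        · exact absurd hi (hK'0 x hx'))
    (by
      rintro (i | j) x _ y _ h1 h2
      · exact hO3' i x h1 y h2
      · exact hO3 j x h1 y h2)
  exact ⟨P, hP3, D', hD', hP4⟩

/-- Sectors and classes on the flat. -/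
theorem sec_flat (U : Submodule ℝ V) {K : Set V} (hK : IsCompact K) {D : ℝ}
    (hD : ∀ x ∈ K, ∀ y ∈ K, dist x y ≤ D) {n N : ℕ} (hsec : Sec U K D n)
    (P : Fin N → Set V) (hP : ∀ i, ∃ D' < D, ∀ x ∈ P i, ∀ y ∈ P i, dist x y ≤ D')
    (hcov : ∀ x ∈ K, zc U x = 0 → ∃ i, x ∈ P i) :
    ∃ C : Fin N ⊕ Fin n → Set V, K ⊆ ⋃ i, C i ∧
      ∃ D' < D, ∀ i, ∀ x ∈ C i, ∀ y ∈ C i, dist x y ≤ D' := by
  obtain ⟨Q, hQc, hQK, hQ0, hQfar⟩ := hsec
  obtain ⟨B, D₀, hD₀, δ, hδ, hBo, hBD, hBδ⟩ := thick U hK P hP hcov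
  set R : Set V := K \ ⋃ i, B i with hR
  have hRc : IsCompact R := hK.diff (isOpen_iUnion hBo)
  have hRδ : ∀ x ∈ R, zc U x ≠ 0 := fun x hx h0 => by
    have := hBδ x hx.1 fun i hi => hx.2 (mem_iUnion.2 ⟨i, hi⟩)
    rw [h0, norm_zero] at this
    linarith
  choose O hO1 hO2 hO3 using fun i : Fin n => H25.exists_open_nofar
    (C := R ∩ Q i) (hRc.inter_right (hQc _))
    (D := D) (fun x hx y hy => hD x hx.1.1 y hy.1.1) (by
      intro x hx y hy h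
      rcases hQfar i x hx.1.1 y hy.1.1 hx.2 hy.2 h with h0 | h0
      · exact hRδ x hx.1 h0
      · exact hRδ y hy.1 h0)
  obtain ⟨P', -, -, hP3, D', hD', hP4⟩ := H768.shrink (ι := Fin N ⊕ Fin n) hK hD (Sum.elim B O)
    (by
      rintro (i | j)
      · exact hBo i
      · exact hO1 j)
    (by
      intro x hx
      by_cases h : x ∈ ⋃ j, B j
      · obtain ⟨j, hj⟩ := mem_iUnion.1 h
        exact mem_iUnion.2 ⟨Sum.inl j, hj⟩
      · obtain ⟨i, hi⟩ := mem_iUnion.1 (hQK hx)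
        exact mem_iUnion.2 ⟨Sum.inr i, hO2 i ⟨⟨hx, h⟩, hi⟩⟩)
    (by
      rintro (i | j) x _ y _ h1 h2
      · exact ne_of_lt (lt_of_le_of_lt (hBD i x h1 y h2) hD₀)
      · exact hO3 j x h1 y h2)
  exact ⟨P', hP3, D', hD', hP4⟩

section
variable (U : Submodule ℝ V) {K : Set V} (hK : IsCompact K) (hne : K.Nonempty) {D : ℝ}
  (hD0 : 0 < D) (hD : ∀ x ∈ K, ∀ y ∈ K, dist x y ≤ D)
  (hpair : ∀ x ∈ K, ∀ y ∈ K, ‖U.starProjection x - U.starProjection y‖ ^ 2 ≤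
    D ^ 2 - ‖zc U x‖ ^ 2 - ‖zc U y‖ ^ 2)
include hK hne hD0 hD hpair

omit hD in
/-- The remainder over a plane: three weighted hexagon classes. -/
theorem rem_two_inner (h2 : Module.finrank ℝ U = 2) (hsmall : ∀ x ∈ K, 3 * ‖zc U x‖ ^ 2 ≤ D ^ 2)
    (R : Set V) (hRc : IsCompact R) (hRK : R ⊆ K)
    (hRfar : ∀ x ∈ R, ∀ y ∈ R, dist x y = D → ⟪zc U x, zc U y⟫ = 0) :
    ∃ C : Fin 3 → Set V, (∀ j, IsCompact (C j)) ∧ (∀ j, C j ⊆ R) ∧ R ⊆ ⋃ j, C j ∧
      ∀ j, ∀ x ∈ C j, ∀ y ∈ C j, dist x y ≠ D := by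
  have hUU : Uᗮᗮ = U := Submodule.orthogonal_orthogonal U
  obtain ⟨q₁, q₂, hq₁, hq₂, hq⟩ := H25.exists_coord_two Uᗮ (by rw [hUU]; exact h2)
  have hz : ∀ x, zc Uᗮ x = U.starProjection x := by
    intro x
    rw [zc, Submodule.starProjection_orthogonal_val, sub_sub_cancel]
  have hqd : ∀ x y, ‖U.starProjection x - U.starProjection y‖ ^ 2
      = (q₁ x - q₁ y) ^ 2 + (q₂ x - q₂ y) ^ 2 := by
    intro x y
    rw [← hq, hz, hz]
  set t : ℝ := 3 * D / 5 with ht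
  have ht0 : 0 < t := by positivity
  set ρ : V → ℝ := fun x => D ^ 2 / 2 - ‖zc U x‖ ^ 2 with hρ
  have hρc : Continuous ρ := by
    have := (continuous_zc U).norm
    simp only [hρ]; fun_prop
  obtain ⟨p, hpc, hp0, hpK, hpd⟩ := H25.hexagon hK hne hq₁ hq₂ hρc ht0 (by
    intro x hx y hy
    have h1 := hpair x hx y hy
    rw [hqd] at h1
    simp only [hρ]
    linarith)
  set ra : V → ℝ := fun x => ρ x / (2 * t) + t / 4 with hra
  have hlo : ∀ x ∈ K, t / 3 < ra x := by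
    intro x hx
    have h1 := hsmall x hx
    have h3 : t / 12 < ρ x / (2 * t) := by
      rw [lt_div_iff₀ (by positivity)]
      simp only [hρ, ht]
      nlinarith [mul_pos hD0 hD0]
    simp only [hra]
    linarith
  have hhi : ∀ x, ra x < t := by
    intro x
    have h3 : ρ x / (2 * t) < 3 / 4 * t := by
      rw [div_lt_iff₀ (by positivity)]
      simp only [hρ, ht]
      nlinarith [mul_pos hD0 hD0, sq_nonneg ‖zc U x‖]
    simp only [hra]
    linarith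
  set C : Fin 3 → Set V := fun j => {x | x ∈ R ∧ p j x ≤ p (j + 1) x ∧ p j x ≤ p (j + 2) x}
    with hC
  refine ⟨C, ?_, fun j x hx => hx.1, ?_, ?_⟩
  · exact fun j => hRc.inter_right
      (IsClosed.inter (isClosed_le (hpc _) (hpc _)) (isClosed_le (hpc _) (hpc _)))
  · intro x hx
    have : ∃ j, x ∈ C j := by
      rcases le_total (p 0 x) (p 1 x) with h1 | h1
      · rcases le_total (p 0 x) (p 2 x) with h2 | h2
        · exact ⟨0, hx, h1, h2⟩
        · exact ⟨2, hx, h2, h2.trans h1⟩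
      · rcases le_total (p 1 x) (p 2 x) with h2 | h2
        · exact ⟨1, hx, h2, h1⟩
        · exact ⟨2, hx, h2.trans h1, h2⟩
    exact mem_iUnion.2 this
  · intro j x hx y hy hxy
    have hxK := hRK hx.1
    have hyK := hRK hy.1
    have a1 : ⟪zc U x, zc U y⟫ = 0 := hRfar x hx.1 y hy.1 hxy
    have e1 := dist_sq U x y
    rw [hxy, norm_sub_sq_real (zc U x), a1, hqd] at e1
    have k1 := abs_le.1 (hpK j x hxK)
    have k2 := abs_le.1 (hpK (j + 1) x hxK)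
    have k3 := abs_le.1 (hpK (j + 2) x hxK)
    have m1 := abs_le.1 (hpK j y hyK)
    have m2 := abs_le.1 (hpK (j + 1) y hyK)
    have m3 := abs_le.1 (hpK (j + 2) y hyK)
    have hKr : ∀ z, ρ z / (2 * t) + t / 4 = ra z := fun z => rfl
    rw [hKr] at k1 k2 k3 m1 m2 m3
    have b1 := hp0 j x
    have b2 := hp0 j y
    have x1 := hx.2.1
    have x2 := hx.2.2
    have y1 := hy.2.1
    have y2 := hy.2.2
    have hg := H25.good_of_bounds ht0 (hlo x hxK) (hhi x) (hlo y hyK) (hhi y)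
    have ha0 : ∀ z ∈ K, 0 < ra z := fun z hz => lt_trans (by positivity) (hlo z hz)
    have h3 := H25.pent (ha0 x hxK) (ha0 y hyK) hg
      (x := p (j + 1) x) (y := p (j + 2) x) (x' := p (j + 1) y) (y' := p (j + 2) y)
      k2.2 k3.2 (by linarith [k1.1]) (by linarith) (by linarith)
      m2.2 m3.2 (by linarith [m1.1]) (by linarith) (by linarith)
    rw [← hpd j x y] at h3
    have h4 : 2 * t * (ra x + ra y) - t ^ 2 = ρ x + ρ y := by
      simp only [hra]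
      field_simp
      ring
    rw [h4] at h3
    simp only [hρ] at h3
    linarith

omit hD in
/-- The remainder over a plane: three weighted hexagon classes. -/
theorem rem_two (h2 : Module.finrank ℝ U = 2) (hsmall : ∀ x ∈ K, 3 * ‖zc U x‖ ^ 2 ≤ D ^ 2)
    (R : Set V) (hRc : IsCompact R) (hRK : R ⊆ K)
    (hRfar : ∀ x ∈ R, ∀ y ∈ R, dist x y = D → zc U x = 0 ∨ zc U y = 0) :
    ∃ C : Fin 3 → Set V, (∀ j, IsCompact (C j)) ∧ (∀ j, C j ⊆ R) ∧ R ⊆ ⋃ j, C j ∧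
      ∀ j, ∀ x ∈ C j, ∀ y ∈ C j, dist x y ≠ D := by
  refine rem_two_inner U hK hne hD0 hpair h2 hsmall R hRc hRK ?_
  intro x hx y hy hxy
  rcases hRfar x hx y hy hxy with h | h
  · rw [h, inner_zero_left]
  · rw [h, inner_zero_right]

omit hD in
/-- The remainder over a three dimensional flat: four weighted classes. -/
theorem rem_three (h3 : Module.finrank ℝ U = 3) (hhalf : ∀ x ∈ K, 2 * ‖zc U x‖ ≤ D)
    (R : Set V) (hRc : IsCompact R) (hRK : R ⊆ K)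
    (hRfar : ∀ x ∈ R, ∀ y ∈ R, dist x y = D → zc U x = 0 ∨ zc U y = 0) :
    ∃ C : Fin 4 → Set V, (∀ j, IsCompact (C j)) ∧ (∀ j, C j ⊆ R) ∧ R ⊆ ⋃ j, C j ∧
      ∀ j, ∀ x ∈ C j, ∀ y ∈ C j, dist x y ≠ D := by
  have hUU : Uᗮᗮ = U := Submodule.orthogonal_orthogonal U
  have hzU : ∀ x, zc Uᗮ x = U.starProjection x := by
    intro x
    rw [zc, Submodule.starProjection_orthogonal_val, sub_sub_cancel]
  set s : V → ℝ := fun x => ‖zc U x‖ with hs
  have hsc : Continuous s := (continuous_zc U).norm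
  have hs0 : ∀ x, 0 ≤ s x := fun x => norm_nonneg _
  have hsD : ∀ x ∈ K, 2 * s x ≤ D := hhalf
  have h3' : √3 ^ 2 = 3 := Real.sq_sqrt (by norm_num)
  have h30 : 0 < √3 := Real.sqrt_pos.2 (by norm_num)
  obtain ⟨th, τ, μ, Ce, hth, hτ, hμ, hC⟩ : ∃ (th τ μ : ℝ) (Ce : Fin 4 → ℝ → ℝ → ℝ → Prop),
      0 < th ∧ 0 < τ ∧ 0 < μ ∧ H25.CellsW th τ μ Ce :=
    ⟨9 / 16, 21 / 25, 1 / 2000, _, by norm_num, by norm_num, by norm_num, H638.cells⟩
  have ht0 : 0 < √3 * th := mul_pos h30 hth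
  obtain ⟨z₁, z₂, z₃, hz₁, hz₂, hz₃, hz⟩ := H25.exists_coord_three Uᗮ (by rw [hUU]; exact h3)
  have hzd : ∀ x y, ‖U.starProjection x - U.starProjection y‖ ^ 2
      = (z₁ x - z₁ y) ^ 2 + (z₂ x - z₂ y) ^ 2 + (z₃ x - z₃ y) ^ 2 := by
    intro x y
    rw [← hz, hzU, hzU]
  have hpr : ∀ t : ℝ, 0 < t → ∀ x ∈ K, ∀ y ∈ K,
      (z₁ x - z₁ y) ^ 2 + (z₂ x - z₂ y) ^ 2 + (z₃ x - z₃ y) ^ 2
        ≤ (H25.rw D t (s x) + H25.rw D t (s y)) ^ 2 := by
    intro t ht x hx y hy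
    refine H25.rw_pair' hD0 ht ?_
    rw [← hzd]
    exact hpair x hx y hy
  obtain ⟨q₁, q₂, q₃, hq₁, hq₂, hq₃, hqd, hO, hT⟩ := Vale.Agent.P052.H515.octa2 hK hne
    hz₁ hz₂ hz₃ (rd := fun x => H25.rw D (√3 * th) (s x)) (rd2 := fun x => H25.rw D τ (s x))
    (H25.continuous_rw.comp hsc)
    (fun x hx => H25.rw_nonneg hD0 ht0 (hs0 x) (hsD x hx)) (hpr _ ht0)
    (fun x hx => H25.rw_nonneg hD0 hτ (hs0 x) (hsD x hx)) (hpr _ hτ)
  -- normalised coordinates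
  set ρ : V → ℝ := fun x => 1 / 2 - s x ^ 2 / D ^ 2 with hρ
  have hρlo : ∀ x ∈ K, 1 / 4 ≤ ρ x := by
    intro x hx
    have h1 := hsD x hx
    have h2 : s x ^ 2 / D ^ 2 ≤ 1 / 4 := by
      rw [div_le_iff₀ (by positivity)]
      nlinarith [hs0 x]
    simp only [hρ]; linarith
  have hρhi : ∀ x, ρ x ≤ 1 / 2 := by
    intro x
    have : 0 ≤ s x ^ 2 / D ^ 2 := by positivity
    simp only [hρ]; linarith
  have hrwO : ∀ x, √3 * H25.rw D (√3 * th) (s x) / D = ρ x / (2 * th) + 3 * th / 4 := by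
    intro x
    simp only [H25.rw, hρ]
    field_simp
    rw [h3']
    ring
  have hrwT : ∀ x, H25.rw D τ (s x) / D = ρ x / (2 * τ) + τ / 4 := by
    intro x
    simp only [H25.rw, hρ]
    field_simp
  have hIn : ∀ x ∈ K, H25.InW th τ (ρ x) (q₁ x / D) (q₂ x / D) (q₃ x / D) := by
    intro x hx
    refine ⟨?_, ?_, ?_, ?_⟩
    · rw [← hrwO, abs_div, abs_div, abs_div, abs_of_pos hD0, ← add_div, ← add_div]
      exact div_le_div_of_nonneg_right (hO x hx) hD0.le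
    · rw [← hrwT]; exact div_le_div_of_nonneg_right (hT x hx).1 hD0.le
    · rw [← hrwT]; exact div_le_div_of_nonneg_right (hT x hx).2.1 hD0.le
    · rw [← hrwT]; exact div_le_div_of_nonneg_right (hT x hx).2.2 hD0.le
  have hscale : ∀ x y : V, (q₁ x - q₁ y) ^ 2 + (q₂ x - q₂ y) ^ 2 + (q₃ x - q₃ y) ^ 2
      = D ^ 2 * ((q₁ x / D - q₁ y / D) ^ 2 + (q₂ x / D - q₂ y / D) ^ 2
        + (q₃ x / D - q₃ y / D) ^ 2) := by
    intro x y
    field_simp
  -- the classes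
  set C : Fin 4 → Set V := fun j => {x | x ∈ R ∧ Ce j (q₁ x / D) (q₂ x / D) (q₃ x / D)}
    with hCd
  have hCK : ∀ j, ∀ x ∈ C j, x ∈ K := fun j x hx => hRK hx.1
  -- a far pair, one of the two on the flat
  have key : ∀ j, ∀ x ∈ C j, ∀ y ∈ C j, zc U y = 0 → dist x y = D → False := by
    intro j x hx y hy hy0 hxy
    have h1 := dist_sq U x y
    have hsy : s y = 0 := by simp only [hs]; rw [hy0, norm_zero]
    rw [hxy, hy0, sub_zero, hzd, ← hqd, hscale] at h1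
    have hρy : ρ y = 1 / 2 := by simp only [hρ]; rw [hsy]; simp
    have hy' := hIn y (hCK j y hy)
    rw [hρy] at hy'
    have h2 := hC.pair j (ρ x) _ _ _ _ _ _ (hρlo x (hCK j x hx)) (hρhi x) hx.2 hy.2
      (hIn x (hCK j x hx)) hy'
    have h4 := mul_le_mul_of_nonneg_left h2 (sq_nonneg D)
    have h5 : D ^ 2 * (ρ x + 1 / 2 - μ) = D ^ 2 - s x ^ 2 - D ^ 2 * μ := by
      simp only [hρ]
      field_simp
      ring
    rw [h5] at h4
    have h6 : 0 < D ^ 2 * μ := by positivity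
    have h7 : ‖zc U x‖ ^ 2 = s x ^ 2 := rfl
    rw [h7] at h1
    nlinarith
  refine ⟨C, ?_, fun j x hx => hx.1, ?_, ?_⟩
  · intro j
    refine hRc.inter_right ?_
    exact (hC.closed j).preimage
      ((hq₁.div_const D).prodMk ((hq₂.div_const D).prodMk (hq₃.div_const D)))
  · intro x hx
    obtain ⟨j, hj⟩ := hC.cover (q₁ x / D) (q₂ x / D) (q₃ x / D)
    exact mem_iUnion.2 ⟨j, hx, hj⟩
  · intro j x hx y hy hxy
    rcases hRfar x hx.1 y hy.1 hxy with h | h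
    · rw [dist_comm] at hxy
      exact key j y hy x hx h hxy
    · exact key j x hx y hy h hxy

end

end Vale.Agent.P052.H487
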